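import Vale.Agent.P283R.Cf.St
import Mathlib.FieldTheory.RatFunc.IntermediateField

/-!
# P283R, block CF: the constants of a conic, the splitting of a conic
-/

set_option linter.all false

open Set Polynomial IntermediateField
open Vale.Agent.P297Z

noncomputable section

namespace Vale.Agent.P283R.Cf

open Vale.Agent.P287D

namespace Acc

variable {E F : Type} [Field E] [Field F] [Algebra E F]

/-- quadratic extensions -/
theorem dec {r : F} {a : E} (hr : r ^ 2 = algebraMap E F a) {S : Set F}
    (hS : ∀ x ∈ S, x = r ∨ x = -r) (h : adjoin E S = ⊤) (z : F) :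
    ∃ p p' : E, z = algebraMap E F p + r * algebraMap E F p' := by
  have al : IsAlgebraic E r := ⟨X ^ 2 - C a, X_pow_sub_C_ne_zero two_pos a, by simp [hr]⟩
  have hz : z ∈ Algebra.adjoin E S := by
    rw [← adjoin_toSubalgebra_of_isAlgebraic fun x hx =>
      (hS x hx).elim (fun e => e ▸ al) fun e => e ▸ al.neg, h]
    trivial
  induction hz using Algebra.adjoin_induction with
  | mem x hx => exact (hS x hx).elim (fun e => ⟨0, 1, by simp [e]⟩) fun e => ⟨0, -1, by simp [e]⟩
  | algebraMap c => exact ⟨c, 0, by simp⟩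
  | add x y _ _ hx hy =>
    obtain ⟨p, p', rfl⟩ := hx
    obtain ⟨q, q', rfl⟩ := hy
    exact ⟨p + q, p' + q', by simp only [map_add]; ring⟩
  | mul x y _ _ hx hy =>
    obtain ⟨p, p', rfl⟩ := hx
    obtain ⟨q, q', rfl⟩ := hy
    exact ⟨p * q + a * p' * q', p * q' + p' * q, by simp only [map_add, map_mul, ← hr]; ring⟩

/-- `a t ^ 2 + b` is not a square -/
theorem nsq [CharZero E] {t s : F} {a b : E} (ht : Transcendental E t) (a0 : a ≠ 0) (b0 : b ≠ 0)
    (e : s ^ 2 - algebraMap E F a * t ^ 2 = algebraMap E F b) : s ∉ adjoin E {t} := fun h => by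
  obtain ⟨f, g, rfl⟩ := (mem_adjoin_simple_iff E s).1 h
  have inj := transcendental_iff_injective.1 ht
  have key : ∀ u : E[X], u ^ 2 ≠ C a * X ^ 2 + C b := fun u k => by
    have d := congrArg derivative k
    simp only [derivative_pow, derivative_add, derivative_mul, derivative_C, derivative_X,
      Nat.cast_ofNat, Nat.add_one_sub_one, pow_one, zero_mul, zero_add, add_zero, mul_one,
      map_ofNat] at d
    have dv : u ∣ C (2 * b) := ⟨2 * u - 2 * X * derivative u, by
      rw [map_mul, map_ofNat]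
      linear_combination (-2) * k + X * d⟩
    have n := natDegree_le_of_dvd dv (C_ne_zero.2 (mul_ne_zero two_ne_zero b0))
    rw [natDegree_C, Nat.le_zero] at n
    rw [eq_C_of_natDegree_eq_zero n, ← map_pow] at k
    have := congrArg (coeff · 2) k
    simp only [coeff_add, coeff_C_mul, coeff_X_pow, coeff_C, if_true, OfNat.ofNat_ne_zero,
      if_false, mul_one, add_zero] at this
    exact a0 this.symm
  by_cases g0 : g = 0
  · refine key 0 (inj ?_)
    simp only [g0, map_zero, div_zero] at e
    simp only [map_pow, map_zero, map_add, map_mul, aeval_C, aeval_X]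
    linear_combination e
  have g1 : aeval t g ≠ 0 := fun z => g0 (inj (z.trans (map_zero _).symm))
  have k : f ^ 2 = g ^ 2 * (C a * X ^ 2 + C b) := inj (by
    simp only [map_pow, map_add, map_mul, aeval_C, aeval_X]
    rw [← e]
    field_simp
    ring)
  obtain ⟨u, rfl⟩ := (IsIntegrallyClosed.pow_dvd_pow_iff two_ne_zero).1 ⟨_, k⟩
  exact key u (mul_left_cancel₀ (pow_ne_zero 2 g0) (by rw [← k]; ring))

/-- the constants of `E(t)` -/
theorem rat {t z : F} (ht : Transcendental E t) (hz : z ∈ adjoin E {t}) (al : IsAlgebraic E z) :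
    z ∈ range (algebraMap E F) := by
  let e := RatFunc.algEquivOfTranscendental t ht
  by_contra n
  refine RatFunc.transcendental_of_ne_C (e.symm ⟨z, hz⟩) (fun ⟨c, hc⟩ => n ⟨c, ?_⟩) ?_
  · exact (congrArg Subtype.val ((e.symm_apply_eq.1 hc).trans (e.commutes c))).symm
  · refine (isAlgebraic_algHom_iff ((adjoin E {t}).val.comp e.toAlgHom) (RingHom.injective _)).1 ?_
    change IsAlgebraic E (e (e.symm ⟨z, hz⟩) : F)
    rwa [e.apply_symm_apply]

/-- no ramification where the square root is a unit -/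
theorem unr [Algebra ℂ E] [Algebra ℂ F] {r : F} {a : E} (hr : r ^ 2 = algebraMap E F a)
    (r0 : r ≠ 0) {R : Pl F} {P : Pl E} (l : Lies (algebraMap E F) R P) (o1 : R.ord r = 0)
    (o2 : R.ord (2 * r) = 0)
    (h : ∀ z : F, ∃ p p' : E, z = algebraMap E F p + r * algebraMap E F p') :
    R.ord (algebraMap E F P.t) = 1 := by
  have : CharZero F := charZero_of_injective_algebraMap (algebraMap ℂ F).injective
  have dv : ∀ x : E, R.ord (algebraMap E F P.t) ∣ R.ord (algebraMap E F x) := fun x => ⟨_, l.ord x⟩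
  have r2 : 2 * r ≠ 0 := mul_ne_zero two_ne_zero r0
  have key : ∀ x : E, r - algebraMap E F x ≠ 0 →
      R.ord (algebraMap E F P.t) ∣ R.ord (r - algebraMap E F x) := fun x w0 => by
    rcases lt_trichotomy (R.ord (r - algebraMap E F x)) 0 with c | c | c
    · have := Pl.ord_add_eq_of_lt R.toPlace w0 (neg_ne_zero.2 r0) (by rwa [Pl.ord_neg, o1])
      rw [sub_add_eq_add_sub, add_neg_cancel, zero_sub, Pl.ord_neg] at this
      exact this ▸ dv x
    · exact c ▸ dvd_zero _
    · have k := Pl.ord_add_eq_of_lt R.toPlace r2 (neg_ne_zero.2 w0) (by rwa [Pl.ord_neg, o2])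
      have n : 2 * r + -(r - algebraMap E F x) ≠ 0 := fun z => by
        rw [add_neg_eq_zero.1 z] at o2
        omega
      have := dv (a - x ^ 2)
      rw [map_sub, map_pow, ← hr, show r ^ 2 - algebraMap E F x ^ 2 =
        (r - algebraMap E F x) * (2 * r + -(r - algebraMap E F x)) by ring, Pl.ord_mul _ w0 n,
        k, o2, add_zero] at this
      exact this
  refine Int.eq_one_of_dvd_one l.e_pos.le ?_
  obtain ⟨z, z0, z1⟩ := Pl.exists_ord_eq_one R.toPlace
  obtain ⟨p, p', rfl⟩ := h z
  rw [← z1]
  by_cases p0 : p' = 0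
  · simpa [p0] using dv p
  have p1 : algebraMap E F p' ≠ 0 := (_root_.map_ne_zero _).2 p0
  have e : algebraMap E F p + r * algebraMap E F p' =
      algebraMap E F p' * (r - algebraMap E F (-p / p')) := by
    rw [map_div₀, map_neg]
    field_simp
    ring
  rw [e] at z0 ⊢
  rw [Pl.ord_mul _ p1 (right_ne_zero_of_mul z0)]
  exact dvd_add (dv p') (key _ (right_ne_zero_of_mul z0))

end Acc

open Acc

/-- **ACC** -/
theorem acc : ACC := fun k K _ _ _ _ _ _ d s t a b h z al => by
  have : CharZero k := charZero_of_injective_algebraMap (algebraMap ℂ k).injective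
  have tm : t ∈ adjoin k {t} := mem_adjoin_simple_self k t
  obtain ⟨p, p', e⟩ := dec (E := adjoin k {t}) (r := s) (a := ⟨algebraMap k K a * t ^ 2 +
    algebraMap k K b, add_mem (mul_mem (_root_.algebraMap_mem _ a) (pow_mem tm 2))
      (_root_.algebraMap_mem _ b)⟩)
    (S := {s}) (sub_eq_iff_eq_add'.1 h.eq) (fun x hx => .inl hx)
    (restrictScalars_injective k (by
      rw [adjoin_simple_adjoin_simple, pair_comm, h.gen, restrictScalars_top])) z
  by_cases p0 : p' = 0
  · refine rat h.tr ?_ al
    rw [e, p0, map_zero, mul_zero, add_zero]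
    exact p.2
  have : Algebra.IsAlgebraic k (adjoin k {z}) := isAlgebraic_adjoin_simple al.isIntegral
  have le : adjoin k {t} ≤ (adjoin (adjoin k {z}) {t}).restrictScalars k :=
    adjoin_simple_le_iff.2 (mem_adjoin_simple_self (adjoin k {z}) t)
  refine (nsq (E := adjoin k {z}) (s := s) (a := algebraMap k _ a) (b := algebraMap k _ b)
    (h.tr.extendScalars _) ((_root_.map_ne_zero _).2 h.a0) ((_root_.map_ne_zero _).2 h.b0) h.eq
    ?_).elim
  have p1 : (p' : K) ≠ 0 := fun c => p0 (Subtype.ext c)
  have e' : s = (z - p) / p' := by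
    rw [e, eq_div_iff p1]
    exact (add_sub_cancel_left _ _).symm
  rw [e']
  exact div_mem (sub_mem (_root_.algebraMap_mem _ (⟨z, mem_adjoin_simple_self k z⟩ : adjoin k {z}))
    (le p.2)) (le p'.2)

/-- **CNC** -/
theorem cnc : CNC := by
  intro k K L F _ _ _ _ _ _ _ _ _ _ _ _ _ _ _ _ d D G sq s t a b h sp gen
  have : CharZero F := charZero_of_injective_algebraMap (algebraMap ℂ F).injective
  obtain ⟨ρ, hρ⟩ := sp.exists_eval_eq_zero (by
    rw [degree_map, degree_X_pow_sub_C two_pos]; simp)
  simp only [Polynomial.map_sub, Polynomial.map_pow, map_X, map_C, eval_sub, eval_pow, eval_X,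
    eval_C, sub_eq_zero] at hρ
  have hr : algebraMap L F ρ ^ 2 = algebraMap K F (algebraMap k K a) := by
    rw [← map_pow, hρ, sq.com]
  have ρ0 : ρ ≠ 0 := fun z => (_root_.map_ne_zero _).2 h.a0 (by rw [← hρ, z, zero_pow two_ne_zero])
  have r0 : algebraMap L F ρ ≠ 0 := (_root_.map_ne_zero _).2 ρ0
  have dc := dec hr (S := _) (h := gen) fun x hx => by
    obtain ⟨l, hl, e⟩ := hx
    simp only [mem_setOf_eq, map_sub, map_pow, aeval_X, aeval_C, sub_eq_zero, ← hρ] at hl
    rcases sq_eq_sq_iff_eq_or_eq_neg.1 hl with c | c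
    · exact .inl (by rw [← e, c])
    · exact .inr (by rw [← e, c, map_neg])
  refine ⟨?_, fun R P tr l => unr hr r0 l (tr.ord ρ) (by
    simpa only [map_mul, map_ofNat] using tr.ord (2 * ρ)) dc⟩
  let _ : Algebra k F := ((algebraMap L F).comp (algebraMap k L)).toAlgebra
  have : IsScalarTower k L F := .of_algebraMap_eq fun _ => rfl
  have : IsScalarTower k K F := .of_algebraMap_eq sq.com
  have := sq.fd
  obtain ⟨τ, hτ⟩ : ∃ τ, τ = algebraMap K F s - algebraMap L F ρ * algebraMap K F t := ⟨_, rfl⟩
  have e : τ * (algebraMap K F s + algebraMap L F ρ * algebraMap K F t) =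
      algebraMap L F (algebraMap k L b) := by
    rw [sq.com, ← h.eq, map_sub, map_mul, map_pow, map_pow, ← hr, hτ]
    ring
  have τ0 : τ ≠ 0 := left_ne_zero_of_mul
    (e.trans_ne ((_root_.map_ne_zero _).2 ((_root_.map_ne_zero _).2 h.b0)))
  have e1 := eq_div_of_mul_eq τ0 ((mul_comm _ _).trans e)
  have key : ∀ M : IntermediateField L F, τ ∈ M → algebraMap K F s ∈ M ∧ algebraMap K F t ∈ M :=
    fun M hM => by
      have b1 := div_mem (M.algebraMap_mem (algebraMap k L b)) hM
      have two : (2 : F) ∈ M := ofNat_mem M 2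
      have es : algebraMap K F s = (τ + algebraMap L F (algebraMap k L b) / τ) / 2 := by
        rw [← e1, hτ]
        ring
      have et : algebraMap K F t =
          (algebraMap L F (algebraMap k L b) / τ - τ) / (2 * algebraMap L F ρ) := by
        rw [← e1, hτ]
        field_simp
        ring
      exact ⟨es ▸ div_mem (add_mem hM b1) two,
        et ▸ div_mem (sub_mem b1 hM) (mul_mem two (M.algebraMap_mem ρ))⟩
  refine ⟨τ, sq.fL, sq.fF, algebraicIndependent_unique_type_iff.2 fun al => ?_, ?_⟩
  · have k1 := mem_algebraicClosure_iff.1 (key (algebraicClosure L F)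
      (mem_algebraicClosure_iff.2 al)).2
    exact h.tr ((isAlgebraic_algebraMap_iff (algebraMap K F).injective).1 (k1.restrictScalars k))
  · obtain ⟨k1, k2⟩ := key (adjoin L (range ![τ])) (subset_adjoin _ _ ⟨0, rfl⟩)
    have k3 : ∀ x : K, algebraMap K F x ∈ adjoin L (range ![τ]) := fun x => by
      have : adjoin k {s, t} ≤ ((adjoin L (range ![τ])).restrictScalars k).comap
          (IsScalarTower.toAlgHom k K F) :=
        adjoin_le_iff.2 (by rintro _ (rfl | rfl); exacts [k1, k2])
      exact this (h.gen ▸ mem_top)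
    refine eq_top_iff.2 fun z _ => ?_
    obtain ⟨p, p', rfl⟩ := dc z
    exact add_mem (k3 p) (mul_mem (_root_.algebraMap_mem _ ρ) (k3 p'))

end Vale.Agent.P283R.Cf
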