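import Vale.Agent.P283R.Cf.St
import Vale.Agent.P283R.Sl.Cf
import Vale.Agent.P283R.Sl.Br
import Vale.Agent.P283M.Crv.Cpl

/-!
# P283R, block CF: from the words of the statement to the tower of conics
-/

set_option linter.all false

open Set IntermediateField
open Vale.Agent.P297Z

noncomputable section

namespace Vale.Agent.P283R.Cf

open Vale.Agent.P287D

namespace Adp

theorem dn_mono {k K : Type} [Field k] [Algebra ℂ k] [Field K] [Algebra ℂ K] [Algebra k K]
    {T T' : Set (Pl K)} (h : T ⊆ T') : dn k T ⊆ dn k T' := fun _ ⟨P, p, l⟩ => ⟨P, h p, l⟩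

theorem tow_mono (d r : ℕ) : ∀ (k K : Type) [Field k] [Algebra ℂ k] [Field K] [Algebra ℂ K]
    [Algebra k K] (T T' : Set (Pl K)), T ⊆ T' → Tow d r k K T → Tow d r k K T' := by
  induction r with
  | zero => exact fun _ _ _ _ _ _ _ _ _ _ h => h
  | succ r ih =>
    rintro k K _ _ _ _ _ T T' le ⟨K', _, _, _, _, i1, i2, i3, a, b, c⟩
    exact ⟨K', _, _, _, _, i1, i2, i3, a, fun P p => le (b P p), ih k K' _ _ (dn_mono le) c⟩

/-- the function field of a conic -/
theorem ff_con {k K : Type} [Field k] [Algebra ℂ k] [Field K] [Algebra ℂ K] [Algebra k K]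
    [IsScalarTower ℂ k K] {d : ℕ} {s t : K} {a b : k} (hk : FF k d)
    (eq : s ^ 2 - algebraMap k K a * t ^ 2 = algebraMap k K b) (tr : Transcendental k t)
    (gen : adjoin k {s, t} = ⊤) : FF K (d + 1) := by
  have := hk.ess
  have : Algebra.EssFiniteType k K := fg_top_iff.1 (gen ▸ fg_adjoin_of_finite (toFinite _))
  have := Algebra.EssFiniteType.comp ℂ k K
  have tm : t ∈ adjoin k (range ![t]) := subset_adjoin _ _ ⟨0, rfl⟩
  have tb : IsTranscendenceBasis k ![t] :=
    (algebraicIndependent_unique_type_iff.2 tr).isTranscendenceBasis_iff_isAlgebraic.2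
      (isAlgebraic_adjoin_iff_top.1 ⟨fun x => by
        have : adjoin k {s, t} ≤ (algebraicClosure (adjoin k (range ![t])) K).restrictScalars k :=
          adjoin_le_iff.2 (by
            rintro _ (rfl | rfl)
            · refine mem_algebraicClosure_iff.2 (IsAlgebraic.of_pow two_pos ?_)
              rw [sub_eq_iff_eq_add'.1 eq]
              exact isAlgebraic_algebraMap (⟨_, add_mem (mul_mem (_root_.algebraMap_mem _ a)
                (pow_mem tm 2)) (_root_.algebraMap_mem _ b)⟩ : adjoin k (range ![t]))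
            · exact IntermediateField.algebraMap_mem _ (⟨_, tm⟩ : adjoin k (range ![_])))
        exact mem_algebraicClosure_iff.1 (this (gen ▸ mem_top))⟩)
  refine Gm.ff_of_ess ?_
  rw [← trdeg_add_eq ℂ k (A := K), hk.trdeg, ← tb.cardinalMk_eq_trdeg]
  simp

variable {k Ω : Type} [Field k] [Algebra ℂ k] [Field Ω] [Algebra ℂ Ω]

/-- one step -/
def Sp (T : Set (Pl Ω)) (F F' : Subfield Ω) : Prop :=
  Sl.Conic F F' ∧ ∀ O : ValuationSubring Ω, (∀ a ∈ F, a ∈ O) → (∃ a ∈ F', a ∉ O) →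
    ∃ Q ∈ T, ∀ a ∈ F', a ∈ O ↔ a ∈ Q.ring

theorem tow [Algebra k Ω] [IsScalarTower ℂ k Ω] {n e : ℕ} (hΩ : FF Ω n) (hk : FF k e)
    (T : Set (Pl Ω)) {F' : Subfield Ω}
    (h : Relation.ReflTransGen (Sp T) (algebraMap k Ω).fieldRange F') :
    (algebraMap k Ω).fieldRange ≤ F' ∧ ∀ (K : Type) [Field K] [Algebra ℂ K] [Algebra k K]
      [Algebra K Ω] [IsScalarTower ℂ k K] [IsScalarTower ℂ K Ω] [IsScalarTower k K Ω],
      (algebraMap K Ω).fieldRange = F' → ∃ r, FF K (e + r) ∧ Tow e r k K (dn K T) := by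
  induction h with
  | refl =>
    refine ⟨le_rfl, fun K _ _ _ _ _ _ _ hK => ?_⟩
    have hs : Function.Surjective (algebraMap k K) := fun x => by
      obtain ⟨c, hc⟩ := hK.le ⟨x, rfl⟩
      exact ⟨c, (algebraMap K Ω).injective ((IsScalarTower.algebraMap_apply k K Ω c).symm.trans hc)⟩
    have : Module.Finite k K := Module.Finite.of_surjective (Algebra.linearMap k K) hs
    exact ⟨0, Hd.ff_up hk, hk, hs⟩
  | @tail F F' _ st ih =>
    obtain ⟨⟨s, t, a, b, ha, hb, a0, b0, eq, tr, cl⟩, hO⟩ := st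
    have le : F ≤ F' := fun x hx => cl ▸ Subfield.subset_closure (.inl hx)
    refine ⟨ih.1.trans le, fun K _ _ _ _ _ _ _ hK => ?_⟩
    have inj := (algebraMap K Ω).injective
    let M : IntermediateField k Ω := F.toIntermediateField fun x => ih.1 ⟨x, rfl⟩
    let ι : M →+* K := (algebraMap K Ω).rangeRestrictFieldEquiv.symm.toRingHom.comp
      ((algebraMap M Ω).codRestrict _ fun x => hK.ge (le x.2))
    have hι : ∀ x : M, algebraMap K Ω (ι x) = x := fun x =>
      RingHom.rangeRestrictFieldEquiv_apply_symm_apply _ _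
    let _ := ι.toAlgebra
    have : IsScalarTower M K Ω := .of_algebraMap_eq fun x => (hι x).symm
    have : IsScalarTower k M K := .of_algebraMap_eq fun x => inj
      ((IsScalarTower.algebraMap_apply k K Ω x).symm.trans (hι (algebraMap k M x)).symm)
    have : IsScalarTower ℂ M K := .of_algebraMap_eq fun x => inj
      ((IsScalarTower.algebraMap_apply ℂ K Ω x).symm.trans (hι (algebraMap ℂ M x)).symm)
    have : IsScalarTower ℂ M Ω := .of_algebraMap_eq fun _ => rfl
    obtain ⟨r, fM, tw⟩ := ih.2 M (Subfield.ext fun x =>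
      ⟨fun ⟨y, hy⟩ => hy ▸ y.2, fun hx => ⟨⟨x, hx⟩, rfl⟩⟩)
    obtain ⟨s, rfl⟩ : s ∈ (algebraMap K Ω).fieldRange :=
      hK.ge (cl ▸ Subfield.subset_closure (.inr (.inl rfl)))
    obtain ⟨t, rfl⟩ : t ∈ (algebraMap K Ω).fieldRange :=
      hK.ge (cl ▸ Subfield.subset_closure (.inr (.inr rfl)))
    have eq' : s ^ 2 - algebraMap M K ⟨a, ha⟩ * t ^ 2 = algebraMap M K ⟨b, hb⟩ := inj (by
      rw [map_sub, map_mul, map_pow, map_pow]
      exact ((congrArg (_ - · * _) (hι ⟨a, ha⟩)).trans eq).trans (hι ⟨b, hb⟩).symm)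
    have tr0 : Transcendental M (algebraMap K Ω t) := tr
    have tr' : Transcendental M t := (transcendental_algebraMap_iff inj).1 tr0
    have gen : adjoin M {s, t} = ⊤ := eq_top_iff.2 fun x _ => by
      have : F' ≤ (adjoin M {s, t}).toSubfield.map (algebraMap K Ω) := cl ▸ Subfield.closure_le.2 (by
        rintro y (hy | rfl | rfl)
        · exact ⟨_, IntermediateField.algebraMap_mem _ (⟨y, hy⟩ : M), hι _⟩
        · exact ⟨s, subset_adjoin _ _ (.inl rfl), rfl⟩
        · exact ⟨t, subset_adjoin _ _ (.inr rfl), rfl⟩)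
      obtain ⟨y, hy, e⟩ := this (hK.le ⟨x, rfl⟩)
      exact inj e ▸ hy
    have fK := ff_con fM eq' tr' gen
    refine ⟨r + 1, fK, M, _, _, _, _, inferInstance, inferInstance, inferInstance,
      ⟨s, t, ⟨a, ha⟩, ⟨b, hb⟩, fM, fK, fun z => a0 (congrArg Subtype.val z),
        fun z => b0 (congrArg Subtype.val z), eq', tr', gen⟩, fun P p => ?_,
      tow_mono e r k M _ _ (fun w hw => ?_) tw⟩
    · obtain ⟨O, o⟩ := P283M.Crv.exists_dom ((algebraMap K Ω).comp P.ring.subtype)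
      have key : ∀ x : K, x ∈ P.ring ↔ algebraMap K Ω x ∈ O := fun x =>
        ⟨fun hx => (o ⟨x, hx⟩).1, fun hx => by_contra fun c => by
          have x0 : x ≠ 0 := fun z => c (z ▸ zero_mem _)
          have k1 := (o ⟨x⁻¹, (P.ring.mem_or_inv_mem x).resolve_left c⟩).2 fun u => c (by
            obtain ⟨v, hv⟩ := u.exists_right_inv
            have : x⁻¹ * v = 1 := congrArg Subtype.val hv
            rw [(inv_mul_eq_one₀ x0).1 this]
            exact v.2)
          change algebraMap K Ω x⁻¹ ∈ _ at k1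
          rw [map_inv₀, O.inv_mem_nonunits_iff] at k1
          exact k1.elim ((map_ne_zero _).2 x0) fun z => z hx⟩
      obtain ⟨Q, q1, q2⟩ := hO O (fun y hy =>
        (congrArg (· ∈ O) (hι ⟨y, hy⟩)).mp ((key _).1 (p ⟨y, hy⟩))) (by
        by_contra c
        simp only [not_exists, not_and, not_not] at c
        exact Pl.ring_ne_top P.toPlace (eq_top_iff.2 fun x _ => (key x).2 (c _ (hK.le ⟨x, rfl⟩))))
      exact ⟨Q, q1, fun x => (key x).trans (q2 _ (hK.le ⟨x, rfl⟩))⟩
    · obtain ⟨P, p, l⟩ := hw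
      rw [IsScalarTower.algebraMap_eq M K Ω] at l
      exact (hΩ.ok (IsScalarTower.toAlgHom ℂ K Ω) P).elim (fun z => (l.not_trv (z.comp _)).elim)
        fun ⟨P', p'⟩ => ⟨P', ⟨P, p, p'⟩, Lies.of_comp p' l⟩

end Adp

open CategoryTheory in
/-- **the adapter** -/
theorem adp {X Y : Sl.Var} (g : X.X ⟶ Y.X) (ov : g ≫ Y.str = X.str) (p : Y.K →+* X.K)
    (hp : Et.Pe (W := X.o) (Z := Y.o) g p) {d e : ℕ} (hd : Sl.dimension X.str = d)
    (he : Sl.dimension Y.str = e) (h : Relation.ReflTransGen (Sl.ConicStep X) p.fieldRange ⊤) :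
    ∃ r, d = e + r ∧ (letI := p.toAlgebra; Tow e r Y.K X.K (Pri X.o)) := by
  let _ := p.toAlgebra
  have : IsScalarTower ℂ Y.K X.K := .of_algebraMap_eq fun c => (hp.cst ov c).symm
  have hX : FF X.K d := P283M.Br.ffd X.o d hd
  have hY : FF Y.K e := P283M.Br.ffd Y.o e he
  have le : ∀ F F', Sl.ConicStep X F F' → Adp.Sp (Ω := X.K) (Pri X.o) F F' := fun F F' s =>
    ⟨s.1, fun O o1 o2 => by
      obtain ⟨E, hE⟩ := s.2 O o1 o2
      obtain ⟨Q, hQ⟩ := (P283M.Br.plc X.o X.o (RingEquiv.refl _) (fun _ => rfl) E).1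
      exact ⟨Q, ⟨E, hQ.dom⟩, fun a ha => (hE a ha).trans (hQ a).symm⟩⟩
  obtain ⟨r, r1, r2⟩ := (Adp.tow hX hY (Pri X.o) (Relation.ReflTransGen.mono le _ _ h)).2 X.K
    (eq_top_iff.2 fun x _ => ⟨x, rfl⟩)
  refine ⟨r, by exact_mod_cast hX.trdeg.symm.trans r1.trdeg, Adp.tow_mono e r _ _ _ _ ?_ r2⟩
  rintro w ⟨P, q, l⟩
  exact (lies_id P).uniq l ▸ q

end Vale.Agent.P283R.Cf
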