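import Vale.Agent.P283R.Cf.Mat

/-!
# P283R, block CF: the smallest disc which contains more than half of the points
-/

open Set

namespace Vale.Agent.P283R.Cf

open Vale.Agent.P287D Vale.Agent.P297Z

namespace Bar

variable {L : Type} [Field L] [Algebra ℂ L] (w : Pl L)

/-- `x` lies in the disc of radius `ρ` around `y` -/
def Nr (ρ : ℤ) (x y : L) : Prop := x = y ∨ ρ ≤ w.ord (x - y)

variable {w} {ρ : ℤ} {x y z : L}

theorem Nr.symm (h : Nr w ρ x y) : Nr w ρ y x := by
  rcases h with h | h
  · exact Or.inl h.symm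
  · refine Or.inr ?_
    rw [← neg_sub, Pl.ord_neg]
    exact h

theorem Nr.trans (h : Nr w ρ x y) (h' : Nr w ρ y z) : Nr w ρ x z := by
  by_cases a : x = y
  · exact a ▸ h'
  by_cases b : y = z
  · exact b ▸ h
  by_cases c : x = z
  · exact Or.inl c
  have := Pl.min_ord_le_add w.toPlace (sub_ne_zero.2 a) (sub_ne_zero.2 b)
    (by rw [sub_add_sub_cancel]; exact sub_ne_zero.2 c)
  rw [sub_add_sub_cancel] at this
  exact Or.inr (le_trans (le_min (h.resolve_left a) (h'.resolve_left b)) this)

theorem out (h : Nr w ρ x z) (h' : ¬ Nr w ρ y z) : x ≠ y ∧ w.ord (x - y) ≤ w.ord (y - z) := by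
  refine ⟨fun e => h' (e ▸ h), ?_⟩
  by_contra c
  have h1 : w.ord (y - z) < ρ := lt_of_not_ge fun e => h' (Or.inr e)
  have h2 : Nr w (w.ord (y - z) + 1) x z := h.imp id fun e => by omega
  have h3 : Nr w (w.ord (y - z) + 1) x y := Or.inr (by omega)
  rcases h3.symm.trans h2 with e | e
  · exact h' (Or.inl e)
  · omega

end Bar

open Bar in
theorem barr : BARR := by
  classical
  intro mt L _ _ w q α hq hα
  obtain ⟨ρ, ⟨a, ha⟩, hρ⟩ := Int.exists_greatest_of_bdd
    (P := fun ρ => ∃ a, q < {i | Nr w ρ (α i) a}.ncard) (by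
      obtain ⟨b, hb⟩ := Finite.exists_le fun p : Fin (q + q) × Fin (q + q) => w.ord (α p.1 - α p.2)
      refine ⟨b, fun ρ ⟨a, ha⟩ => ?_⟩
      obtain ⟨i, hi⟩ := nonempty_of_ncard_ne_zero (s := {i | Nr w ρ (α i) a}) (by omega)
      by_contra c
      have hs : {i | Nr w ρ (α i) a} ⊆ {j | α j = α i} := fun j hj =>
        (Nr.trans hj (Nr.symm hi)).resolve_right fun e => c (e.trans (hb (j, i)))
      have := ncard_le_ncard hs (toFinite _)
      have := hα (α i)
      omega) (by
      obtain ⟨b, hb⟩ := Finite.exists_ge fun i : Fin (q + q) => w.ord (α i - 0)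
      refine ⟨b, 0, ?_⟩
      have : {i | Nr w b (α i) 0} = univ := eq_univ_of_forall fun i => Or.inr (hb i)
      rw [this, ncard_univ, Nat.card_eq_fintype_card, Fintype.card_fin]
      omega)
  have small : ∀ b, {i | Nr w (ρ + 1) (α i) b}.ncard ≤ q := fun b => by
    by_contra c
    have := hρ (ρ + 1) ⟨b, lt_of_not_ge c⟩
    omega
  obtain ⟨σ, hσ⟩ := mt q (Option (Set (Fin (q + q))))
    (fun i => if Nr w ρ (α i) a then some {j | Nr w (ρ + 1) (α j) (α i)} else none) (by
      intro c
      rcases c with _ | s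
      · have e : {i | (if Nr w ρ (α i) a then some {j | Nr w (ρ + 1) (α j) (α i)} else none) =
            none} = {i | Nr w ρ (α i) a}ᶜ := by
          ext i
          by_cases h : Nr w ρ (α i) a <;> simp [h]
        have := ncard_add_ncard_compl {i | Nr w ρ (α i) a}
        rw [Nat.card_eq_fintype_card, Fintype.card_fin] at this
        rw [e]
        omega
      · rcases eq_empty_or_nonempty {i | (if Nr w ρ (α i) a then
          some {j | Nr w (ρ + 1) (α j) (α i)} else none) = some s} with e | ⟨i, hi⟩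
        · rw [e]; simp
        · have k : ∀ i, (if Nr w ρ (α i) a then some {j | Nr w (ρ + 1) (α j) (α i)} else none) =
              some s → {j | Nr w (ρ + 1) (α j) (α i)} = s := fun i hi => by
            by_cases h : Nr w ρ (α i) a
            · rw [if_pos h] at hi; exact Option.some.inj hi
            · rw [if_neg h] at hi; cases hi
          refine le_trans (ncard_le_ncard (fun j hj => ?_) (toFinite _)) (small (α i))
          rw [k i hi, ← k j hj]
          exact Or.inl rfl)
  refine ⟨a, ρ, fun i => if Nr w ρ (α i) a then ρ else w.ord (α i - a), σ, fun i => ?_,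
    fun j => ?_⟩
  · by_cases h : Nr w ρ (α i) a
    · simp only [if_pos h]
      exact ⟨le_rfl, h⟩
    · simp only [if_neg h]
      exact ⟨(lt_of_not_ge fun e => h (Or.inr e)).le, Or.inr le_rfl⟩
  · have e := hσ j
    generalize σ (j.castAdd q) = l at e ⊢
    generalize σ (j.natAdd q) = r at e ⊢
    by_cases hl : Nr w ρ (α l) a <;> by_cases hr : Nr w ρ (α r) a
    · simp only [if_pos hl, if_pos hr] at e ⊢
      have n : ¬ Nr w (ρ + 1) (α l) (α r) := fun h => e (congrArg some
        (Set.ext fun i => ⟨fun k => Nr.trans k h, fun k => Nr.trans k h.symm⟩))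
      refine ⟨fun h => n (Or.inl h), ?_⟩
      have : ¬ ρ + 1 ≤ w.ord (α l - α r) := fun h => n (Or.inr h)
      omega
    · simp only [if_pos hl, if_neg hr]
      obtain ⟨o1, o2⟩ := out hl hr
      exact ⟨o1, by omega⟩
    · simp only [if_neg hl, if_pos hr]
      obtain ⟨o1, o2⟩ := out hr hl
      rw [← neg_sub, Pl.ord_neg] at o2
      exact ⟨o1.symm, by omega⟩
    · simp only [if_neg hl, if_neg hr] at e
      exact absurd rfl e

theorem bar : BAR := barr mat

end Vale.Agent.P283R.Cf
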