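import Vale.Agent.P283R.Cf.St
import Vale.Agent.P283R.Tp.Ram

/-!
# P283R, block CF: the formula for the projective line and for conics from the rows
-/

open Set Polynomial

noncomputable section

namespace Vale.Agent.P283R.Cf

open Vale.Agent.P287D

theorem cbcr : CBCR := by
  intro acr acc gal cnc dsn cbr q hq
  obtain ⟨M, E, hM, H⟩ := cbr q hq
  refine ⟨M * (Nat.factorial 2).factorial * (Nat.factorial 2).factorial, E * Nat.factorial 2,
    ?_, ?_⟩
  · have := Nat.factorial_pos (Nat.factorial 2)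
    exact hM.trans ((Nat.le_mul_of_pos_right _ this).trans (Nat.le_mul_of_pos_right _ this))
  intro k K _ _ _ _ _ _ d s t a b hc
  have h2 : (X ^ 2 - C a : k[X]).natDegree = 2 := natDegree_X_pow_sub_C
  obtain ⟨L, F, _, _, _, _, _, _, _, _, _, _, G, hS, hsp, hg⟩ :=
    gal k K d (X ^ 2 - C a) hc.ff hc.ff' (acc k K d s t a b hc) (X_pow_sub_C_ne_zero two_pos a)
  rw [h2] at hS
  obtain ⟨⟨τ, hτ⟩, hu⟩ := cnc k K L F d _ G hS s t a b hc hsp hg
  exact dsn k K L F d _ G hS q M E (by omega) (acr L F d τ hτ) hu (H L F d τ hτ)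

theorem cbrr : CBRR := by
  intro shf acr pol spl gal rts tre dsc q hq
  have hD : 0 < ((q + q).factorial).factorial := Nat.factorial_pos _
  refine ⟨q * ((q + q).factorial).factorial, 1 * (q + q).factorial, ?_, ?_⟩
  · exact ((show 2 ≤ q + q by omega).trans ((Nat.self_le_factorial _).trans
      (Nat.self_le_factorial _))).trans (Nat.le_mul_of_pos_left _ hq)
  intro k K _ _ _ _ _ _ d τ0 hτ0 y x hy hx m h hm h0 hH
  have : CharZero k := charZero_of_injective_algebraMap (algebraMap ℂ k).injective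
  obtain ⟨τ, J, p, c, hτ, hJ, hk, hmo, hdeg, hir, hc, he⟩ :=
    pol k K d q m τ0 h y x hτ0 hy hx hq hm h0 hH
  obtain ⟨L, F, _, _, _, _, _, _, _, _, _, _, G, hS, hsp, hg⟩ :=
    gal k K d p hτ.ff hτ.ff' (acr k K d τ hτ) hmo.ne_zero
  rw [hdeg] at hS
  have hτ' := rts k K L F d _ G hS τ _ hτ hg
  obtain ⟨α, hα, hp⟩ := spl k L q p hmo hdeg hir hsp
  have hy' : Frm fun i => algebraMap k L (y i) :=
    (ram d k L (IsScalarTower.toAlgHom ℂ k L) y hS.fk hS.fL hy).1
  obtain ⟨u, hu⟩ := tre L F d q (algebraMap K F τ) _ α hτ' hy' hq hα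
  have e1 : fr (fun i => algebraMap k L (y i)) (algebraMap K F τ) =
      fun i => algebraMap K F (fr y τ i) := by
    funext i
    refine Fin.addCases (fun j => ?_) (fun j => ?_) i
    · simp only [fr, Cx.zt, Fin.append_left, hS.com]
    · simp only [fr, Cx.zt, Fin.append_right, Matrix.cons_val_fin_one]
  have e2 : ∏ i, (algebraMap K F τ - algebraMap L F (α i)) = algebraMap K F (aeval τ p) := by
    have e3 : (algebraMap L F).comp (algebraMap k L) = (algebraMap K F).comp (algebraMap k K) :=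
      RingHom.ext hS.com
    rw [aeval_def, hom_eval₂, ← e3, ← eval₂_map, hp, eval₂_finsetProd]
    simp only [eval₂_sub, eval₂_X, eval₂_C]
  rw [e1, e2] at hu
  have hψ : aeval τ p * J ^ q ≠ 0 := fun e => by
    rw [e, zero_pow hm.ne', mul_zero] at he
    exact pow_ne_zero q h0 he
  have hψ0 : aeval τ p ≠ 0 := left_ne_zero_of_mul hψ
  obtain ⟨u', hu'⟩ := dsc k K L F d _ G hS q 1 y (fr y τ) (aeval τ p) u hq hy
    (shf k K d τ y hτ hy).1 hψ0 hu
  set D := ((q + q).factorial).factorial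
  have e4 : ∀ P : Pl K, ld x (q * D) ((aeval τ p * J ^ q) ^ D) P =
      ld (fr y τ) (q * D) (aeval τ p ^ D) P := fun P => by
    have hq' : (q : ℝ) ≠ 0 := Nat.cast_ne_zero.2 hq.ne'
    have hD' : (D : ℝ) ≠ 0 := Nat.cast_ne_zero.2 hD.ne'
    simp only [ld, hk P, P.ord_pow, P.ord_mul hψ0 (pow_ne_zero q hJ)]
    push_cast
    field_simp
    ring
  refine ⟨(aeval τ p * J ^ q) ^ D, c ^ D, u', pow_ne_zero _ hψ, pow_ne_zero _ hc, ?_, hu'.nz,
    fun P v hl => ?_, fun v => ?_⟩
  · rw [pow_mul, he, mul_pow, map_pow, ← pow_mul, ← pow_mul, mul_comm m]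
  · rw [e4]
    exact hu'.lo P v hl
  · obtain ⟨P, h1, h2, h3⟩ := hu'.hi v
    exact ⟨P, h1, h2, by rw [e4]; exact h3⟩

end Vale.Agent.P283R.Cf
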