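import Vale.Agent.P283R.Cf.St

/-!
# P283R, block CF: charts on the base, prime divisors of the base (rows `CHT`, `PRM`)
-/

set_option linter.all false

open Set CategoryTheory AlgebraicGeometry
open Vale.Agent.P289 Vale.Agent.P289.H219 Vale.Agent.P270L Vale.Agent.P283M.Am Vale.Agent.P299.G

noncomputable section

namespace Vale.Agent.P283R.Cf

open Vale.Agent.P287D Vale.Agent.P283M Vale.Agent.P283M.Br Vale.Agent.P283M.Stm.Var
open Vale.Agent.P283M.Stm (Contraction)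
open Vale.Agent.P297Z Vale.Agent.P283R.Br
open Vale.Agent.P283R.Et (Pe)

namespace Cht

variable {X Y : Stm.Var} {g : X.X ⟶ Y.X} {p : Y.K →+* X.K}

theorem pl_pe (h : Pe g p) (V : Y.X.Opens) [Nonempty V] [Nonempty ↑(g ⁻¹ᵁ V)] (a : Γ(Y.X, V)) :
    pl g V a = p (H594.secK V a) := by
  obtain ⟨y, hy⟩ := ‹Nonempty ↑(g ⁻¹ᵁ V)›
  have : Nonempty ↑(g ⁻¹ᵁ V) := ⟨⟨y, hy⟩⟩
  rw [← pl_germ (f := g) (x := y) hy, ← H594.toK_germ V (g y) hy]
  exact (h y _).symm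

/-- a function which is regular over a nonempty open set comes from the base -/
theorem down (hg : Contraction g) (h : Pe g p) {V : Y.X.Opens} {y : Pt Y.X} (hy : y ∈ V) {u : X.K}
    (hu : ∀ x ∈ g ⁻¹ᵁ V, RegAt u x) : ∃ c, p c = u := by
  obtain ⟨x, rfl⟩ := hg.2.2.1.surj y
  have : Nonempty ↑(g ⁻¹ᵁ V) := ⟨⟨x, hy⟩⟩
  have : Nonempty V := ⟨⟨_, hy⟩⟩
  have := hg.2.2.2 V
  obtain ⟨r, e⟩ := exists_pl g V (mem_reg.2 hu)
  exact ⟨_, (pl_pe h V r).symm.trans e⟩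

/-- coordinates of an affine open set of the base -/
theorem coord (hg : Contraction g) (h : Pe g p) {V : Y.X.Opens} (hV : IsAffineOpen V) {y : Pt Y.X}
    (hy : y ∈ V) : ∃ v : Finset Y.K, (∀ b ∈ v, ∀ y ∈ V, RegAt b y) ∧
      ∀ P : Pl X.K, (∀ b ∈ v, p b ∈ P.ring) → ∃ x ∈ g ⁻¹ᵁ V, Dom P.ring x := by
  classical
  obtain ⟨h1, _, h3, -⟩ := hg
  obtain ⟨x₀, rfl⟩ := h3.surj y
  have : Nonempty ↑(g ⁻¹ᵁ V) := ⟨⟨x₀, hy⟩⟩
  have : Nonempty V := ⟨⟨_, hy⟩⟩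
  let _ : Algebra ℂ Γ(Y.X, V) := (cst Y.str V).toAlgebra
  have : Algebra.FiniteType ℂ Γ(Y.X, V) := cst_finiteType Y.str hV
  let φ : Γ(Y.X, V) →ₐ[ℂ] X.K := { pl g V with
    commutes' := fun c => by
      change X.X.germToFunctionField _ ((g.app V).hom (cst Y.str V c)) = constants X.str c
      rw [app_cst, germ_cst, h1] }
  obtain ⟨T, hT⟩ := Algebra.FiniteType.out (R := ℂ) (A := Γ(Y.X, V))
  refine ⟨T.image (H594.secK V), fun b hb y hy => ?_, fun P hP => ?_⟩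
  · obtain ⟨a, -, rfl⟩ := Finset.mem_image.1 hb
    exact mem_reg.1 (secK_reg V a) y hy
  · have k : ⊤ ≤ Subalgebra.comap φ { P.ring.toSubring with algebraMap_mem' := P.con } :=
      hT.ge.trans (Algebra.adjoin_le fun t ht =>
        (pl_pe h V t ▸ hP _ (Finset.mem_image_of_mem _ ht) : pl g V t ∈ P.ring))
    obtain ⟨x, h5, h6⟩ := exists_dom hV P.ring fun a => k (Algebra.mem_top (x := a))
    exact ⟨x, h5, dom_B h6⟩

end Cht

open Cht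

/-- **CHT** -/
theorem cht : CHT := by
  classical
  intro X Y g p hg hp d ω B hd hdim hω ht
  obtain ⟨n, rfl⟩ := Nat.exists_eq_add_of_le' hd
  have hK := ffd X _ hdim
  obtain ⟨h, -, fr⟩ := frm X _ hK ω hω
  have := hg.2.1
  have k : ∀ y : Pt Y.X, ∃ (W : Y.X.Opens) (v : Finset Y.K) (m : ℕ) (a : X.K), y ∈ W ∧ 0 < m ∧
      a ≠ 0 ∧ (∀ b ∈ v, ∀ y ∈ W, RegAt b y) ∧
      (∀ P : Pl X.K, (∀ b ∈ v, p b ∈ P.ring) → ∃ x ∈ g ⁻¹ᵁ W, Dom P.ring x) ∧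
      ∀ x ∈ g ⁻¹ᵁ W, LocalEq (logCan ω B) m a x := fun y => by
    obtain ⟨m, a, m0, ha⟩ := ht y
    have o := (g.isClosedMap _ (open_localEq hK fr B m a).isClosed_compl).isOpen_compl
    obtain ⟨_, ⟨W, hW, rfl⟩, yW, le⟩ := Y.X.isBasis_affineOpens.exists_subset_of_mem_open
      (a := y) (fun ⟨x, b, c⟩ => b (ha x c)) o
    obtain ⟨v, v1, v2⟩ := coord hg hp hW yW
    obtain ⟨x, e⟩ := hg.2.2.1.surj y
    exact ⟨W, v, m, a, yW, m0, (ha x e).1, v1, v2, fun x hx =>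
      by_contra fun c => le hx ⟨x, c, rfl⟩⟩
  choose W v m a h1 h2 h3 h4 h5 h6 using k
  obtain ⟨T, hT⟩ := cover (⊤ : Y.X.Opens) (fun y : Pt Y.X => (W y : Set Y.X))
    (fun y => (W y).isOpen) fun y _ => ⟨y, h1 y⟩
  have q : ∀ y z : Pt Y.X, ∃ c, c ≠ 0 ∧ a y ^ m z = p c * a z ^ m y := fun y z => by
    have g0 : ∀ y, genericPoint Y.X ∈ W y := fun y =>
      (genericPoint_specializes (y : Y.X)).mem_open (W y).isOpen (h1 y)
    have a0 := pow_ne_zero (m z) (h3 y)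
    have b0 := pow_ne_zero (m y) (h3 z)
    obtain ⟨c, hc⟩ := down hg hp (V := W y ⊓ W z) (y := genericPoint Y.X) ⟨g0 y, g0 z⟩
      (u := a y ^ m z / a z ^ m y) fun x hx => loc_of_od (nrm X) fun _ E b c => by
        have e1 : od (a y) E = _ := (h6 y x hx.1).2 ⟨E, b⟩ c
        have e2 : od (a z) E = _ := (h6 z x hx.2).2 ⟨E, b⟩ c
        rw [od_div a0 b0, od_pow (h3 y), od_pow (h3 z), e1, e2]
        exact le_of_eq (by ring)
    refine ⟨c, fun e => div_ne_zero a0 b0 (by rw [← hc, e, map_zero]), ?_⟩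
    rw [hc, div_mul_cancel₀ _ b0]
  choose c c0 hc using q
  let e : Fin (T.card + 1) → Pt Y.X := Fin.cons (genericPoint Y.X) fun i => (T.equivFin.symm i).1
  refine ⟨T.card, fun j => W (e j), fun j => v (e j), fun j => m (e j), fun j => a (e j),
    fun j => c (e j) (e 0), fun y => ?_, fun j => ⟨h2 _, h3 _, c0 _ _, h4 _, h5 _, h6 _, hc _ _⟩⟩
  obtain ⟨z, z1, z2⟩ := hT y trivial
  refine ⟨(T.equivFin ⟨z, z1⟩).succ, ?_⟩
  simp only [e, Fin.cons_succ, Equiv.symm_apply_apply]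
  exact z2

/-- **PRM** -/
theorem prm : PRM := fun X Y g p hg hp => ⟨fun w ⟨D, hD⟩ => by
    obtain ⟨Q, q, -⟩ := pl_of plc D
    obtain rfl := pl_eq q hD
    obtain ⟨x, e⟩ : ∃ x : Pt X.X, Pt.map g x = D.1 := hg.2.2.1.surj D.1
    have r : ∀ f ∈ Q.ring, RegAt f (Pt.map g x) := fun f hf => e.symm ▸ (q f).1 hf
    have t0 := Pb.t_ne Q
    have t1 := Pb.ord_t Q
    have tm : Q.t ∈ Q.ring := (Pl.ord_nonneg_iff _ t0).1 (by rw [t1]; exact zero_le_one)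
    have p0 : ∀ {f}, f ≠ 0 → p f ≠ 0 := fun k => (map_ne_zero p).2 k
    have nu : ¬ UnAt (p Q.t) x := fun u => by
      have := hD.ord (e ▸ (hp.un (r _ tm)).1 u)
      omega
    obtain ⟨E, s, o⟩ : ∃ E : X.PrimeDiv, E.1 ⤳ x ∧ ord (p Q.t) E ≠ 0 := by
      by_contra k
      refine nu (un_of_od (nrm X) (p0 t0) fun E b c => ?_)
      have : ord (p Q.t) ⟨E, b⟩ = 0 := by_contra fun d => k ⟨⟨E, b⟩, c, d⟩
      exact (congrArg (Int.cast : ℤ → ℚ) this).trans Int.cast_zero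
    obtain ⟨P, i, o'⟩ := pl_of plc E
    have up : ∀ f ∈ Q.ring, p f ∈ P.ring := fun f hf => (i _).2 (reg_gen s (hp.reg (r f hf)))
    refine ⟨P, ⟨E, i.dom⟩, fun f => ⟨up f, fun hf => by_contra fun k => ?_⟩⟩
    have f0 : f ≠ 0 := fun c => k (c ▸ zero_mem _)
    have k1 : Q.ord f < 0 := not_le.1 fun c => k ((Pl.ord_nonneg_iff _ f0).1 c)
    have m0 := mul_ne_zero f0 t0
    have k2 : (f * Q.t)⁻¹ ∈ Q.ring := (Pl.ord_nonneg_iff _ (inv_ne_zero m0)).1 (by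
      rw [Pl.ord_inv, Pl.ord_mul _ f0 t0]; omega)
    have k3 := Pl.ord_nonneg_of_mem _ (up _ k2)
    have k4 := Pl.ord_nonneg_of_mem _ hf
    have k5 := Pl.ord_nonneg_of_mem _ (up _ tm)
    rw [map_inv₀, map_mul, Pl.ord_inv, Pl.ord_mul _ (p0 f0) (p0 t0)] at k3
    rw [o'] at o
    omega,
  fun P x hx w l a ha => by
    have r := hp.reg ha
    refine ⟨(l a).2 (hx _ r).1, fun a0 k => ?_⟩
    have a1 := (map_ne_zero p).2 a0
    exact ((hp.un ha).1 ⟨a1, r, (hx _ r).2 a1 (map_inv₀ p a ▸ (l _).1 k)⟩).2.2⟩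

end Vale.Agent.P283R.Cf
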