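import Vale.Agent.P283R.Cf.St
import Vale.Agent.P283R.Tp.Fre
import Vale.Agent.P283R.Tp.Ram
import Vale.Agent.P283R.Tp.Kap
import Vale.Agent.P287D.Pb.Up

/-!
# P283R, block CF: Galois descent of the system
-/

open Set Polynomial
open Vale.Agent.P297Z

noncomputable section

namespace Vale.Agent.P283R.Cf

open Vale.Agent.P287D MulSemiringAction

namespace Ds

variable {k L F : Type} [Field k] [Algebra ℂ k] [Field L] [Algebra ℂ L] [Field F] [Algebra ℂ F]

/-- the conjugate place -/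
theorem cj (σ : F ≃ₐ[ℂ] F) (P : Pl F) : ∃ P' : Pl F, (∀ g, g ∈ P'.ring ↔ σ g ∈ P.ring) ∧
    ∀ g, P'.ord g = P.ord (σ g) := by
  have h := Semi.of_alg σ
  obtain ⟨Q, rfl⟩ := h.pl.surjective P
  exact ⟨Q, fun g => h.mem_pl.symm, fun g => (h.ord_pl Q g).symm⟩

theorem term (P : Pl F) {ι : Type} {s : Finset ι} {f : ι → F} {a : F} (a0 : a ≠ 0)
    (h : a = ∑ i ∈ s, f i) : ∃ i ∈ s, f i ≠ 0 ∧ P.ord (f i) ≤ P.ord a := by
  by_contra c
  have : a ∈ P.sub (-(P.ord a + 1)) := by
    refine (congrArg (· ∈ P.sub (-(P.ord a + 1))) h).mpr (Submodule.sum_mem _ fun i hi => ?_)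
    refine or_iff_not_imp_left.2 fun f0 => ?_
    have h1 : P.ord a + 1 ≤ P.ord (f i) := not_le.1 fun e => c ⟨i, hi, f0, e⟩
    have h2 : (P.ord a : ℝ) + 1 ≤ P.ord (f i) := by exact_mod_cast h1
    linarith
  linarith [this.resolve_left a0]

/-- the ramification index is at most the degree -/
theorem e_le [Algebra k L] [FiniteDimensional k L] {w : Pl L} {v : Pl k}
    (l : Lies (algebraMap k L) w v) : w.ord (algebraMap k L v.t) ≤ Module.finrank k L := by
  classical
  obtain ⟨e, he⟩ := Int.eq_ofNat_of_zero_le l.e_pos.le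
  have li : LinearIndependent k fun i : Fin e => w.t ^ (i : ℕ) := by
    refine Fintype.linearIndependent_iff.2 fun g hg => ?_
    by_contra c
    obtain ⟨i₀, h₀⟩ := not_forall.1 c
    have o : ∀ i : Fin e, g i ≠ 0 → g i • w.t ^ (i : ℕ) ≠ 0 ∧
        w.ord (g i • w.t ^ (i : ℕ)) = e * v.ord (g i) + i := fun i hi => by
      refine ⟨smul_ne_zero hi (pow_ne_zero _ w.t_ne), ?_⟩
      rw [Algebra.smul_def, Pl.ord_mul _ ((_root_.map_ne_zero _).2 hi) (pow_ne_zero _ w.t_ne), l.ord, he,
        Pl.ord_pow, w.ord_t, mul_one]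
    obtain ⟨j, hj, mn⟩ := (Finset.univ.filter fun i => g i ≠ 0).exists_min_image
      (fun i => w.ord (g i • w.t ^ (i : ℕ))) ⟨i₀, by simpa using h₀⟩
    have j0 : g j ≠ 0 := by simpa using hj
    rw [← Finset.add_sum_erase _ _ (Finset.mem_univ j), add_eq_zero_iff_eq_neg,
      ← Finset.sum_neg_distrib] at hg
    obtain ⟨i, hi, i0, le⟩ := term w (o j j0).1 hg
    have i1 : g i ≠ 0 := fun z => i0 (by simp [z])
    have ge := mn i (by simpa using i1)
    rw [Pl.ord_neg] at le
    have eq := le_antisymm le ge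
    rw [(o i i1).2, (o j j0).2] at eq
    have z : ((i : ℕ) : ℤ) - (j : ℕ) = 0 := Int.eq_zero_of_abs_lt_dvd (m := e)
      ⟨v.ord (g j) - v.ord (g i), by linarith⟩ (by
        have := i.2
        have := j.2
        rw [abs_lt]; constructor <;> omega)
    exact (Finset.mem_erase.1 hi).1 (Fin.ext (by omega))
  have := li.fintype_card_le_finrank
  rw [Fintype.card_fin] at this
  rw [he]
  exact_mod_cast this

theorem sub_mul (P : Pl F) {a b : F} {x y : ℝ} (ha : a ∈ P.sub x) (hb : b ∈ P.sub y) :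
    a * b ∈ P.sub (x + y) := by
  refine or_iff_not_imp_left.2 fun h => ?_
  have a0 := left_ne_zero_of_mul h
  have b0 := right_ne_zero_of_mul h
  rw [Pl.ord_mul _ a0 b0]
  push_cast
  linarith [ha.resolve_left a0, hb.resolve_left b0]

theorem coeff_bd (P : Pl F) {ι : Type} (s : Finset ι) (r : ι → F) (m : ℝ)
    (h : ∀ i ∈ s, r i ∈ P.sub (-m)) :
    ∀ j : ℕ, (∏ i ∈ s, (X - C (r i))).coeff j ∈ P.sub (-(s.card - j) * m) := by
  classical
  induction s using Finset.induction_on with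
  | empty =>
    intro j
    rcases j with _ | j
    · exact Or.inr (by simp)
    · exact Or.inl (by simp [coeff_one])
  | insert i s hi ih =>
    have ih := ih fun j hj => h j (Finset.mem_insert_of_mem hj)
    have hr := h i (Finset.mem_insert_self _ _)
    intro j
    rw [Finset.prod_insert hi, Finset.card_insert_of_notMem hi]
    rcases j with _ | j
    · have := neg_mem (sub_mul P hr (ih 0))
      rw [show -m + -((s.card : ℝ) - (0 : ℕ)) * m = -(((s.card + 1 : ℕ) : ℝ) - (0 : ℕ)) * m by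
        push_cast; ring] at this
      simpa using this
    · have a := sub_mul P hr (ih (j + 1))
      have b := ih j
      rw [show -m + -((s.card : ℝ) - (j + 1 : ℕ)) * m =
        -(((s.card + 1 : ℕ) : ℝ) - (j + 1 : ℕ)) * m by push_cast; ring] at a
      rw [show -((s.card : ℝ) - j) * m = -(((s.card + 1 : ℕ) : ℝ) - (j + 1 : ℕ)) * m by
        push_cast; ring] at b
      rw [coeff_X_sub_C_mul]
      exact sub_mem b a

variable {G : Subgroup (F ≃ₐ[ℂ] F)} [Fintype G]

theorem root (z : F) : z ^ Fintype.card G =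
    ∑ i ∈ Finset.range (Fintype.card G), -((charpoly G z).coeff i * z ^ i) := by
  have d : (charpoly G z).natDegree = Fintype.card G := by
    rw [charpoly_eq, natDegree_prod_of_monic _ _ fun _ _ => monic_X_sub_C _]
    simp
  have e := eval_charpoly G z
  rw [eval_eq_sum_range, Finset.sum_range_succ, (monic_charpoly G z).coeff_natDegree, d, one_mul,
    add_comm, add_eq_zero_iff_eq_neg] at e
  rw [e, Finset.sum_neg_distrib]

theorem low (P : Pl F) {z : F} (z0 : z ≠ 0) : ∃ i < Fintype.card G, (charpoly G z).coeff i ≠ 0 ∧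
    P.ord ((charpoly G z).coeff i) ≤ (Fintype.card G - i : ℕ) * P.ord z := by
  obtain ⟨i, hi, i0, le⟩ := term P (pow_ne_zero _ z0) (root (G := G) z)
  have c0 := left_ne_zero_of_mul (neg_ne_zero.1 i0)
  have hi' := Finset.mem_range.1 hi
  refine ⟨i, hi', c0, ?_⟩
  rw [Pl.ord_neg, Pl.ord_mul _ c0 (pow_ne_zero _ z0), Pl.ord_pow, Pl.ord_pow] at le
  rw [Nat.cast_sub hi'.le]
  linarith

theorem high (P : Pl F) {z : F} : ∃ σ : G, ∀ i ≤ Fintype.card G, (charpoly G z).coeff i ≠ 0 →
    (Fintype.card G - i : ℕ) * P.ord (σ.1 z) ≤ P.ord ((charpoly G z).coeff i) := by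
  obtain ⟨σ, -, mn⟩ := (Finset.univ : Finset G).exists_min_image (fun σ => P.ord (σ.1 z))
    Finset.univ_nonempty
  refine ⟨σ, fun i hi c0 => ?_⟩
  have := (coeff_bd P Finset.univ (fun τ : G => τ • z) (P.ord (σ.1 z)) (fun τ _ => Or.inr (by
    have h : (P.ord (σ.1 z) : ℝ) ≤ P.ord (τ.1 z) := by exact_mod_cast mn τ (Finset.mem_univ τ)
    exact sub_nonneg.2 h)) i).resolve_left c0
  rw [Finset.card_univ, ← Nat.cast_sub hi] at this
  have h : ((Fintype.card G - i : ℕ) : ℝ) * P.ord (σ.1 z) ≤ P.ord ((charpoly G z).coeff i) := by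
    rw [charpoly_eq]; linarith
  exact_mod_cast h

end Ds

open Ds in
/-- **DSC** -/
theorem dsc : DSC := by
  intro k K L F _ _ _ _ _ _ _ _ _ _ _ _ _ _ _ _ d D G sq M E y x ψ u M0 hy hx ψ0 h
  classical
  have := sq.fin
  have := sq.fd
  let _ := Fintype.ofFinite G
  set n := Fintype.card G with hn
  set N := D.factorial with hN
  have nD : n ≤ D := by rw [hn, ← Nat.card_eq_fintype_card]; exact sq.card
  have N0 : 0 < N := D.factorial_pos
  have dv : ∀ i < n, (n - i) * (N / (n - i)) = N := fun i hi =>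
    Nat.mul_div_cancel' (Nat.dvd_factorial (by omega) (by omega))
  have ex : ∀ (l : L) (i : ℕ), ∃ a : k,
      algebraMap L F (algebraMap k L a) = (charpoly G (algebraMap L F l)).coeff i := fun l i => by
    obtain ⟨l', e1⟩ : (charpoly G (algebraMap L F l)).coeff i ∈ (algebraMap L F).range :=
      Fre.coeff_mem _ (fun σ => sq.stab σ σ.2 l) i
    obtain ⟨z, e2⟩ := (sq.fix _).1 (Fre.coeff_fix (G := G) (algebraMap L F l) i)
    obtain ⟨a, rfl⟩ := sq.cap l' z (e1.trans e2.symm)
    exact ⟨a, e1⟩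
  choose a ha using ex
  have a0 : ∀ l i, a l i ≠ 0 ↔ (charpoly G (algebraMap L F l)).coeff i ≠ 0 := fun l i => by
    rw [← ha, _root_.map_ne_zero, _root_.map_ne_zero]
  let u' : Finset k := (u.erase 0 ×ˢ Finset.range n).image fun p => a p.1 p.2 ^ (N / (n - p.2))
  have mem : ∀ l ∈ u, l ≠ 0 → ∀ i < n, a l i ^ (N / (n - i)) ∈ u' := fun l hl l0 i hi =>
    Finset.mem_image.2 ⟨(l, i), Finset.mem_product.2
      ⟨Finset.mem_erase.2 ⟨l0, hl⟩, Finset.mem_range.2 hi⟩, rfl⟩
  have nz : Nz u' := by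
    obtain ⟨l, hl, l0⟩ := h.nz
    have z0 := pow_ne_zero n ((_root_.map_ne_zero (algebraMap L F)).2 l0)
    rw [hn, root] at z0
    obtain ⟨i, hi, i0⟩ := Finset.exists_ne_zero_of_sum_ne_zero z0
    exact ⟨_, mem l hl l0 i (Finset.mem_range.1 hi),
      pow_ne_zero _ ((a0 l i).2 (left_ne_zero_of_mul (neg_ne_zero.1 i0)))⟩
  have cm : (algebraMap L F).comp (algebraMap k L) = (algebraMap K F).comp (algebraMap k K) :=
    RingHom.ext sq.com
  have od : ∀ {R : Pl F} {v : Pl k}, Lies ((algebraMap L F).comp (algebraMap k L)) R v → ∀ l i,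
      R.ord (algebraMap L F (algebraMap k L v.t)) * v.ord (a l i ^ (N / (n - i))) =
        (N / (n - i) : ℕ) * R.ord ((charpoly G (algebraMap L F l)).coeff i) := fun c l i => by
    rw [← ha, Pl.ord_pow, mul_left_comm]
    exact congrArg _ (c.ord _).symm
  have m0 : (0 : ℝ) < M := by exact_mod_cast M0
  have n0 : (0 : ℝ) < N := by exact_mod_cast N0
  have cmp : ∀ {R : Pl F} {w : Pl L} {P : Pl K} {v : Pl k}, Lies (algebraMap L F) R w →
      Lies (algebraMap K F) R P → Lies (algebraMap k L) w v → Lies (algebraMap k K) P v →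
      0 < ee R P ∧ ee R w * ee w v = ee R P * ee P v ∧
      (R.ord (algebraMap L F (algebraMap k L v.t)) : ℝ) = ee R P * ee P v ∧
      ld (fun i => algebraMap K F (x i)) M (algebraMap K F ψ) R =
        ee R P * ld x (M * N) (ψ ^ N) P ∧
      ee R w * gl (fun i => algebraMap k L (y i)) M u w - ee R P * (ee P v * gl y (M * N) u' v) =
        (N * (ee R w * w.mz u) - ee R P * ee P v * v.mz u') / (M * N) := by
    intro R w P v c1 c2 c3 c4
    have e1 : (R.ord (algebraMap L F (algebraMap k L v.t)) : ℝ) = ee R w * ee w v := by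
      rw [c1.ord]; push_cast; rfl
    have e2 : (R.ord (algebraMap L F (algebraMap k L v.t)) : ℝ) = ee R P * ee P v := by
      rw [sq.com, c2.ord]; push_cast; rfl
    have k1 := Cb.hur sq.fK sq.fF (fun c => (IsScalarTower.algebraMap_apply ℂ K F c).symm) c2 hx.ind
    have k2 := Cb.hur sq.fk sq.fL (fun c => (IsScalarTower.algebraMap_apply ℂ k L c).symm) c3 hy.ind
    refine ⟨Int.cast_pos.2 c2.e_pos, e1.symm.trans e2, e2, ?_, ?_⟩
    · have o1 : (R.ord (algebraMap K F ψ) : ℝ) = ee R P * P.ord ψ := by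
        rw [c2.ord]; push_cast; rfl
      have o2 : (P.ord (ψ ^ N) : ℝ) / ((M * N : ℕ) : ℝ) = P.ord ψ / M := by
        rw [Pl.ord_pow]; push_cast; field_simp
      have k3 : kap (fun i => algebraMap K F (x i)) R + 1 = ee R P * (kap x P + 1) := k1
      simp only [ld]
      rw [o1, o2]
      linear_combination k3
    · have k3 : kap (fun i => algebraMap k L (y i)) w + 1 = ee w v * (kap y v + 1) := k2
      have o1 : (N * (ee R w * w.mz u) - ee R P * ee P v * v.mz u') / (M * N) =
          ee R w * (w.mz u / M) - ee R P * ee P v * (v.mz u' / ((M * N : ℕ) : ℝ)) := by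
        push_cast; field_simp
      simp only [gl]
      rw [o1]
      linear_combination ee R w * k3 + (kap y v + 1) * (e1.symm.trans e2)
  refine ⟨u', nz, fun P v c4 => ?_, fun v => ?_⟩
  · obtain ⟨R₀, c₀⟩ := Pb.up_alg sq.fF P
    obtain ⟨g, hg, g0, eg⟩ := v.exists_mz nz
    obtain ⟨⟨l, i⟩, hp, rfl⟩ := Finset.mem_image.1 hg
    obtain ⟨hl, hi⟩ := Finset.mem_product.1 hp
    have hi : i < n := Finset.mem_range.1 hi
    obtain ⟨l0, hl⟩ := Finset.mem_erase.1 hl
    have q0 : N / (n - i) ≠ 0 := fun z => by have := dv i hi; rw [z] at this; omega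
    have ai : a l i ≠ 0 := fun z => g0 (by simp only [z, zero_pow q0])
    obtain ⟨σ, hσ⟩ := high (G := G) R₀ (z := algebraMap L F l)
    obtain ⟨R, r1, r2⟩ := cj σ.1 R₀
    have fx : ∀ z, σ.1 (algebraMap K F z) = algebraMap K F z := fun z =>
      (sq.fix _).2 ⟨z, rfl⟩ σ.1 σ.2
    have c2 : Lies (algebraMap K F) R P := fun z => by rw [r1, fx]; exact c₀ z
    have c5 : Lies ((algebraMap L F).comp (algebraMap k L)) R v := cm ▸ c2.comp c4
    obtain ⟨w, c1⟩ : ∃ w, Lies (algebraMap L F) R w :=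
      (sq.fF.ok (IsScalarTower.toAlgHom ℂ L F) R).resolve_left fun t => c5.not_trv (t.comp _)
    have c3 := c1.of_comp c5
    obtain ⟨p1, -, p3, p4, p5⟩ := cmp c1 c2 c3 c4
    have lo := h.lo R w c1
    have b1 := hσ i hi.le ((a0 l i).1 ai)
    rw [← r2, ← (Fre.coeff_fix (G := G) (algebraMap L F l) i) σ.1 σ.2, ← r2] at b1
    have b2 := mul_le_mul_of_nonneg_left b1 (Int.natCast_nonneg (N / (n - i)))
    rw [← od c5, ← mul_assoc, ← Nat.cast_mul, mul_comm (N / (n - i)), dv i hi, c1.ord l] at b2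
    have b3 := mul_le_mul_of_nonneg_left (w.le_mz hl l0) c1.e_pos.le
    have b4 : R.ord (algebraMap L F (algebraMap k L v.t)) * v.mz u' ≤
        N * (R.ord (algebraMap L F w.t) * w.mz u) := by
      rw [eg]
      nlinarith [mul_le_mul_of_nonneg_left b3 (Int.natCast_nonneg N)]
    have b5 : ee R P * ee P v * v.mz u' ≤ N * (ee R w * w.mz u) := by
      rw [← p3]; simp only [ee]; exact_mod_cast b4
    have b6 := div_nonneg (sub_nonneg.2 b5) (mul_pos m0 n0).le
    rw [← p5] at b6
    exact le_of_mul_le_mul_left (by linarith) p1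
  · obtain ⟨w, c3⟩ := Pb.up_alg sq.fL v
    obtain ⟨R, c1, r1, r2⟩ := h.hi w
    obtain ⟨P, c2⟩ := Pb.down sq.fK sq.fF R
    have c5 := c1.comp c3
    have c4 : Lies (algebraMap k K) P v := c2.of_comp (cm ▸ c5)
    obtain ⟨p1, p2, p3, p4, p5⟩ := cmp c1 c2 c3 c4
    refine ⟨P, c4, ?_, ?_⟩
    · have e1 : (1 : ℝ) ≤ ee R P := by
        simp only [ee]; exact_mod_cast c2.e_pos
      have e2 : 0 ≤ ee P v := Int.cast_nonneg c4.e_pos.le
      have e3 : 0 ≤ ee w v := Int.cast_nonneg c3.e_pos.le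
      have e4 : ee w v ≤ D := by
        simp only [ee]; exact_mod_cast (e_le c3).trans (Int.ofNat_le.2 sq.rk)
      push_cast
      nlinarith [mul_le_mul r1 e4 e3 (Nat.cast_nonneg E)]
    · obtain ⟨l, hl, l0, el⟩ := w.exists_mz h.nz
      obtain ⟨i, hi, c0, b1⟩ := low (G := G) R ((_root_.map_ne_zero (algebraMap L F)).2 l0)
      have b2 := mul_le_mul_of_nonneg_left b1 (Int.natCast_nonneg (N / (n - i)))
      rw [← od c5, ← mul_assoc, ← Nat.cast_mul, mul_comm (N / (n - i)), dv i hi, c1.ord l] at b2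
      have b3 := mul_le_mul_of_nonneg_left
        (v.le_mz (mem l hl l0 i hi) (pow_ne_zero _ ((a0 l i).2 c0))) c5.e_pos.le
      have b4 : N * (R.ord (algebraMap L F w.t) * w.mz u) ≤
          R.ord (algebraMap L F (algebraMap k L v.t)) * v.mz u' := by
        rw [el]
        simp only [RingHom.comp_apply] at b3
        nlinarith
      have b5 : N * (ee R w * w.mz u) ≤ ee R P * ee P v * v.mz u' := by
        rw [← p3]; simp only [ee]; exact_mod_cast b4
      have b6 := div_nonpos_of_nonpos_of_nonneg (sub_nonpos.2 b5) (mul_pos m0 n0).le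
      rw [← p5] at b6
      exact le_of_mul_le_mul_left (by linarith) p1

end Vale.Agent.P283R.Cf
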