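import Vale.Agent.P283R.Cf.St
import Vale.Agent.P287D.Hd.Cm

/-!
# P283R, block CF: the splitting field
-/

open Set Polynomial

noncomputable section

namespace Vale.Agent.P283R.Cf

open Vale.Agent.P287D

namespace Gal

theorem card_gal {K : Type} [Field K] (p : K[X]) :
    Nat.card (p.SplittingField ≃ₐ[K] p.SplittingField) ≤ p.natDegree.factorial := by
  classical
  have : Fact ((p.map (algebraMap K p.SplittingField)).Splits) := ⟨SplittingField.splits p⟩
  have h := Nat.card_le_card_of_injective _
    (Polynomial.Gal.galActionHom_injective p p.SplittingField)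
  refine le_trans (le_of_eq rfl) (h.trans ?_)
  rw [Nat.card_perm]
  exact Nat.factorial_le (ncard_rootSet_le p p.SplittingField)

theorem rk_le {K L : Type} [Field K] [CharZero K] [Field L] [Algebra K L] (p : K[X])
    [IsSplittingField K L p] : Module.finrank K L ≤ p.natDegree.factorial := by
  rw [(IsSplittingField.algEquiv L p).toLinearEquiv.finrank_eq]
  have : IsGalois K p.SplittingField := ⟨⟩
  rw [← IsGalois.card_aut_eq_finrank]
  exact card_gal p

/-- the restriction of the scalars -/
def rs (K F : Type) [Field K] [Algebra ℂ K] [Field F] [Algebra ℂ F] [Algebra K F]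
    [IsScalarTower ℂ K F] : (F ≃ₐ[K] F) →* (F ≃ₐ[ℂ] F) where
  toFun σ := σ.restrictScalars ℂ
  map_one' := rfl
  map_mul' _ _ := rfl

end Gal

theorem gal : GAL := by
  intro k K _ _ _ _ _ _ d ν hk hK hA hν
  have : CharZero k := (algebraMap ℂ k).charZero_iff (algebraMap ℂ k).injective |>.1 inferInstance
  have : CharZero K := (algebraMap ℂ K).charZero_iff (algebraMap ℂ K).injective |>.1 inferInstance
  let p : K[X] := ν.map (algebraMap k K)
  have hp : p ≠ 0 := (Polynomial.map_ne_zero_iff (algebraMap k K).injective).2 hν
  let F : Type := p.SplittingField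
  have t1 : IsScalarTower ℂ K F := inferInstance
  have t2 : IsScalarTower k K F := inferInstance
  have t3 : IsScalarTower ℂ k F := .of_algebraMap_eq fun c => by
    rw [IsScalarTower.algebraMap_apply ℂ K F, IsScalarTower.algebraMap_apply k K F,
      IsScalarTower.algebraMap_apply ℂ k K]
  have hs : (ν.map (algebraMap k F)).Splits := by
    have := SplittingField.splits p
    rwa [Polynomial.map_map, ← IsScalarTower.algebraMap_eq] at this
  let L : IntermediateField k F := IntermediateField.adjoin k (ν.rootSet F)
  have sf : IsSplittingField k L ν := IntermediateField.adjoin_rootSet_isSplittingField hs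
  have fd : FiniteDimensional k L := IsSplittingField.finiteDimensional L ν
  have t4 : IsScalarTower ℂ k L := .of_algebraMap_eq fun c => Subtype.ext
    (IsScalarTower.algebraMap_apply ℂ k F c)
  have t5 : IsScalarTower ℂ L F := .of_algebraMap_eq fun c => rfl
  have gK : IsGalois K F := ⟨⟩
  have ev : ∀ z : F, aeval z p = aeval z ν := fun z => aeval_map_algebraMap K z ν
  refine ⟨L, F, inferInstance, inferInstance, inferInstance, inferInstance, inferInstance,
    inferInstance, inferInstance, t4, t1, t5, (Gal.rs K F).range, ⟨hk, hK, Hd.ff_up hk,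
      Hd.ff_up hK, fun a => ?_, ?_, ?_, fd, Gal.rk_le ν, fun z => ?_, ?_, fun l z h => ?_⟩,
    IsSplittingField.splits L ν, ?_⟩
  · rw [← IsScalarTower.algebraMap_apply, ← IsScalarTower.algebraMap_apply]
  · exact .of_surjective _ (Gal.rs K F).rangeRestrict_surjective
  · refine (Nat.card_le_card_of_surjective _ (Gal.rs K F).rangeRestrict_surjective).trans ?_
    have := Gal.card_gal p
    rwa [natDegree_map] at this
  · rw [IsGalois.mem_range_algebraMap_iff_fixed]
    constructor
    · intro h σ
      exact h _ ⟨σ, rfl⟩
    · rintro h _ ⟨σ, rfl⟩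
      exact h σ
  · rintro _ ⟨σ, rfl⟩ l
    let τ : F →ₐ[k] F := (σ : F →ₐ[K] F).restrictScalars k
    have h1 : L.map τ ≤ L := by
      rw [IntermediateField.adjoin_map]
      refine IntermediateField.adjoin.mono _ _ _ ?_
      rintro _ ⟨x, hx, rfl⟩
      exact rootSet_mapsTo τ hx
    exact ⟨⟨τ l, h1 ⟨l, l.2, rfl⟩⟩, rfl⟩
  · have h1 : IsAlgebraic k (algebraMap K F z) := by
      rw [← h]
      exact (Algebra.IsAlgebraic.isAlgebraic (R := k) l).algebraMap
    obtain ⟨a, rfl⟩ := hA z ((isAlgebraic_algebraMap_iff (algebraMap K F).injective).1 h1)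
    refine ⟨a, (algebraMap L F).injective ?_⟩
    rw [h, ← IsScalarTower.algebraMap_apply, ← IsScalarTower.algebraMap_apply]
  · have h1 := (isSplittingField_iff_intermediateField.1
      (inferInstance : IsSplittingField K F p)).2
    refine eq_top_iff.2 (h1.ge.trans (IntermediateField.adjoin.mono _ _ _ fun x hx => ?_))
    have h2 : aeval x ν = 0 := by
      rw [← ev]
      exact aeval_eq_zero_of_mem_rootSet hx
    have h3 : x ∈ L := IntermediateField.subset_adjoin _ _ ((mem_rootSet_of_ne hν).2 h2)
    refine ⟨⟨x, h3⟩, ?_, rfl⟩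
    refine (algebraMap L F).injective ?_
    rw [← aeval_algebraMap_apply, map_zero]
    exact h2

end Vale.Agent.P283R.Cf
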