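import Vale.Agent.P283R.Cf.St

/-!
# P283R, block CF: a matching across the classes
-/

open Set

namespace Vale.Agent.P283R.Cf

theorem mat : MAT := by
  classical
  intro q κ f hf
  obtain ⟨key, hk⟩ : ∃ key : Fin (q + q) → ℕ, ∀ i j, key i = key j ↔ f i = f j := by
    refine ⟨fun i => Nat.find (p := fun n => ∃ j : Fin (q + q), j.val = n ∧ f j = f i)
      ⟨i.val, i, rfl, rfl⟩, fun i j => ⟨fun h => ?_, fun h => ?_⟩⟩
    · obtain ⟨a, a1, a2⟩ := Nat.find_spec (p := fun n => ∃ j : Fin (q + q), j.val = n ∧ f j = f i)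
        ⟨i.val, i, rfl, rfl⟩
      obtain ⟨b, b1, b2⟩ := Nat.find_spec (p := fun n => ∃ l : Fin (q + q), l.val = n ∧ f l = f j)
        ⟨j.val, j, rfl, rfl⟩
      have : a = b := Fin.ext (by rw [a1, b1]; exact h)
      rw [← a2, ← b2, this]
    · simp only [h]
  refine ⟨Tuple.sort key, fun j e => ?_⟩
  have hm := Tuple.monotone_sort key
  have e' := (hk _ _).2 e
  set σ := Tuple.sort key
  have hs : (fun t : Fin (q + 1) => σ ⟨j.val + t.val, by omega⟩) '' univ ⊆
      {i | f i = f (σ (j.castAdd q))} := by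
    rintro _ ⟨t, -, rfl⟩
    refine (hk _ _).1 (le_antisymm ?_ ?_)
    · rw [e']
      exact hm (show (⟨j.val + t.val, by omega⟩ : Fin (q + q)) ≤ j.natAdd q from by
        rw [Fin.le_def]; simp; omega)
    · exact hm (show j.castAdd q ≤ (⟨j.val + t.val, by omega⟩ : Fin (q + q)) from by
        rw [Fin.le_def]; simp)
  have hi : Function.Injective fun t : Fin (q + 1) => σ ⟨j.val + t.val, by omega⟩ := by
    intro s t h
    have := congrArg Fin.val (σ.injective h)
    exact Fin.ext (by simpa using this)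
  have h1 := ncard_le_ncard hs (toFinite _)
  rw [ncard_image_of_injective _ hi, ncard_univ, Nat.card_eq_fintype_card, Fintype.card_fin] at h1
  have := hf (f (σ (j.castAdd q)))
  omega

end Vale.Agent.P283R.Cf
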