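import Vale.Agent.P283R.Cf.St
import Vale.Agent.P283R.Eb.Nef
import Vale.Agent.P283M.Am.Cen
import Mathlib.AlgebraicGeometry.Morphisms.QuasiFinite

/-!
# P283R, block CF: nef divisors descend along a contraction
-/

set_option linter.all false

open Set CategoryTheory AlgebraicGeometry Limits Order
open Vale.Agent.P289 Vale.Agent.P270L Vale.Agent.P270L.S Vale.Agent.P299.G Vale.Agent.P289.H219
open Vale.Agent.P297 (Place PlaceOver IsFF)

noncomputable section

namespace Vale.Agent.P283R.Cf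

open Vale.Agent.P283M Vale.Agent.P283M.Crv

namespace Nfd

section crv

variable {X : Scheme.{0}} [IsIntegral X] [IsLocallyNoetherian X] [X.IsSeparated] {k : Type}
  [Field k] [CharZero k] [IsAlgClosed k] [Algebra k X.functionField] [IsFF k X.functionField]

theorem coh (h : ∀ (p : X) c, algebraMap k X.functionField c ∈ loc p)
    {P : PlaceOver k X.functionField} {z : X} (hz : Dom P.1.ring z) : coheight z = 1 := by
  have h3 : ringKrullDim (X.presheaf.stalk z) = coheight z := ringKrullDim_stalk_eq_coheight z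
  have h4 := (Ring.krullDimLE_iff (n := 1)).1 (krull_le h z)
  rw [h3] at h4
  have h5 : coheight z ≤ 1 := by exact_mod_cast h4
  refine le_antisymm h5 ?_
  rw [Order.one_le_iff_ne_zero]
  intro h0
  rw [h0] at h3
  have h6 : Ring.KrullDimLE 0 (X.presheaf.stalk z) := by
    rw [Ring.krullDimLE_iff, h3]
    rfl
  have h7 : IsField (X.presheaf.stalk z) := Ring.KrullDimLE.isField_of_isDomain
  apply P.1.ring_ne_top
  rw [eq_top_iff]
  intro f _
  obtain ⟨a, b, hb, rfl⟩ := IsFractionRing.div_surjective (A := X.presheaf.stalk z) f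
  obtain ⟨c, hc⟩ := h7.mul_inv_cancel (nonZeroDivisors.ne_zero hb)
  have h8 := un_toK.2 (IsUnit.of_mul_eq_one c hc)
  rw [div_eq_mul_inv]
  exact hz.mem (mul_mem (toK_mem z a) h8.2.2)

open Classical in
/-- the centre of a place, if it exists -/
def ct (P : PlaceOver k X.functionField) : Option {z : X // coheight z = 1} :=
  if h : ∃ z : {z : X // coheight z = 1}, Dom P.1.ring z.1 then some h.choose else none

theorem ct_some {P : PlaceOver k X.functionField} {z : {z : X // coheight z = 1}} :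
    ct P = some z ↔ Dom P.1.ring z.1 := by
  unfold ct
  split_ifs with h
  · rw [Option.some_inj]
    exact ⟨fun e => e ▸ h.choose_spec, fun e => Subtype.ext (dom_unique h.choose_spec e)⟩
  · exact ⟨fun e => (by cases e), fun e => (h ⟨z, e⟩).elim⟩

variable (h : ∀ (p : X) c, algebraMap k X.functionField c ∈ loc p)
  (hc : ∀ z : X, ∃ c : X.presheaf.stalk z, c ≠ 0 ∧ ∀ f : X.functionField,
    IsIntegral (X.presheaf.stalk z) f → ∃ r, toK z r = toK z c * f)

include h in
theorem dom_iff (P : PlaceOver k X.functionField) (z : {z : X // coheight z = 1}) :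
    ct P = some z ↔ ∀ a : X.presheaf.stalk z.1, toK z.1 a ∈ P.1.ring := by
  rw [ct_some]
  refine ⟨fun e a => (e a).1, fun hz a => ⟨hz a, fun ha => ?_⟩⟩
  have := krull_le h z.1
  rw [ValuationSubring.mem_nonunits_iff_or]
  by_cases h0 : a = 0
  · left
    rw [h0, map_zero]
  · right
    intro hinv
    have h1 := dom_of_le P.1 hz h0 ha
    have h2 := P.1.ord_nonneg_of_mem hinv
    rw [P.1.ord_inv] at h2
    exact absurd h1 (by change ¬ 0 < P.1.ord (toK z.1 a); omega)

include h hc in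
theorem md_ct {u : X.functionField} (hu : u ≠ 0) (z : {z : X // coheight z = 1}) :
    Finsupp.mapDomain ct (P297.div k u) (some z) = Scheme.ord u z.1 := by
  classical
  have hkr := krull_le h z.1
  obtain ⟨t, ht0, ht⟩ : ∃ t : X.presheaf.stalk z.1, t ≠ 0 ∧ ¬ IsUnit t := by
    by_contra hcon
    push Not at hcon
    have h1 : IsField (X.presheaf.stalk z.1) :=
      ⟨exists_pair_ne _, mul_comm, fun {a} ha => (hcon a ha).exists_right_inv⟩
    have h2 := ringKrullDim_eq_zero_of_isField h1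
    rw [ringKrullDim_stalk_eq_coheight, z.2] at h2
    exact one_ne_zero (α := WithBot ℕ∞) h2
  have hfin : {P : PlaceOver k X.functionField | ct P = some z}.Finite :=
    (P297.finite_zeros (k := k) (toK z.1 t)).subset fun P hP =>
      dom_of_le P.1 ((dom_iff h P z).1 hP) ht0 ht
  obtain ⟨c, hc0, hc⟩ := hc z.1
  have h1 := len_formula (k := k) (A := X.presheaf.stalk z.1) (h z.1) hfin.toFinset
    (fun P => by rw [hfin.mem_toFinset]; exact dom_iff h P z) hc0 hc hu
  have h2 : Scheme.ord u z.1 = WithZero.log (Ring.ordFrac (X.presheaf.stalk z.1) u) := by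
    rw [Scheme.ord_eq_iff z.2 hu]
    exact (WithZero.exp_log ((map_ne_zero _).2 hu)).symm
  rw [h2, h1, P297.mapDomain_apply_finsum]
  have h3 : ∑ᶠ P : {P // ct P = some z}, P297.div k u P.1 =
      ∑ᶠ (P : PlaceOver k X.functionField) (_ : P ∈ {P | ct P = some z}), P.1.ord u :=
    finsum_subtype_eq_finsum_cond (f := fun P : PlaceOver k X.functionField => P.1.ord u) _
  rw [h3, finsum_mem_eq_finite_toFinset_sum _ hfin]

variable {L : Type} [Field L] [Algebra k L] [Algebra X.functionField L]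
  [IsScalarTower k X.functionField L] [IsFF k L] [FiniteDimensional X.functionField L]

include h hc in
/-- the sum of the local orders is a sum over the places with a centre -/
theorem sum_ord' {w : X → X.functionField} (hw : ∀ z, w z ≠ 0) {Φ : PlaceOver k L → ℤ}
    (hf : (Function.support Φ).Finite)
    (e : ∀ Q z, Dom (rp X.functionField Q).1.ring z → Φ Q = Q.1.ord (algebraMap _ L (w z)))
    (e0 : ∀ Q, (∀ z : X, ¬ Dom (rp X.functionField Q).1.ring z) → Φ Q = 0) :
    ∑ᶠ Q, Φ Q = Module.finrank X.functionField L *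
      ∑ᶠ z : {z : X // coheight z = 1}, Scheme.ord (w z) z.1 := by
  let c : PlaceOver k L → Option {z : X // coheight z = 1} := ct ∘ rp X.functionField
  let Ψ : PlaceOver k L →₀ ℤ := Finsupp.ofSupportFinite _ hf
  have h2 : ∀ z, Finsupp.mapDomain c Ψ (some z) =
      Module.finrank X.functionField L * Scheme.ord (w z) z.1 := by
    intro z
    rw [← md_ct h hc (hw z) z, ← nsmul_eq_mul, ← Finsupp.smul_apply, ← Finsupp.mapDomain_smul,
      ← mapDomain_rp (hw z), ← Finsupp.mapDomain_comp, P297.mapDomain_apply_finsum,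
      P297.mapDomain_apply_finsum]
    exact finsum_congr fun Q => e Q.1 z.1 (ct_some.1 Q.2)
  have h3 : Finsupp.mapDomain c Ψ none = 0 := by
    rw [P297.mapDomain_apply_finsum]
    refine finsum_eq_zero_of_forall_eq_zero fun Q => e0 Q.1 fun z hz => ?_
    have := (ct_some (z := ⟨z, coh h hz⟩)).2 hz
    exact Option.some_ne_none _ (this.symm.trans Q.2)
  have h4 := finsum_option (f := fun o => Finsupp.mapDomain c Ψ o)
    ((Finsupp.mapDomain c Ψ).finite_support.preimage (Option.some_injective _).injOn)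
  rw [h3, zero_add] at h4
  rw [mul_finsum, ← finsum_congr h2, ← h4, ← P297.deg_eq_finsum, P297.deg_mapDomain,
    P297.deg_eq_finsum]
  rfl

end crv

section cov

variable {C C' : Scheme.{0}} [IsIntegral C] [IsIntegral C']

theorem rs_at (k : C' ⟶ C) (z : C') (a : C.presheaf.stalk (k z)) :
    rs k (toK _ a) = toK z ((k.stalkMap z).hom a) := by
  rw [← toK_toStalk (spec_image k z), rs_toK, resη_toStalk]
  rfl

theorem all_loc {k : C' ⟶ C} (e : k (genericPoint C') = genericPoint C) (f : C.functionField) :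
    f ∈ loc (k (genericPoint C')) := by
  rw [e]
  refine ⟨f, ?_⟩
  change (C.presheaf.stalkSpecializes _).hom f = f
  rw [TopCat.Presheaf.stalkSpecializes_refl]
  rfl

/-- the pull back of the rational functions -/
def jj {k : C' ⟶ C} (e : k (genericPoint C') = genericPoint C) :
    C.functionField →+* C'.functionField where
  toFun := rs k
  map_one' := rs_one
  map_mul' a b := rs_mul (all_loc e a) (all_loc e b)
  map_zero' := rs_zero
  map_add' a b := rs_add (all_loc e a) (all_loc e b)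

theorem jj_fin {k : C' ⟶ C} [LocallyOfFiniteType k] (e : k (genericPoint C') = genericPoint C)
    (hk : ∀ z, k z = genericPoint C → z = genericPoint C') : (jj e).Finite := by
  have h1 : k.QuasiFiniteAt (genericPoint C') := by
    rw [Scheme.Hom.quasiFiniteAt_iff_isOpen_singleton_asFiber]
    have : ({k.asFiber (genericPoint C')} : Set _) = univ := eq_univ_of_forall fun y => by
      refine (k.fiberι _).injective ?_
      rw [Scheme.Hom.fiberι_asFiber]
      refine hk _ (Eq.trans ?_ e)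
      have : k.fiberι _ y ∈ range (k.fiberι (k (genericPoint C'))) := ⟨y, rfl⟩
      rwa [Scheme.Hom.range_fiberι] at this
    rw [this]
    exact isOpen_univ
  have h2 : (jj e).comp (toK (k (genericPoint C'))) = (k.stalkMap (genericPoint C')).hom :=
    RingHom.ext fun a => rs_toK k a
  have h3 : (jj e).QuasiFinite := RingHom.QuasiFinite.of_comp (by rw [h2]; exact h1)
  algebraize [jj e]
  exact Module.Finite.of_quasiFinite

theorem exists_cov {X Y : Scheme.{0}} [IsLocallyNoetherian X] (g : X ⟶ Y) [IsProper g]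
    [Surjective g] (ι : C ⟶ Y) [IsClosedImmersion ι] : ∃ (C' : Scheme.{0}) (_ : IsIntegral C')
      (ι' : C' ⟶ X) (k : C' ⟶ C), IsClosedImmersion ι' ∧ IsProper k ∧ ι' ≫ g = k ≫ ι ∧
        k (genericPoint C') = genericPoint C ∧
        ∀ z, k z = genericPoint C → z = genericPoint C' := by
  let s := pullback.snd g ι
  have : IsLocallyNoetherian (pullback g ι) :=
    LocallyOfFiniteType.isLocallyNoetherian (pullback.fst g ι)
  have rg := s.range_fiberι (genericPoint C)
  obtain ⟨x₀, hx₀⟩ := s.surjective (genericPoint C)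
  obtain ⟨x₁, -⟩ : x₀ ∈ range (s.fiberι (genericPoint C)) := by rw [rg]; exact hx₀
  obtain ⟨x, -, hx⟩ := (isClosed_univ (X := s.fiber (genericPoint C))).exists_closed_singleton
    ⟨x₁, trivial⟩
  obtain ⟨C', c, _, _, hc⟩ := exists_closed (s.fiberι _ x)
  have h1 : (c ≫ s) (genericPoint C') = genericPoint C := by
    have : c (genericPoint C') ∈ range (s.fiberι (genericPoint C)) := ⟨x, hc.symm⟩
    rwa [rg] at this
  refine ⟨C', ‹_›, c ≫ pullback.fst g ι, c ≫ s, inferInstance, inferInstance, by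
    rw [Category.assoc, Category.assoc, pullback.condition], h1, fun z hz => ?_⟩
  obtain ⟨y, hy⟩ : c z ∈ range (s.fiberι (genericPoint C)) := by rw [rg]; exact hz
  have h2 := (genericPoint_specializes z).map c.continuous
  rw [hc, ← hy, (s.fiberι _).isEmbedding.isInducing.specializes_iff] at h2
  have h3 : y = x := h2.mem_closed hx rfl
  exact c.isClosedEmbedding.injective (by rw [← hy, h3, hc])

theorem dom_dn {k : C' ⟶ C} (e : k (genericPoint C') = genericPoint C)
    {W : ValuationSubring C'.functionField} {V : ValuationSubring C.functionField}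
    (hV : ∀ a, a ∈ V ↔ jj e a ∈ W) {z : C'} (hz : Dom W z) : Dom V (k z) := by
  refine dom_of (fun a => (hV _).2 ?_) fun a h0 hi => ?_
  · exact (congrArg (· ∈ W) (rs_at k z a)).mpr (hz _).1
  · rw [hV, map_inv₀] at hi
    have e1 : jj e (toK _ a) = toK z ((k.stalkMap z).hom a) := rs_at k z a
    have h1 := (map_ne_zero (jj e)).2 h0
    rw [e1] at hi h1
    exact (isUnit_map_iff (k.stalkMap z).hom a).1 (un_toK.1 (hz.un (toK_mem _ _) h1 hi))

theorem dom_up [IsNoetherian C'] {k : C' ⟶ C} [IsProper k]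
    (e : k (genericPoint C') = genericPoint C) {W : ValuationSubring C'.functionField}
    {V : ValuationSubring C.functionField} (hV : ∀ a, a ∈ V ↔ jj e a ∈ W) {z : C}
    (hz : Dom V z) : ∃ x, Dom W x := by
  obtain ⟨_, ⟨U, hU, rfl⟩, hi, -⟩ :=
    C.isBasis_affineOpens.exists_subset_of_mem_open (mem_univ z) isOpen_univ
  have h0 : k (genericPoint C') ∈ U := e ▸ (genericPoint_specializes z).mem_open U.2 hi
  have : Nonempty U := ⟨⟨z, hi⟩⟩
  have : Nonempty ↑(k ⁻¹ᵁ U) := ⟨⟨_, h0⟩⟩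
  obtain ⟨x, -, hx⟩ := Am.exists_dom (f := k) hU W fun a => by
    rw [← Am.pl_germ h0, ← rs_at, H594.toK_germ, ← H594.toK_germ U z hi]
    exact (hV _).1 (hz _).1
  exact ⟨x, hx⟩

theorem rs_comp {Y : Scheme.{0}} [IsIntegral Y] {k : C' ⟶ C}
    (e : k (genericPoint C') = genericPoint C) (ι : C ⟶ Y) {u : Y.functionField}
    (hu : u ∈ loc (ι (k (genericPoint C')))) : rs (k ≫ ι) u = jj e (rs ι u) := by
  obtain ⟨b, rfl⟩ := hu
  rw [rs_at ι]
  refine (rs_toK (k ≫ ι) b).trans (Eq.trans ?_ (rs_toK k _).symm)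
  exact congrArg (fun φ => φ.hom b) (Scheme.Hom.stalkMap_comp k ι (genericPoint C'))

/-- **the degree formula** -/
theorem deg_cov [IsNoetherian C'] [IsLocallyNoetherian C] [C.IsSeparated] [C'.IsSeparated]
    {k : C' ⟶ C} [IsProper k] (e : k (genericPoint C') = genericPoint C)
    (hk : ∀ z, k z = genericPoint C → z = genericPoint C') (s : C ⟶ Spec (.of ℂ))
    (s' : C' ⟶ Spec (.of ℂ)) [LocallyOfFiniteType s] [LocallyOfFiniteType s']
    (hs : ∀ c, constants s' c = jj e (constants s c)) (hd : dimension s = 1) :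
    dimension s' = 1 ∧ ∃ r : ℕ, 0 < r ∧ ∀ w : C → C.functionField, (∀ z, w z ≠ 0) →
      (range w).Finite → ∑ᶠ z : {z : C' // coheight z = 1}, Scheme.ord (jj e (w (k z))) z.1 =
        r * ∑ᶠ z : {z : C // coheight z = 1}, Scheme.ord (w z) z.1 := by
  classical
  let _ : Algebra ℂ C.functionField := (constants s).toAlgebra
  let _ : Algebra ℂ C'.functionField := (constants s').toAlgebra
  let _ := (jj e).toAlgebra
  have : IsScalarTower ℂ C.functionField C'.functionField := IsScalarTower.of_algebraMap_eq hs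
  have : FiniteDimensional C.functionField C'.functionField := jj_fin e hk
  have : IsFF ℂ C.functionField := ⟨essFin s, hd⟩
  have hdim : Algebra.trdeg ℂ C'.functionField = 1 := by
    rw [← trdeg_add_eq ℂ C.functionField (A := C'.functionField), this.td, trdeg_eq_zero,
      add_zero]
  have : IsFF ℂ C'.functionField := ⟨essFin s', hdim⟩
  refine ⟨hdim, Module.finrank C.functionField C'.functionField, Module.finrank_pos,
    fun w n0 fw => ?_⟩
  have hV : ∀ (Q : PlaceOver ℂ C'.functionField) a, a ∈ (rp C.functionField Q).1.ring ↔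
      jj e a ∈ (rp C'.functionField Q).1.ring := fun Q a =>
    (mem_rp Q a).trans (mem_rp (K := C'.functionField) Q _).symm
  let Φ : PlaceOver ℂ C'.functionField → ℤ := fun Q =>
    if h : ∃ z : C, Dom (rp C.functionField Q).1.ring z then Q.1.ord (jj e (w h.choose)) else 0
  have e1 : ∀ Q z, Dom (rp C.functionField Q).1.ring z → Φ Q = Q.1.ord (jj e (w z)) :=
    fun Q z hz => by
      have h1 : ∃ z : C, Dom (rp C.functionField Q).1.ring z := ⟨z, hz⟩
      rw [← dom_unique h1.choose_spec hz]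
      exact dif_pos h1
  have hf : (Function.support Φ).Finite := by
    refine (fw.biUnion (t := fun b => ((P297.div ℂ (jj e b)).support : Set _))
      fun b _ => Finset.finite_toSet _).subset fun Q hQ => ?_
    by_cases h1 : ∃ z : C, Dom (rp C.functionField Q).1.ring z
    · obtain ⟨z, hz⟩ := h1
      rw [Function.mem_support, e1 Q z hz] at hQ
      exact mem_biUnion ⟨z, rfl⟩ (Finsupp.mem_support_iff.2 hQ)
    · exact (hQ (dif_neg h1)).elim
  have s1 := sum_ord' (const_loc s) (conductor s) n0 hf e1 fun Q hQ => dif_neg (not_exists.2 hQ)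
  have s2 := sum_ord' (L := C'.functionField) (const_loc s') (conductor s')
    (w := fun z => jj e (w (k z))) (fun z => (map_ne_zero _).2 (n0 _)) hf
    (fun Q z hz => e1 Q _ (dom_dn e (hV Q) hz)) fun Q hQ => dif_neg fun ⟨z, hz⟩ =>
      let ⟨x, hx⟩ := dom_up e (hV Q) hz; hQ x hx
  rwa [s2, Module.finrank_self, Nat.cast_one, one_mul] at s1

end cov

open Vale.Agent.P283M.Br Vale.Agent.P283M.Stm.Var Vale.Agent.P283M.Am
open Vale.Agent.P283R.Eb.Nf

variable {X : Stm.Var} {D : X.PrimeDiv → ℚ} {m : ℕ} {a : X.K} {x : Pt X.X}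

theorem le_neg (h : LocalEq D m a x) : LocalEq (-D) m a⁻¹ x :=
  ⟨inv_ne_zero h.1, fun E hE => by
    obtain ⟨P, -, e⟩ := pl_of plc E
    rw [e, P297Z.Pl.ord_inv, ← e, Int.cast_neg, h.2 E hE, Pi.neg_apply, mul_neg]⟩

theorem unif' (hD : {y | D y ≠ 0}.Finite) (h : ∀ x, ∃ m a, 0 < m ∧ LocalEq D m a x) :
    ∃ M, 0 < M ∧ ∃ a : Pt X.X → X.K, (range a).Finite ∧ ∀ x, LocalEq D M (a x) x := by
  obtain ⟨M, M0, hM⟩ := unif hD h
  have fs : Fs (ex D) := (hD.image Subtype.val).subset fun y a =>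
    ⟨⟨y, a.1⟩, fun k => a.2 ((ex_apply (X := X) ⟨y, a.1⟩).trans k), rfl⟩
  choose a h using hM
  obtain ⟨T, hT⟩ := cover (⊤ : X.X.Opens) (fun y : X.X => {x | LocalEq D M (a y) x})
    (fun y => by simpa only [localEq_iff] using (fs.smul M).isOpen (a y)⁻¹)
    fun x _ => ⟨x, h x⟩
  choose c hc k using fun x => hT x trivial
  exact ⟨M, M0, fun x => a (c x), (T.finite_toSet.image a).subset
    (by rintro _ ⟨x, rfl⟩; exact ⟨_, hc x, rfl⟩), k⟩

theorem deg_pow (C : Stm.Curve X) {M : ℕ} {g₀ : X.K} {w : Pt C.C → C.C.functionField}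
    {a : Pt X.X → X.K} (ha : ∀ y, LocalEq D (m * M) (a y) y)
    (hg : LocalEq D m g₀ (C.ι (genericPoint C.C))) (z : C.C)
    (hw : ∃ h α, LocalEq D m h (C.ι z) ∧ toRat α = h / g₀ ∧ restr C.ι α = w z) :
    Scheme.ord (rs C.ι (a (C.ι z) / g₀ ^ M)) z = M * Scheme.ord (w z) z := by
  obtain ⟨b, α, h1, h2, h3⟩ := hw
  have sp := spec_image C.ι z
  have u2 := le_un (le_gen h1 sp) hg
  have pw : LocalEq D (m * M) (b ^ M) (C.ι z) := mul_comm M m ▸ le_pow h1 M
  have u3 := le_un (ha _) pw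
  have e2 : a (C.ι z) / g₀ ^ M = a (C.ι z) / b ^ M * (b / g₀) ^ M := by
    rw [div_pow, div_mul_div_cancel₀ pw.1]
  have u4 : UnAt _ (C.ι (genericPoint C.C)) := ⟨u3.1, reg_gen sp u3.2.1, reg_gen sp u3.2.2⟩
  have n2 := (rs_ne_zero u2.2.1).2 u2
  rw [← h3, res C.ι α h2, e2, rs_mul u4.2.1 (reg_pow u2.2.1 _), rs_pow u2.2.1,
    Scheme.ord_mul ((rs_ne_zero u4.2.1).2 u4) (pow_ne_zero _ n2), ord_rs C.ι u3, zero_add,
    ord_pw n2]

end Nfd

open Nfd Vale.Agent.P283M.Br Vale.Agent.P283M.Stm.Var Vale.Agent.P283R.Eb.Nf in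
/-- **NEF** -/
theorem nef : NEF := by
  intro X Y g p hg hp Z h D D' hD hq ⟨M, θ, M0, θ0, hP⟩ hn C ⟨t, ht⟩ m n ⟨g₀, w, hg₀, hw, en⟩
  have := hg.2.1
  have := hg.2.2.1
  obtain ⟨C', _, ι', k, _, _, com, e, hk⟩ := exists_cov g C.ι
  have : IsLocallyNoetherian C' := LocallyOfFiniteType.isLocallyNoetherian ι'
  have : CompactSpace C' := ι'.isClosedEmbedding.compactSpace
  have : IsNoetherian C' := {}
  have : C'.IsSeparated := ⟨by
    rw [← Limits.terminal.comp_from ι']
    infer_instance⟩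
  have : C.C.IsSeparated := ⟨by
    rw [← Limits.terminal.comp_from C.ι]
    infer_instance⟩
  have pt : ∀ z, g (ι' z) = C.ι (k z) := fun z => congrArg (fun φ => φ z) com
  have p0 : g (ι' (genericPoint C')) = C.ι (genericPoint C.C) := (pt _).trans (congrArg _ e)
  have rj : ∀ u ∈ loc (C.ι (genericPoint C.C)), rs ι' (p u) = jj e (rs C.ι u) := fun u hu => by
    rw [rs_up hp ι' (u := u) (by rw [p0]; exact hu), com, rs_comp e C.ι (by rw [e]; exact hu)]
  obtain ⟨hdim, r, r0, hr⟩ := deg_cov e hk (C.ι ≫ Y.str) (ι' ≫ X.str) (fun c => by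
    rw [← rs_cst, ← rs_cst, ← rj (algebraMap ℂ Y.K c) (const_loc Y.str _ c), hp.cst hg.1])
    C.dim_one
  let C₁ : Stm.Curve X := { C := C', ι := ι', dim_one := hdim }
  obtain ⟨M₀, M1, a₀, fa, ha₀⟩ := unif' hD hq
  obtain ⟨a, fa, ha⟩ : ∃ a : Pt Y.X → Y.K, (range a).Finite ∧
      ∀ y, LocalEq (-D') (m * M₀) (a y) y :=
    ⟨fun y => (a₀ y ^ m)⁻¹, (fa.image fun b => (b ^ m)⁻¹).subset
      (by rintro _ ⟨y, rfl⟩; exact ⟨_, ⟨y, rfl⟩, rfl⟩), fun y => le_neg (le_pow (ha₀ y) m)⟩
  have hG : LocalEq (-D') (m * M₀) (g₀ ^ M₀) (C.ι (genericPoint C.C)) :=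
    mul_comm M₀ m ▸ le_pow hg₀ M₀
  have up : ∀ (x : Pt X.X) {u : Y.K} {y : Pt Y.X}, g x = y → LocalEq (-D') (m * M₀) u y →
      LocalEq (-D) (M * (m * M₀)) (θ ^ (m * M₀) * p u⁻¹ ^ M)⁻¹ x := by
    rintro x u _ rfl k
    exact le_neg (hP x _ _ (neg_neg D' ▸ le_neg k))
  have hu : ∀ z, UnAt (a (C.ι z) / g₀ ^ M₀) (C.ι (genericPoint C.C)) := fun z =>
    le_un (le_gen (ha _) (spec_image C.ι z)) hG
  have n0 : ∀ z, rs C.ι (a (C.ι z) / g₀ ^ M₀) ≠ 0 := fun z => (rs_ne_zero (hu z).2.1).2 (hu z)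
  have s1 := hr _ n0 ((fa.image fun b => rs C.ι (b / g₀ ^ M₀)).subset
    (by rintro _ ⟨y, rfl⟩; exact ⟨_, ⟨_, rfl⟩, rfl⟩))
  have q1 : ∀ y, (θ ^ (m * M₀) * p (a y)⁻¹ ^ M)⁻¹ / (θ ^ (m * M₀) * p (g₀ ^ M₀)⁻¹ ^ M)⁻¹ =
      p ((a y / g₀ ^ M₀) ^ M) := fun y => by
    have := (map_ne_zero p).2 (ha y).1
    have := (map_ne_zero p).2 hG.1
    rw [map_pow p (a y / _), map_div₀, map_inv₀, map_inv₀, div_pow, inv_pow, inv_pow]
    field_simp
  have hd' : C₁.IsDeg (-D) (M * (m * M₀)) _ :=
    ⟨_, fun z => jj e (rs C.ι (a (C.ι (k z)) / g₀ ^ M₀)) ^ M, up _ p0 hG, fun z _ => by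
      have r := reg_pow (hu (k z)).2.1 M
      obtain ⟨α, hα⟩ := hp.reg (y := ι' (genericPoint C')) (a := (a (C.ι (k z)) / g₀ ^ M₀) ^ M)
        ((congrArg (RegAt _) p0).mpr r)
      refine ⟨_, α, up _ (pt z) (ha _), hα.trans (q1 _).symm, (res ι' α hα).trans ?_⟩
      rw [rj _ r, rs_pow (hu (k z)).2.1, map_pow], rfl⟩
  have k0 := hn C₁ ⟨t, fun z => by
    rw [← ht (k z)]
    exact congrArg h (pt z)⟩ _ _ hd'
  have k1 : ∑ᶠ z : {z : C.C // coheight z = 1},
      Scheme.ord (rs C.ι (a (C.ι z) / g₀ ^ M₀)) z.1 = M₀ * n := by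
    rw [en, mul_finsum]
    exact finsum_congr fun z => deg_pow C ha hg₀ z.1 (hw z.1 z.2)
  have k2 : (0 : ℤ) ≤ M * (r * (M₀ * n)) := by
    rw [← k1, ← s1, mul_finsum]
    exact k0.trans_eq (finsum_congr fun z => ord_pw ((map_ne_zero _).2 (n0 _)) M _)
  exact nonneg_of_mul_nonneg_right (nonneg_of_mul_nonneg_right (nonneg_of_mul_nonneg_right k2
    (by exact_mod_cast M0)) (by exact_mod_cast r0)) (by exact_mod_cast M1)

end Vale.Agent.P283R.Cf
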