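import Vale.Agent.P283R.Cf.St
import Vale.Agent.P283R.Tp.Kap

/-!
# P283R, block CF: the horizontal boundary is a polynomial of degree `2 q`
-/

set_option linter.all false

open Set Polynomial
open Vale.Agent.P297Z

noncomputable section

namespace Vale.Agent.P283R.Cf

open Vale.Agent.P287D

namespace Po

section alg

variable {k : Type} [Field k]

/-- a polynomial all of whose multiplicities are divisible by `m` is an `m`-th power -/
theorem root {A : k[X]} (hA : A ≠ 0) {q m : ℕ}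
    (h : ∀ μ : k[X], Irreducible μ → ∀ (n : ℕ) (A' : k[X]), ¬ μ ∣ A' → A = μ ^ n * A' → m ∣ q * n) :
    ∃ (p : k[X]) (c : k), p.Monic ∧ c ≠ 0 ∧ A ^ q = C c * p ^ m := by
  classical
  have hd : ∀ μ ∈ UniqueFactorizationMonoid.normalizedFactors (A ^ q),
      m ∣ (UniqueFactorizationMonoid.normalizedFactors (A ^ q)).count μ := by
    intro μ hμ
    have hi := UniqueFactorizationMonoid.irreducible_of_normalized_factor μ hμ
    have hn := UniqueFactorizationMonoid.normalize_normalized_factor μ hμ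
    obtain ⟨n, A', h1, h2⟩ := WfDvdMonoid.max_power_factor hA hi
    have e : (UniqueFactorizationMonoid.normalizedFactors A).count μ = n := by
      refine UniqueFactorizationMonoid.count_normalizedFactors_eq hi hn ⟨A', h2⟩ fun hh => h1 ?_
      rw [h2, pow_succ] at hh
      exact (mul_dvd_mul_iff_left (pow_ne_zero n hi.ne_zero)).1 hh
    rw [UniqueFactorizationMonoid.normalizedFactors_pow, Multiset.count_nsmul, e]
    exact h μ hi n A' h1 h2
  obtain ⟨s, hs⟩ := Multiset.exists_smul_of_dvd_count _ hd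
  obtain ⟨u, hu⟩ := UniqueFactorizationMonoid.prod_normalizedFactors (pow_ne_zero q hA)
  obtain ⟨c, hc, e⟩ := Polynomial.isUnit_iff.1 u.isUnit
  rcases Nat.eq_zero_or_pos m with rfl | hm
  · refine ⟨1, c, monic_one, hc.ne_zero, ?_⟩
    rw [← hu, hs, e]; simp
  refine ⟨s.prod, c, ?_, hc.ne_zero, ?_⟩
  · have : (s.map id).prod.Monic := monic_multiset_prod_of_monic s id fun μ hμ => by
      have h1 : μ ∈ UniqueFactorizationMonoid.normalizedFactors (A ^ q) := by
        rw [hs]; exact (Multiset.mem_nsmul_of_ne_zero hm.ne').2 hμ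
      have hi := UniqueFactorizationMonoid.irreducible_of_normalized_factor μ h1
      have hn := UniqueFactorizationMonoid.normalize_normalized_factor μ h1
      exact (Polynomial.normalize_eq_self_iff_monic hi.ne_zero).1 hn
    simpa using this
  · rw [← hu, hs, Multiset.prod_nsmul, e, mul_comm]

end alg

section rat

variable {k K : Type} [Field k] [Algebra ℂ k] [Field K] [Algebra ℂ K] [Algebra k K] {d : ℕ} {τ : K}

theorem ne (h : Rt k d τ) {p : k[X]} (hp : p ≠ 0) : aeval τ p ≠ 0 := fun e =>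
  h.ind.transcendental 0 ⟨p, hp, e⟩

theorem rep (h : Rt k d τ) {g : K} (hg : g ≠ 0) : ∃ A B : k[X], A ≠ 0 ∧ B ≠ 0 ∧ IsRelPrime A B ∧
    g = aeval τ A / aeval τ B := by
  have e : range ![τ] = {τ} := by simp
  have hm : g ∈ IntermediateField.adjoin k {τ} := by rw [← e, h.gen]; trivial
  obtain ⟨r, s, rfl⟩ := (IntermediateField.mem_adjoin_simple_iff k g).1 hm
  have s0 : s ≠ 0 := by rintro rfl; simp at hg
  have r0 : r ≠ 0 := by rintro rfl; simp at hg
  obtain ⟨A, B, c, h1, rfl, rfl⟩ := UniqueFactorizationMonoid.exists_reduced_factors' r s s0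
  refine ⟨A, B, right_ne_zero_of_mul r0, right_ne_zero_of_mul s0, h1, ?_⟩
  rw [map_mul, map_mul, mul_div_mul_left _ _ (ne h (left_ne_zero_of_mul r0))]

theorem ord_c {P : Pl K} (hP : Trv (algebraMap k K) P) (c : k) : P.ord (algebraMap k K c) = 0 :=
  Pl.ord_unit _ (hP c) (by rw [← map_inv₀]; exact hP _)

theorem ae_mem {P : Pl K} (hP : Trv (algebraMap k K) P) (ht : τ ∈ P.ring) (p : k[X]) :
    aeval τ p ∈ P.ring := by
  induction p using Polynomial.induction_on' with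
  | add p q a b => rw [map_add]; exact add_mem a b
  | monomial n c => rw [aeval_monomial]; exact mul_mem (hP c) (pow_mem ht n)

theorem ord_ev {P : Pl K} (hP : Trv (algebraMap k K) P) {a : k}
    (h1 : P.ord (τ - algebraMap k K a) = 1) {A : k[X]} (hA : A.eval a ≠ 0) :
    P.ord (aeval τ A) = 0 := by
  have t0 : τ - algebraMap k K a ≠ 0 := fun e => by simp [e] at h1
  have ht : τ ∈ P.ring := by
    have := add_mem ((Pl.ord_nonneg_iff _ t0).1 (by omega)) (hP a)
    simpa using this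
  obtain ⟨A1, e⟩ := Polynomial.X_sub_C_dvd_sub_C_eval (a := a) (p := A)
  have e' : aeval τ A = algebraMap k K (A.eval a) + (τ - algebraMap k K a) * aeval τ A1 := by
    have := congrArg (aeval τ) e
    simp only [map_sub, map_mul, aeval_C, aeval_X] at this
    rw [← this]; ring
  rw [e']
  by_cases z : aeval τ A1 = 0
  · rw [z, mul_zero, add_zero, ord_c hP]
  · have := Pl.ord_nonneg_of_mem _ (ae_mem hP ht A1)
    rw [Pl.ord_add_eq_of_lt _ ((_root_.map_ne_zero _).2 hA) (mul_ne_zero t0 z), ord_c hP]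
    rw [ord_c hP, Pl.ord_mul _ t0 z]; omega

theorem ord_mu (h : Rt k d τ) {P : Pl K} {μ : k[X]} (hi : Irreducible μ)
    (h1 : P.ord (aeval τ μ) = 1) (h2 : ∀ p : k[X], ¬ μ ∣ p → P.ord (aeval τ p) = 0) (n : ℕ)
    {A' : k[X]} (hA : ¬ μ ∣ A') : P.ord (aeval τ (μ ^ n * A')) = n := by
  have a0 : A' ≠ 0 := fun e => hA (e ▸ dvd_zero μ)
  rw [map_mul, map_pow, Pl.ord_mul _ (pow_ne_zero _ (ne h hi.ne_zero)) (ne h a0), Pl.ord_pow, h1,
    h2 _ hA]
  simp

theorem jac_ex {n : ℕ} {x z : Fin n → K} (hx : Frm x) (hz : Frm z) :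
    ∃ J : K, J ≠ 0 ∧ ∀ P : Pl K, kap x P = kap z P + P.ord J := by
  obtain ⟨D, hD⟩ := hz
  obtain ⟨D', hD'⟩ := hx
  obtain ⟨a, b, -⟩ := kap' n K z x D D' hD hD'
  exact ⟨_, a, b⟩

theorem ld_eq {n m : ℕ} {x z : Fin n → K} {J h : K} (hm : 0 < m) (h0 : h ≠ 0) (J0 : J ≠ 0)
    {P : Pl K} (e : kap x P = kap z P + P.ord J) :
    ld x m h P = 1 + kap z P - P.ord (h / J ^ m) / m := by
  have : (m : ℝ) ≠ 0 := by exact_mod_cast hm.ne'
  rw [ld, e, Pl.ord_div _ h0 (pow_ne_zero _ J0), Pl.ord_pow]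
  push_cast
  field_simp
  ring

end rat

end Po

open Po in
/-- **POLR** -/
theorem polr : POLR := by
  intro shf rat k K _ _ _ _ _ _ d q m τ h y x hτ hy hx hq hm h0 hor
  have mR : (0 : ℝ) < m := by exact_mod_cast hm
  obtain ⟨f0, sh, -⟩ := shf k K d τ y hτ hy
  obtain ⟨J0, J00, hJ0⟩ := jac_ex hx f0
  obtain ⟨A0, B0, a0, b0, -, e0⟩ := rep hτ (div_ne_zero h0 (pow_ne_zero m J00))
  haveI : CharZero k := charZero_of_injective_algebraMap (algebraMap ℂ k).injective
  obtain ⟨a, ha⟩ : ∃ a : k, (A0 * B0).eval a ≠ 0 := by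
    classical
    obtain ⟨a, ha⟩ := Infinite.exists_notMem_finset (A0 * B0).roots.toFinset
    exact ⟨a, fun e => ha (by
      rw [Multiset.mem_toFinset, mem_roots (mul_ne_zero a0 b0)]; exact e)⟩
  rw [eval_mul] at ha
  obtain ⟨r1, k1⟩ := sh a
  obtain ⟨-, -, r2, k2⟩ := shf k K d _ y r1 hy
  set τ' := (τ - algebraMap k K a)⁻¹ with hτ'
  obtain ⟨f2, -⟩ := shf k K d τ' y r2 hy
  obtain ⟨J, J1, hJ⟩ := jac_ex hx f2
  obtain ⟨fin, P', t', kp', dg'⟩ := rat k K d τ' y r2 hy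
  have g0 : h / J ^ m ≠ 0 := div_ne_zero h0 (pow_ne_zero m J1)
  obtain ⟨A, B, a1, b1, cop, e1⟩ := rep r2 g0
  -- the order at infinity
  have o1 : P'.ord (τ - algebraMap k K a) = 1 := by
    have := dg' X X_ne_zero
    rw [aeval_X, hτ', Pl.ord_inv, natDegree_X] at this
    omega
  have oi : P'.ord (h / J ^ m) = -(2 * m : ℤ) := by
    have l0 := ld_eq hm h0 J00 (hJ0 P')
    have l1 := ld_eq hm h0 J1 (hJ P')
    have k3 := k2 P'
    rw [k1, kp', o1] at k3
    rw [e0, Pl.ord_div _ (ne hτ a0) (ne hτ b0), ord_ev t' o1 (left_ne_zero_of_mul ha),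
      ord_ev t' o1 (right_ne_zero_of_mul ha)] at l0
    rw [kp', l0] at l1
    have : (P'.ord (h / J ^ m) : ℝ) / m = -2 := by
      push_cast at k3 l1
      simp only [sub_self, zero_div, sub_zero] at l1
      linarith
    rw [div_eq_iff mR.ne'] at this
    have t2 : ((P'.ord (h / J ^ m) : ℤ) : ℝ) = ((-(2 * m : ℤ) : ℤ) : ℝ) := by
      push_cast; linarith
    exact_mod_cast t2
  -- the finite points
  have key : ∀ μ : k[X], Irreducible μ → ∃ P : Pl K, P.ord (aeval τ' μ) = 1 ∧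
      (∀ p : k[X], ¬ μ ∣ p → P.ord (aeval τ' p) = 0) ∧ 0 ≤ P.ord (h / J ^ m) ∧
      P.ord (h / J ^ m) < m ∧ (m : ℤ) ∣ q * P.ord (h / J ^ m) := by
    intro μ hi
    obtain ⟨P, t, kp, h1, h2⟩ := fin μ hi
    obtain ⟨c1, c2, z, c3⟩ := hor P t
    rw [ld_eq hm h0 J1 (hJ P), kp] at c1 c2 c3
    refine ⟨P, h1, h2, ?_, ?_, q - z, ?_⟩
    · have : (0 : ℝ) ≤ (P.ord (h / J ^ m) : ℝ) / m := by linarith
      have := (div_nonneg_iff.1 this).resolve_right fun t => absurd t.2 (not_le.2 mR)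
      exact_mod_cast this.1
    · have : (P.ord (h / J ^ m) : ℝ) / m < 1 := by linarith
      rw [div_lt_one mR] at this
      exact_mod_cast this
    · have : (q : ℝ) * P.ord (h / J ^ m) = m * (q - z) := by
        rw [← c3]; field_simp; ring
      exact_mod_cast this
  have bu : IsUnit B := by
    by_contra nb
    obtain ⟨μ, hi, hd⟩ := WfDvdMonoid.exists_irreducible_factor nb b1
    obtain ⟨P, h1, h2, c1, -⟩ := key μ hi
    have na : ¬ μ ∣ A := fun t => hi.not_isUnit (cop t hd)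
    obtain ⟨n, B', n1, n2⟩ := WfDvdMonoid.max_power_factor b1 hi
    have ob := ord_mu r2 hi h1 h2 n n1
    rw [← n2] at ob
    rw [e1, Pl.ord_div _ (ne r2 a1) (ne r2 b1), h2 A na, ob] at c1
    have : n = 0 := by omega
    rw [this, pow_zero, one_mul] at n2
    exact n1 (n2 ▸ hd)
  obtain ⟨b, hb, rfl⟩ := Polynomial.isUnit_iff.1 bu
  obtain ⟨A', a2, e2⟩ : ∃ A' : k[X], A' ≠ 0 ∧ h / J ^ m = aeval τ' A' :=
    ⟨C b⁻¹ * A, mul_ne_zero (C_ne_zero.2 (inv_ne_zero hb.ne_zero)) a1, by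
      rw [e1, map_mul, aeval_C, aeval_C, map_inv₀, div_eq_inv_mul]⟩
  have dA : A'.natDegree = 2 * m := by
    have := dg' A' a2
    rw [← e2, oi] at this
    omega
  have mu : ∀ μ : k[X], Irreducible μ → ∀ (n : ℕ) (A2 : k[X]), ¬ μ ∣ A2 → A' = μ ^ n * A2 →
      n < m ∧ m ∣ q * n := by
    intro μ hi n A2 n1 n2
    obtain ⟨P, h1, h2, -, c2, c3⟩ := key μ hi
    have ob := ord_mu r2 hi h1 h2 n n1
    rw [← n2, ← e2] at ob
    rw [ob] at c2 c3
    exact ⟨by exact_mod_cast c2, by exact_mod_cast c3⟩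
  obtain ⟨p, c, mo, c0, e3⟩ := root a2 fun μ hi n A2 n1 n2 => (mu μ hi n A2 n1 n2).2
  refine ⟨τ', J, p, c, r2, J1, hJ, mo, ?_, fun μ hi hd => ?_, c0, ?_⟩
  · have := congrArg natDegree e3
    rw [natDegree_pow, natDegree_C_mul c0, natDegree_pow, dA] at this
    refine Nat.eq_of_mul_eq_mul_left hm ?_
    rw [← this]; ring
  · obtain ⟨n, A2, n1, n2⟩ := WfDvdMonoid.max_power_factor a2 hi
    have lt := (mu μ hi n A2 n1 n2).1
    have d1 : μ ^ (n * q + 1) ∣ μ ^ (n * q) * A2 ^ q := by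
      rw [pow_mul, ← mul_pow, ← n2, e3]
      refine Dvd.dvd.mul_left ((pow_dvd_pow μ ?_).trans (pow_mul μ (q + 1) m ▸
        pow_dvd_pow_of_dvd hd m)) _
      nlinarith
    rw [pow_succ, mul_dvd_mul_iff_left (pow_ne_zero _ hi.ne_zero)] at d1
    exact n1 (hi.prime.dvd_of_dvd_pow d1)
  · have e4 : h = aeval τ' A' * J ^ m := by rw [← e2, div_mul_cancel₀ _ (pow_ne_zero m J1)]
    have e5 := congrArg (aeval τ') e3
    rw [map_pow, map_mul, map_pow, aeval_C] at e5
    rw [e4, mul_pow, e5]; ring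

end Vale.Agent.P283R.Cf
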