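import Vale.Agent.P283R.Cf.St
import Vale.Agent.P283R.Tp.Ram
import Vale.Agent.P287D.Hd.Ln

/-!
# P283R, block CF: the closed points of the projective line
-/

open Set Polynomial

noncomputable section

namespace Vale.Agent.P283R.Cf

open Vale.Agent.P287D Vale.Agent.P287D.Hd

namespace Ra

variable {k K : Type} [Field k] [Algebra ℂ k] [Field K] [Algebra ℂ K] [Algebra k K] {d : ℕ}
  {τ : K}

theorem ru (h : Rt k d τ) : Ru k τ := by
  refine ⟨by simpa using h.ind.transcendental 0, ?_⟩
  have := h.gen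
  rwa [Matrix.range_cons, Matrix.range_empty, union_empty] at this

theorem kap_fr (h : Rt k d τ) (y : Fin d → k) : kap (fr y τ) = kap (Ln.cw y τ) := by
  have e : fr y τ = Ln.cw y τ ∘ finRotate (d + 1) := by
    funext i
    refine Fin.lastCases ?_ (fun j => ?_) i
    · have : fr y τ (Fin.natAdd d 0) = τ := by simp [fr, Cx.zt]
      rw [Function.comp_apply, finRotate_last]
      exact this
    · have : fr y τ (Fin.castAdd 1 j) = algebraMap k K (y j) := by simp [fr, Cx.zt]
      rw [Function.comp_apply, finRotate_apply, Fin.coeSucc_eq_succ]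
      exact this
  rw [e, Cb.kap_perm h.ff']

end Ra

theorem rat : RAT := by
  intro k K _ _ _ _ _ _ d τ y h hy
  have r := Ra.ru h
  rw [Ra.kap_fr h]
  refine ⟨fun μ hμ => ?_, ?_⟩
  · have c0 : μ.leadingCoeff ≠ 0 := leadingCoeff_ne_zero.2 hμ.ne_zero
    have as : Associated μ (μ * C μ.leadingCoeff⁻¹) :=
      associated_mul_unit_right _ _ (isUnit_C.2 (inv_ne_zero c0).isUnit)
    obtain ⟨P, a⟩ := Ln.exists_pl r (as.irreducible hμ) (monic_mul_leadingCoeff_inv hμ.ne_zero)
    refine ⟨P, a.tv, Ln.kap_fin h.ff r hy.ind a.tv a.mem, ?_, fun p hp =>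
      a.ord_of fun e => hp (as.dvd.trans e)⟩
    have o := a.ord r
    have u : P.ord (aeval τ (C μ.leadingCoeff⁻¹)) = 0 := a.ord_of fun e =>
      a.irr.not_isUnit (isUnit_of_dvd_unit e (isUnit_C.2 (inv_ne_zero c0).isUnit))
    rw [map_mul, P.ord_mul (r.ne hμ.ne_zero) (r.ne (C_ne_zero.2 (inv_ne_zero c0))), u] at o
    simpa using o
  · obtain ⟨P, a⟩ := Ln.exists_pl r.rcp (irreducible_X (R := k)) monic_X
    refine ⟨P, a.tv, Ln.kap_inf h.ff r hy.ind a.tv fun m => ?_, fun p hp => Ln.ord_inf r a hp⟩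
    have o := Ln.ord_inf r a (X_ne_zero (R := k))
    have := P297Z.Pl.ord_nonneg_of_mem _ m
    rw [aeval_X, natDegree_X] at o
    omega

theorem ratr : RATR := fun _ => rat

end Vale.Agent.P283R.Cf
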