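import Vale.Agent.P283R.Cf.St
import Vale.Agent.P283R.Tp.Fre
import Vale.Agent.P283R.Tp.Ram

/-!
# P283R, block CF, rows RSC and DSNR: the norm of the function, Galois descent of the formula
-/

open Set

noncomputable section

namespace Vale.Agent.P283R.Cf

open Vale.Agent.P287D Vale.Agent.P297Z

section

variable {L F : Type} [Field L] [Algebra ℂ L] [Field F] [Algebra ℂ F] [Algebra L F] {d n : ℕ}

open Classical in
theorem mz_image {u : Finset L} (hu : Nz u) {a : L} (ha : a ≠ 0) {r : ℕ} (hr : 0 < r) (v : Pl L) :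
    v.mz (u.image fun f => a * f ^ r) = r * v.mz u - v.ord a := by
  obtain ⟨f, hf, f0, e⟩ := v.exists_mz hu
  rw [v.mz_eq (Finset.mem_image_of_mem (fun f => a * f ^ r) hf)
    (mul_ne_zero ha (pow_ne_zero _ f0)), Pl.ord_mul _ ha (pow_ne_zero _ f0), Pl.ord_pow, e]
  · ring
  · intro g hg g0
    obtain ⟨g, k, rfl⟩ := Finset.mem_image.1 hg
    have g1 : g ≠ 0 := fun z => g0 (by rw [z, zero_pow hr.ne', mul_zero])
    have := v.le_mz k g1
    rw [Pl.ord_mul _ ha (pow_ne_zero _ f0), Pl.ord_mul _ ha (pow_ne_zero _ g1), Pl.ord_pow,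
      Pl.ord_pow]
    exact add_le_add_right (mul_le_mul_of_nonneg_left (by omega) (Nat.cast_nonneg r)) _

/-- the system of `a ψ ^ r` -/
theorem Out.scale {M E r : ℕ} {y : Fin d → L} {x : Fin n → F} {ψ : F} {u : Finset L}
    (h : Out M E y x ψ u) (hM : 0 < M) (hr : 0 < r) (h0 : ψ ≠ 0) {a : L} (ha : a ≠ 0) :
    ∃ u', Out (M * r) E y x (algebraMap L F a * ψ ^ r) u' := by
  classical
  have m0 : (M : ℝ) ≠ 0 := Nat.cast_ne_zero.2 hM.ne'
  have r0 : (r : ℝ) ≠ 0 := Nat.cast_ne_zero.2 hr.ne'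
  have k : ∀ P v, Lies (algebraMap L F) P v →
      ld x (M * r) (algebraMap L F a * ψ ^ r) P -
        ee P v * gl y (M * r) (u.image fun f => a * f ^ r) v =
      ld x M ψ P - ee P v * gl y M u v := fun P v l => by
    rw [ld, ld, gl, gl, ee, mz_image h.nz ha hr,
      Pl.ord_mul _ ((map_ne_zero _).2 ha) (pow_ne_zero _ h0), Pl.ord_pow, l.ord a]
    push_cast
    field_simp
    ring
  obtain ⟨f, hf, f0⟩ := h.nz
  refine ⟨u.image fun f => a * f ^ r, ⟨_, Finset.mem_image_of_mem _ hf,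
    mul_ne_zero ha (pow_ne_zero _ f0)⟩, fun P v l => ?_, fun v => ?_⟩
  · linarith [k P v l, h.lo P v l]
  · obtain ⟨P, l, a, b⟩ := h.hi v
    exact ⟨P, l, a, by linarith [k P v l]⟩

end

/-- **RSC** -/
theorem rsc : RSC := by
  intro k K L F _ _ _ _ _ _ _ _ _ _ _ _ _ _ _ _ d D G sq M E m y x h ψ c u acl hM hm ψ0 c0 e o
  have := sq.fin
  have := Fintype.ofFinite G
  obtain ⟨t, ht⟩ : Fintype.card G ∣ D.factorial :=
    Nat.dvd_factorial Fintype.card_pos (Nat.card_eq_fintype_card (α := G) ▸ sq.card)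
  obtain ⟨ψ₁, hψ⟩ := (sq.fix _).1 (Fre.fix_prod (G := G) ψ)
  obtain ⟨z, hz⟩ := (sq.fix _).1 (Fre.fix_prod (G := G) (algebraMap L F c))
  obtain ⟨l, hl⟩ : ∏ σ : G, σ.1 (algebraMap L F c) ∈ (algebraMap L F).range :=
    prod_mem fun σ _ => sq.stab σ.1 σ.2 c
  obtain ⟨c₁, rfl⟩ := sq.cap l z (hl.trans hz.symm)
  have c0' : algebraMap L F c ≠ 0 := (map_ne_zero _).2 c0
  have p0 : algebraMap K F ψ₁ ≠ 0 :=
    hψ ▸ Finset.prod_ne_zero_iff.2 fun σ _ => (map_ne_zero _).2 ψ0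
  have l0 : algebraMap L F (algebraMap k L c₁) ≠ 0 :=
    hl ▸ Finset.prod_ne_zero_iff.2 fun σ _ => (map_ne_zero _).2 c0'
  have e1 : (algebraMap K F h ^ M) ^ Fintype.card G =
      algebraMap L F (algebraMap k L c₁) * algebraMap K F ψ₁ ^ m := by
    rw [hl, hψ, ← Finset.prod_pow, ← Finset.prod_mul_distrib, ← Finset.card_univ,
      ← Finset.prod_const]
    refine Finset.prod_congr rfl fun σ _ => ?_
    rw [← map_pow σ.1, ← map_mul, ← e, map_pow, (sq.fix _).2 ⟨h, rfl⟩ σ.1 σ.2]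
  obtain ⟨κ, hκ⟩ : algebraMap K F ψ₁ / ψ ^ Fintype.card G ∈ range (algebraMap L F) := by
    refine acl _ (IsAlgebraic.of_pow hm ?_)
    have : (algebraMap K F ψ₁ / ψ ^ Fintype.card G) ^ m =
        algebraMap L F (c ^ Fintype.card G / algebraMap k L c₁) := by
      rw [map_div₀, map_pow, div_pow, div_eq_div_iff (pow_ne_zero _ (pow_ne_zero _ ψ0)) l0,
        mul_comm, ← e1, e, mul_pow, pow_right_comm]
    exact this ▸ isAlgebraic_algebraMap _
  have k0 : κ ≠ 0 := fun z => div_ne_zero p0 (pow_ne_zero _ ψ0) (by rw [← hκ, z, map_zero])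
  obtain ⟨u', hu⟩ := o.scale hM D.factorial_pos ψ0 (pow_ne_zero t k0)
  refine ⟨ψ₁ ^ t, c₁ ^ t, u', pow_ne_zero _ ((map_ne_zero _).1 p0),
    pow_ne_zero _ ((map_ne_zero _).1 ((map_ne_zero _).1 l0)), (algebraMap K F).injective ?_, ?_⟩
  · rw [map_pow, ht, ← mul_assoc, pow_mul, pow_mul, e1, sq.com, mul_pow, map_mul, map_pow, map_pow,
      map_pow, map_pow, pow_right_comm]
  · rwa [map_pow, hκ, ht, pow_mul, ← mul_pow, div_mul_cancel₀ _ (pow_ne_zero _ ψ0), ← map_pow,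
      ← ht] at hu

/-- **DSNR** -/
theorem dsnr : DSNR := by
  intro dsc rsc k K L F _ _ _ _ _ _ _ _ _ _ _ _ _ _ _ _ d D G sq q M E hM acl unr cb y x hy hx m h
    hm h0 hor
  obtain ⟨y1, -⟩ := ram d k L (IsScalarTower.toAlgHom ℂ k L) y sq.fk sq.fL hy
  obtain ⟨x1, rx⟩ := ram (d + 1) K F (IsScalarTower.toAlgHom ℂ K F) x sq.fK sq.fF hx
  have hor' : Hor L q (fun i => algebraMap K F (x i)) m (algebraMap K F h) := fun R tr => by
    obtain ⟨P, l⟩ := Pb.down sq.fK sq.fF R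
    have e := unr R P tr l
    have e1 : 1 + kap (fun i => algebraMap K F (x i)) R =
      R.ord (algebraMap K F P.t) * (1 + kap x P) := (rx R P l).2.2
    have : ld (fun i => algebraMap K F (x i)) m (algebraMap K F h) R = ld x m h P := by
      rw [ld, ld, e1, l.ord h, e, one_mul, Int.cast_one, one_mul]
    rw [this]
    exact hor P fun f => (l _).2 (sq.com f ▸ tr _)
  obtain ⟨ψ, c, u, ψ0, c0, e, o⟩ := cb _ _ y1 x1 m _ hm ((map_ne_zero _).2 h0) hor'
  obtain ⟨ψ', c', u', p0, c1, e', o'⟩ :=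
    rsc k K L F d D G sq M E m _ _ h ψ c u acl hM hm ψ0 c0 e o
  obtain ⟨u'', o''⟩ := dsc k K L F d D G sq _ E y x ψ' u' (mul_pos hM D.factorial_pos) hy hx p0 o'
  refine ⟨_, c' ^ D.factorial, u'', pow_ne_zero _ p0, pow_ne_zero _ c1, ?_, o''⟩
  rw [pow_mul, e', mul_pow, map_pow, pow_right_comm]

end Vale.Agent.P283R.Cf
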