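import Vale.Agent.P283R.Cf.St
import Vale.Agent.P283R.Cx.Gp
import Vale.Agent.P283R.Tp.Ram
import Vale.Agent.P283R.Tp.Kap

/-!
# P283R, block CF: changes of the coordinate of `k(τ)`, the constants of `k(τ)`
-/

open Set Polynomial
open Vale.Agent.P285N.Brep (jac Fr)
open Vale.Agent.P297Z

noncomputable section

namespace Vale.Agent.P283R.Cf

open Vale.Agent.P287D

variable {k K : Type} [Field k] [Algebra ℂ k] [Field K] [Algebra ℂ K] [Algebra k K] {d : ℕ}
  {τ σ : K} {y : Fin d → k}

omit [Field K] [Algebra ℂ K] in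
theorem range_one (τ : K) : range ![τ] = {τ} := by simp

theorem Rt.tr (h : Rt k d τ) : Transcendental k τ :=
  algebraicIndependent_unique_type_iff.1 h.ind

theorem Rt.top (h : Rt k d τ) : IntermediateField.adjoin k {τ} = ⊤ := range_one τ ▸ h.gen

theorem Rt.ne (h : Rt k d τ) : τ ≠ 0 := fun e => h.tr (e ▸ isAlgebraic_zero)

/-- another generator -/
theorem Rt.of_mem (h : Rt k d τ) (hσ : τ ∈ IntermediateField.adjoin k {σ}) : Rt k d σ := by
  have top : IntermediateField.adjoin k {σ} = ⊤ :=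
    eq_top_iff.2 (h.top ▸ IntermediateField.adjoin_simple_le_iff.2 hσ)
  refine ⟨h.ff, h.ff', algebraicIndependent_unique_type_iff.2 fun a => h.tr ?_,
    (range_one σ).symm ▸ top⟩
  have := IntermediateField.isAlgebraic_adjoin_simple (K := k) (x := σ) a.isIntegral
  exact IntermediateField.isAlgebraic_iff.1 (this.isAlgebraic ⟨τ, hσ⟩)

theorem Rt.frac (h : Rt k d τ) (z : K) : ∃ p q : k[X], z = aeval τ p / aeval τ q :=
  (IntermediateField.mem_adjoin_simple_iff k z).1 (h.top ▸ trivial)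

omit [Algebra ℂ k] in
theorem jac_fr {D : Fin (d + 1) → Derivation ℂ K K} (hD : Fr (fr y τ) D) (σ : K) :
    jac D (fr y σ) = D (Fin.natAdd d 0) σ := by
  have e : (Matrix.of fun i j => D i (fr y σ j)) =
      (1 : Matrix _ _ K).updateCol (Fin.natAdd d 0) fun i => D i σ := by
    ext i j
    refine Fin.addCases (fun j => ?_) (fun j => ?_) j
    · have ne : Fin.castAdd 1 j ≠ Fin.natAdd d 0 := fun h => by
        have := congrArg Fin.val h
        simp at this
        omega
      have := hD.dual i (Fin.castAdd 1 j)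
      simp only [fr, Cx.zt, Fin.append_left] at this
      simp only [Matrix.of_apply, fr, Cx.zt, Fin.append_left, Matrix.updateCol_ne ne, this,
        Matrix.one_apply]
    · obtain rfl : j = 0 := Subsingleton.elim _ _
      simp only [Matrix.of_apply, fr, Cx.zt, Fin.append_right, Matrix.updateCol_self,
        Matrix.cons_val_zero]
  rw [jac, e, ← Matrix.cramer_apply, Matrix.cramer_one]
  rfl

variable [IsScalarTower ℂ k K]

theorem Rt.frm (h : Rt k d τ) (hy : Frm y) : Frm (fr y τ) :=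
  frm_of h.ff' (Cx.Gp.fm_ind (Frm.ind hy) h.ind)

theorem Rt.kap (h' : Rt k d σ) (hy : Frm y) {D : Fin (d + 1) → Derivation ℂ K K}
    (hD : Fr (fr y τ) D) (P : Pl K) :
    kap (fr y σ) P = kap (fr y τ) P + P.ord (D (Fin.natAdd d 0) σ) := by
  obtain ⟨D', hD'⟩ := h'.frm hy
  rw [(kap' _ K _ _ D D' hD hD').2.1 P, jac_fr hD]

/-- **SHF** -/
theorem shf : SHF := by
  intro k K _ _ _ _ _ _ d τ y h hy
  obtain ⟨D, hD⟩ := h.frm hy
  have d1 : D (Fin.natAdd d 0) τ = 1 := by
    simpa only [fr, Cx.zt, Fin.append_right, Matrix.cons_val_zero, if_true] using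
      hD.dual (Fin.natAdd d 0) (Fin.natAdd d 0)
  have d0 := (Cx.Gp.eul h.ff (Frm.ind hy) h.ind.ne_zero hD 0).1
  have r1 : ∀ a : k, Rt k d (τ - algebraMap k K a) := fun a => h.of_mem (by
    have := add_mem (IntermediateField.mem_adjoin_simple_self k (τ - algebraMap k K a))
      (IntermediateField.algebraMap_mem _ a)
    rwa [sub_add_cancel] at this)
  have r2 : Rt k d τ⁻¹ := h.of_mem (by
    have := inv_mem (IntermediateField.mem_adjoin_simple_self k τ⁻¹)
    rwa [inv_inv] at this)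
  refine ⟨⟨D, hD⟩, fun a => ⟨r1 a, funext fun P => ?_⟩, r2, fun P => ?_⟩
  · rw [(r1 a).kap hy hD, map_sub, d1, d0, sub_zero, Pl.ord_one]
    simp
  · rw [r2.kap hy hD, Derivation.leibniz_inv, d1, smul_eq_mul, mul_one, Pl.ord_neg, Pl.ord_pow,
      Pl.ord_inv]
    push_cast
    ring

/-- **ACR** -/
theorem acr : ACR := by
  intro k K _ _ _ _ _ _ d τ h z hz
  let _ : Algebra k[X] K := (aeval τ : k[X] →ₐ[k] K).toAlgebra
  have : IsScalarTower k k[X] K := IsScalarTower.of_algebraMap_eq fun c =>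
    ((aeval τ : k[X] →ₐ[k] K).commutes c).symm
  have : FaithfulSMul k[X] K :=
    (faithfulSMul_iff_algebraMap_injective _ _).2 (transcendental_iff_injective.1 h.tr)
  have : IsFractionRing k[X] K := IsFractionRing.of_field _ _ h.frac
  obtain ⟨p, rfl⟩ := IsIntegrallyClosed.isIntegral_iff.1 (hz.isIntegral.tower_top (A := k[X]))
  by_cases hp : p.natDegree = 0
  · obtain ⟨c, rfl⟩ := natDegree_eq_zero.1 hp
    exact ⟨c, (aeval_C τ c).symm⟩
  · exact absurd hz (h.tr.aeval p hp (mem_nonZeroDivisors_of_ne_zero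
      (leadingCoeff_ne_zero.2 fun e => hp (by simp [e]))))

end Vale.Agent.P283R.Cf
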