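import Vale.Agent.P283R.Cf.St
import Vale.Agent.P283R.Be.A
import Vale.Agent.P283R.Br.Opn
import Vale.Agent.P287D.Ad.Main

/-!
# P283R, block CF: one step of the tower
-/

open Set

noncomputable section

namespace Vale.Agent.P283R.Cf

open Vale.Agent.P287D

namespace Stp

variable {k K : Type} [Field k] [Algebra ℂ k] [Field K] [Algebra ℂ K] {n : ℕ}

theorem kap_int (y : Fin n → K) (P : Pl K) : ∃ z : ℤ, kap y P = z := by
  unfold kap
  split_ifs
  · exact ⟨_, rfl⟩
  · exact ⟨0, by simp⟩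

/-- a general member loses at most the factor `1 / M` on every chart -/
theorem gen (hk : FF k (n + 1)) {y : Fin (n + 1) → k} (hy : Frm y) {u : Finset k} (hu : Nz u)
    (M : ℕ) {ι : Type} [Finite ι] (v : ι → Finset k) (c₀ : k) (c : ι → k) (r₀ : ℝ) (r : ι → ℝ) :
    ∃ g : k, g ≠ 0 ∧ (∀ w : Pl k, 0 ≤ (w.ord g : ℝ) + w.mz u) ∧ ∀ j,
      (∀ w : Pl k, (∀ a ∈ v j, a ∈ w.ring) → 0 ≤ gl y M u w - r₀ * w.ord c₀ - r j * w.ord (c j)) →
      ∀ w : Pl k, (∀ a ∈ v j, a ∈ w.ring) →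
        (w.ord g : ℝ) + w.mz u ≤ gl y M u w - r₀ * w.ord c₀ - r j * w.ord (c j) := by
  classical
  obtain ⟨D, hD⟩ := hy
  obtain ⟨J, -, e⟩ := Aj.kap_cn hD
  let B : Set (BD k) := {dv J, mx u, dv c₀} ∪ (range fun j => dv (c j)) ∪
    range fun j => mx (insert 1 (v j))
  obtain ⟨g, g1, g0, -, H⟩ := Be.ber_all (T₀ := ∅) (B := B) hk finite_empty
    (((toFinite _).union (finite_range _)).union (finite_range _)) (by
      rintro β (((rfl | rfl | rfl) | ⟨j, rfl⟩) | ⟨j, rfl⟩)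
      exacts [dv_mem_Car _, mx_mem_Car _, dv_mem_Car _, dv_mem_Car _, mx_mem_Car _]) hu
  refine ⟨g, g0, fun w => ?_, fun j hj w hw => ?_⟩
  · have : ((-w.ord g : ℤ) : ℝ) ≤ w.mz u := Int.cast_le.2 (w.le_mz_of_span g1 g0)
    push_cast at this
    linarith
  · have e' : ∀ P, dsc (n + 1) (r₀ • dv c₀ + r j • dv (c j) - dv J - (M : ℝ)⁻¹ • mx u) P + 1 =
        gl y M u P - r₀ * P.ord c₀ - r j * P.ord (c j) := fun P => by
      simp only [dsc, gl, e, Pi.sub_apply, Pi.add_apply, Pi.smul_apply, smul_eq_mul, dv, mx]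
      ring
    have s : ∀ β ∈ B, β ∈ Submodule.span ℝ B := fun _ h => Submodule.subset_span h
    have := H _ (sub_mem (sub_mem (add_mem
      (Submodule.smul_mem _ r₀ (s _ (.inl (.inl (.inr (.inr rfl))))))
      (Submodule.smul_mem _ (r j) (s _ (.inl (.inr ⟨j, rfl⟩))))) (s _ (.inl (.inl (.inl rfl)))))
      (Submodule.smul_mem _ (M : ℝ)⁻¹ (s _ (.inl (.inl (.inr (.inl rfl))))))) w fun P hP => by
        have h1 := (Br.cle_aff (Finset.mem_insert_self 1 (v j)) (hP _ (s _ (.inr ⟨j, rfl⟩)))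
          fun b hb => (Finset.mem_insert.1 hb).elim (fun h => h ▸ one_mem _) (hw b)).1
        have h2 := hj P fun a ha => h1 a (Finset.mem_insert_of_mem ha)
        linarith [e' P]
    rw [e'] at this
    exact this

end Stp

theorem stpr : STPR := by
  classical
  intro cbc q ε hq hε
  obtain ⟨M, E, hM, cb⟩ := cbc q hq
  have M2 : (2 : ℝ) ≤ M := by exact_mod_cast hM
  have E0 : (0 : ℝ) < E + 1 := by positivity
  set ε' : ℝ := ε / (E + 1) / 2 with hε'
  have ε0 : 0 < ε' := by positivity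
  refine ⟨q * M * ⌈1 / ε'⌉₊.factorial, M, ε', by positivity, by omega, ε0, ?_⟩
  intro k K _ _ _ _ _ _ d s t a b T hd con hT k₀ ι _ _ _ φ v c μ y x m h hy hx hm h0 sta
  obtain ⟨n, rfl⟩ : ∃ n, d = n + 1 := ⟨d - 1, by omega⟩
  have m0 : (0 : ℝ) < m := by exact_mod_cast hm
  have M0 : (0 : ℝ) < M := by linarith
  obtain ⟨ψ, c₀, u, ψ0, c0, e, out⟩ := cb k K (n + 1) s t a b con y x hy hx m h hm h0 fun P hP => by
    obtain ⟨j⟩ := ‹Nonempty ι›
    obtain ⟨h1, h2⟩ := sta j P fun a _ => hP _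
    have : aj x m h (((algebraMap k K).comp φ) (c j)) (μ j) P = ld x m h P := by
      simp only [aj, RingHom.comp_apply, Trv.ord hP, Int.cast_zero, zero_div, sub_zero]
    rw [this] at h1 h2
    exact ⟨hε.trans_le h1, h2 (hT P hP)⟩
  have a0 : ∀ {z : k}, z ≠ 0 → algebraMap k K z ≠ 0 := fun h => by simpa using h
  have eh : ∀ P : Pl K, (P.ord h : ℝ) / m =
      P.ord (algebraMap k K c₀) / (M * m) + P.ord ψ / M := fun P => by
    have := congrArg P.ord e
    rw [P.ord_mul (a0 c0) (pow_ne_zero _ ψ0), P.ord_pow, P.ord_pow] at this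
    have h1 : (M : ℝ) * P.ord h = P.ord (algebraMap k K c₀) + m * P.ord ψ := by exact_mod_cast this
    field_simp
    linarith
  have eo : ∀ {P w}, Lies (algebraMap k K) P w → ∀ z : k,
      (P.ord (algebraMap k K z) : ℝ) = ee P w * w.ord z := fun l z => by
    rw [Lies.ord l z, ee]
    push_cast
    rfl
  have e1 : ∀ {P w}, Lies (algebraMap k K) P w → 1 ≤ ee P w := fun l => by
    have := Lies.e_pos l
    unfold ee
    exact_mod_cast this
  have low : ∀ j (w : Pl k), (∀ a ∈ v j, φ a ∈ w.ring) →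
      2 * ε' ≤ gl y M u w - (M * m : ℝ)⁻¹ * w.ord c₀ - (μ j : ℝ)⁻¹ * w.ord (φ (c j)) := by
    intro j w hw
    obtain ⟨P, l, h1, h2⟩ := out.hi w
    have h3 := (sta j P fun a ha => (l _).1 (hw a ha)).1
    simp only [aj, ld, RingHom.comp_apply, eh, eo l] at h2 h3
    set A := gl y M u w - (M * m : ℝ)⁻¹ * w.ord c₀ - (μ j : ℝ)⁻¹ * w.ord (φ (c j)) with hA
    have h4 : ε ≤ ee P w * A := by
      rw [hA]
      simp only [div_eq_inv_mul] at h2 h3
      linarith
    have h5 := e1 l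
    have h6 : 0 < A := by
      by_contra h7
      nlinarith
    rw [hε', mul_div_cancel₀ _ two_ne_zero, div_le_iff₀ E0]
    nlinarith
  obtain ⟨g, g0, g1, g2⟩ := Stp.gen con.ff hy out.nz M (fun j => (v j).image φ) c₀
    (fun j => φ (c j)) (M * m : ℝ)⁻¹ fun j => (μ j : ℝ)⁻¹
  have el : ∀ w : Pl k, ld y (M * m) (g ^ m * c₀) w =
      gl y M u w - (M * m : ℝ)⁻¹ * w.ord c₀ - (w.ord g + w.mz u) / M := fun w => by
    simp only [ld, gl]
    rw [w.ord_mul (pow_ne_zero _ g0) c0, w.ord_pow]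
    push_cast
    field_simp
    ring
  have up : ∀ P w, Lies (algebraMap k K) P w →
      ee P w * ld y (M * m) (g ^ m * c₀) w ≤ ld x m h P := fun P w l => by
    have h1 := out.lo P w l
    have h2 := mul_nonneg (zero_le_one.trans (e1 l)) (div_nonneg (g1 w) M0.le)
    rw [el]
    simp only [ld, eh, eo l, div_eq_inv_mul] at h1 h2 ⊢
    linarith
  refine ⟨M * m, g ^ m * c₀, ψ / algebraMap k K g, by positivity,
    mul_ne_zero (pow_ne_zero _ g0) c0, div_ne_zero ψ0 (a0 g0), fun j w hw => ?_, fun P => ?_, up⟩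
  · have h1 : ε' ≤ aj y (M * m) (g ^ m * c₀) (φ (c j)) (μ j) w := by
      have h2 := g2 j (fun w hw => le_trans (by positivity)
        (low j w fun a ha => hw _ (Finset.mem_image_of_mem _ ha))) w fun a ha => by
          obtain ⟨b, hb, rfl⟩ := Finset.mem_image.1 ha
          exact hw b hb
      have h3 := low j w hw
      have h4 : (w.ord g + w.mz u : ℝ) / M ≤ (w.ord g + w.mz u) / 2 :=
        div_le_div_of_nonneg_left (g1 w) two_pos M2
      rw [aj, el, div_eq_inv_mul (w.ord (φ (c j)) : ℝ)]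
      linarith
    refine ⟨h1, fun ⟨P, hP, l⟩ => ?_⟩
    obtain ⟨h2, z, h3⟩ := (sta j P fun a ha => (l _).1 (hw a ha)).2 hP
    have h4 : ee P w * aj y (M * m) (g ^ m * c₀) (φ (c j)) (μ j) w ≤ 1 := by
      have := up P w l
      simp only [aj, RingHom.comp_apply, eo l, mul_sub, mul_div_assoc] at h2 ⊢
      linarith
    have h5 := e1 l
    refine ⟨by nlinarith, ?_⟩
    obtain ⟨f, hf⟩ : ∃ f : ℕ, ee P w = f :=
      ⟨(P.ord (algebraMap k K w.t)).toNat, by
        rw [ee, ← Int.cast_natCast, Int.toNat_of_nonneg (Lies.e_pos l).le]⟩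
    have h6 : f ≤ ⌈1 / ε'⌉₊ := by
      have : (f : ℝ) ≤ 1 / ε' := by
        rw [le_div_iff₀ ε0, ← hf]
        nlinarith
      exact_mod_cast this.trans (Nat.le_ceil _)
    obtain ⟨f', hf'⟩ := Nat.dvd_factorial (show 0 < f by exact_mod_cast hf ▸ one_pos.trans_le h5) h6
    obtain ⟨z1, h7⟩ := Stp.kap_int x P
    obtain ⟨z2, h8⟩ := Stp.kap_int y w
    refine ⟨f' * (q * f * (M * (1 + z2) - w.ord g) + M * z - q * (M * (1 + z1) - P.ord ψ)), ?_⟩
    simp only [aj, ld, RingHom.comp_apply, eh, eo l, hf, h7] at h3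
    rw [hf', aj, el, gl, h8]
    push_cast
    rw [← h3]
    generalize (w.ord (φ (c j)) : ℝ) = X
    simp only [mul_div_assoc]
    generalize X / μ j = Y
    field_simp
    ring
  · rw [eh, map_mul, map_pow, P.ord_mul (pow_ne_zero _ (a0 g0)) (a0 c0), P.ord_pow,
      P.ord_div ψ0 (a0 g0)]
    push_cast
    field_simp
    ring

end Vale.Agent.P283R.Cf
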