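import Vale.Agent.P283R.Cf.St

/-!
# P283R, block CF: the tower
-/

set_option linter.all false

open Set

noncomputable section

namespace Vale.Agent.P283R.Cf

open Vale.Agent.P287D Vale.Agent.P297Z
open Vale.Agent.P285N.Brep (jac)

theorem iso : ISO := by
  intro k K _ _ _ _ _ _ d q ε T hk hs k₀ ι _ _ _ φ v c μ y x m h hy hx m0 h0 S
  have : Module.Finite k K := Module.Finite.of_surjective (Algebra.linearMap k K) hs
  have hK : FF K d := Hd.ff_up hk
  obtain ⟨⟨D, hD⟩, r⟩ := ram d k K (IsScalarTower.toAlgHom ℂ k K) y hk hK hy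
  obtain ⟨D', hD'⟩ := hx
  obtain ⟨J0, kJ, -⟩ := kap' d K _ x D D' hD hD'
  obtain ⟨h₀, e₀⟩ := hs (h / jac D x ^ m)
  have h1 : h / jac D x ^ m ≠ 0 := div_ne_zero h0 (pow_ne_zero _ J0)
  have mR : (m : ℝ) ≠ 0 := Nat.cast_ne_zero.2 m0.ne'
  have o : ∀ P : Pl K, (P.ord h : ℝ) / m = P.ord (algebraMap k K h₀) / m + P.ord (jac D x) :=
    fun P => by
      rw [e₀, Pl.ord_div _ h0 (pow_ne_zero _ J0), Pl.ord_pow]
      push_cast
      field_simp
      ring
  have e1 : ∀ P w, Lies (algebraMap k K) P w → P.ord (algebraMap k K w.t) = 1 := fun P w l => by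
    obtain ⟨a, ha⟩ := hs P.t
    have := l.ord a
    rw [ha, P.ord_t] at this
    exact Int.eq_one_of_mul_eq_one_right l.e_pos.le this.symm
  have oo : ∀ P w, Lies (algebraMap k K) P w → ∀ a, P.ord (algebraMap k K a) = w.ord a :=
    fun P w l a => by rw [l.ord a, e1 P w l, one_mul]
  have el : ∀ P w, Lies (algebraMap k K) P w → ld y m h₀ w = ld x m h P := fun P w l => by
    have a : 1 + kap (fun i => algebraMap k K (y i)) P =
      P.ord (algebraMap k K w.t) * (1 + kap y w) := (r P w l).2.2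
    have b : kap x P = kap (fun i => algebraMap k K (y i)) P + P.ord (jac D x) := kJ P
    rw [e1 P w l] at a
    rw [ld, ld, o P, b, oo P w l]
    push_cast at a
    linarith
  have ea : ∀ P w, Lies (algebraMap k K) P w → ∀ j, aj y m h₀ (φ (c j)) (μ j) w =
      aj x m h (((algebraMap k K).comp φ) (c j)) (μ j) P := fun P w l j => by
    rw [aj, aj, el P w l, RingHom.comp_apply, oo P w l]
  refine ⟨m, h₀, jac D x, m0, fun z => h1 (by rw [← e₀, z, map_zero]), J0, fun j w hw => ?_,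
    fun P => by rw [o P, Nat.cast_one, div_one], fun P w l => by
      rw [ee, e1 P w l, el P w l, Int.cast_one, one_mul]⟩
  refine ⟨?_, fun ⟨P, p, l⟩ => ?_⟩
  · obtain ⟨P, l⟩ := Pb.up_fin (K' := K) w
    rw [ea P w l]
    exact (S j P fun a ha => (l _).1 (hw a ha)).1
  · rw [ea P w l]
    exact (S j P fun a ha => (l _).1 (hw a ha)).2 p

theorem towr : TOWR := by
  intro hI hS r
  induction r with
  | zero =>
    intro q ε hq hε
    refine ⟨q, 1, ε, hq, one_pos, hε, fun k K _ _ _ _ _ _ d T _ h => ?_⟩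
    have : Module.Finite k K := Module.Finite.of_surjective (Algebra.linearMap k K) h.2
    exact ⟨h.1, Hd.ff_up h.1, hI k K d q ε T h.1 h.2⟩
  | succ r ih =>
    intro q ε hq hε
    obtain ⟨q₁, M₁, ε₁, hq₁, hM₁, hε₁, H₁⟩ := hS q ε hq hε
    obtain ⟨q₂, M₂, ε₂, hq₂, hM₂, hε₂, H₂⟩ := ih q₁ ε₁ hq₁ hε₁
    refine ⟨q₂, M₁ * M₂, ε₂, hq₂, Nat.mul_pos hM₁ hM₂, hε₂, fun k K _ _ _ _ _ _ d T hd h => ?_⟩
    obtain ⟨K', _, _, _, _, _, _, _, ⟨s, t, a, b, cn⟩, hT, tw⟩ := h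
    obtain ⟨hk, hK', G₂⟩ := H₂ k K' d _ hd tw
    have G₁ := H₁ K' K (d + r) s t a b T (by omega) cn hT
    refine ⟨hk, cn.ff', fun k₀ ι _ _ _ φ v c μ y x m h hy hx m0 h0 S => ?_⟩
    have tw : algebraMap k K = (algebraMap K' K).comp (algebraMap k K') :=
      IsScalarTower.algebraMap_eq k K' K
    have ok : Ok (algebraMap K' K) := cn.ff'.ok (IsScalarTower.toAlgHom ℂ K' K)
    have mid : ∀ P w, Lies (algebraMap k K) P w →
        ∃ P', Lies (algebraMap K' K) P P' ∧ Lies (algebraMap k K') P' w := fun P w l => by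
      rw [tw] at l
      exact (ok P).elim (fun z => (l.not_trv (z.comp _)).elim) fun ⟨P', p⟩ => ⟨P', p, p.of_comp l⟩
    obtain ⟨y₁, D₁, hy₁, -⟩ := Cb.exists_cn hK'
    obtain ⟨m₁, h₁, θ₁, a1, a2, a3, S₁, o₁, l₁⟩ := G₁ k₀ ι ((algebraMap k K').comp φ) v c μ y₁ x m h
      ⟨D₁, hy₁⟩ hx m0 h0 (by rwa [← RingHom.comp_assoc, ← tw])
    obtain ⟨m₂, h₂, θ₂, b1, b2, b3, S₂, o₂, l₂⟩ := G₂ k₀ ι φ v c μ y y₁ m₁ h₁ hy ⟨D₁, hy₁⟩ a1 a2 S₁
    have b4 := (map_ne_zero (algebraMap K' K)).2 b3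
    refine ⟨m₂, h₂, θ₁ ^ M₂ * algebraMap K' K θ₂ ^ M₁, b1, b2,
      mul_ne_zero (pow_ne_zero _ a3) (pow_ne_zero _ b4), fun j w hw => ⟨(S₂ j w hw).1,
        fun ⟨P, p, l⟩ => (S₂ j w hw).2 ?_⟩, fun P => ?_, fun P w l => ?_⟩
    · obtain ⟨P', p1, p2⟩ := mid P w l
      exact ⟨P', ⟨P, p, p1⟩, p2⟩
    · have k1 : (P.ord (algebraMap K' K h₁) : ℝ) / m₁ =
          P.ord (algebraMap k K h₂) / m₂ + P.ord (algebraMap K' K θ₂) / M₂ := by
        rw [IsScalarTower.algebraMap_apply k K' K h₂]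
        rcases ok P with z | ⟨P', p⟩
        · simp [z.ord]
        · rw [p.ord h₁, p.ord (algebraMap k K' h₂), p.ord θ₂]
          push_cast
          rw [mul_div_assoc, o₂ P']
          ring
      have n1 : (M₁ : ℝ) ≠ 0 := Nat.cast_ne_zero.2 hM₁.ne'
      have n2 : (M₂ : ℝ) ≠ 0 := Nat.cast_ne_zero.2 hM₂.ne'
      rw [o₁ P, k1, Pl.ord_mul _ (pow_ne_zero _ a3) (pow_ne_zero _ b4), Pl.ord_pow, Pl.ord_pow]
      push_cast
      field_simp
      ring
    · obtain ⟨P', p1, p2⟩ := mid P w l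
      have e : ee P w = ee P P' * ee P' w := by
        rw [ee, ee, ee, IsScalarTower.algebraMap_apply k K' K w.t, p1.ord]
        push_cast
        rfl
      have e0 : 0 ≤ ee P P' := Int.cast_nonneg_iff.2 p1.e_pos.le
      rw [e, mul_assoc]
      exact (mul_le_mul_of_nonneg_left (l₂ P' w p2) e0).trans (l₁ P P' p1)

end Vale.Agent.P283R.Cf
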