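import Vale.Agent.P283R.Cf.St
import Vale.Agent.P283R.Cx.Gp
import Vale.Agent.P283R.Cx.Gav
import Vale.Agent.P283R.Cx.Bas
import Vale.Agent.P283R.Tp.Ram

/-!
# P283R, block CF: the formula for a split polynomial
-/

open Set

noncomputable section

namespace Vale.Agent.P283R.Cf

open Vale.Agent.P287D Vale.Agent.P297Z

namespace Tre

variable {L F : Type} [Field L] [Algebra ℂ L] [Field F] [Algebra ℂ F] [Algebra L F] {d q : ℕ}

theorem min_le (P : Pl F) {a b : F} (a0 : a ≠ 0) (b0 : b ≠ 0) (h : a - b ≠ 0) {m : ℤ}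
    (ha : m ≤ P.ord a) (hb : m ≤ P.ord b) : m ≤ P.ord (a - b) := by
  have t := zpow_ne_zero m P.t_ne
  have k : ∀ x : F, x ≠ 0 → (m ≤ P.ord x ↔ x / P.t ^ m ∈ P.ring) := fun x x0 => by
    rw [← Pl.ord_nonneg_iff _ (div_ne_zero x0 t), Pl.ord_div _ x0 t, P.ord_t_zpow, sub_nonneg]
  rw [k _ h, sub_div]
  exact sub_mem ((k a a0).1 ha) ((k b b0).1 hb)

theorem sum_perm (σ : Equiv.Perm (Fin (q + q))) (o : Fin (q + q) → ℤ) (M : ℤ) :
    ∑ j : Fin q, (o (σ (j.castAdd q)) + o (σ (j.natAdd q)) - M) = ∑ i, o i - q * M := by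
  rw [← Equiv.sum_comp σ o, Fin.sum_univ_add, Finset.sum_sub_distrib, Finset.sum_add_distrib]
  simp

omit [Algebra ℂ L] [Algebra ℂ F] in
theorem ne_of {τ : F} (h : AlgebraicIndependent L ![τ]) (a : L) : τ - algebraMap L F a ≠ 0 :=
  fun e => h.transcendental 0 (by
    rw [Matrix.cons_val_zero, sub_eq_zero.1 e]; exact isAlgebraic_algebraMap a)

end Tre

open Tre in
/-- **TRER** -/
theorem trer : TRER := by
  intro shf mat bar L F _ _ _ _ _ _ d q τ y α h hy q0 hα
  classical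
  obtain ⟨-, sh, -⟩ := shf L F d τ y h hy
  have n0 := ne_of h.ind
  have qR : (0 : ℝ) < q := by exact_mod_cast q0
  let f : Equiv.Perm (Fin (q + q)) → L := fun σ =>
    ∏ j : Fin q, (α (σ (j.castAdd q)) - α (σ (j.natAdd q)))
  have f0 : ∀ σ : Equiv.Perm (Fin (q + q)), f σ ≠ 0 ↔
      ∀ j : Fin q, α (σ (j.castAdd q)) - α (σ (j.natAdd q)) ≠ 0 := fun σ => by
    simp only [f, Finset.prod_ne_zero_iff, Finset.mem_univ, true_imp_iff]
  have nz : Nz (Finset.univ.image f) := by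
    obtain ⟨σ, hσ⟩ := mat q L α hα
    exact ⟨f σ, Finset.mem_image_of_mem f (Finset.mem_univ σ),
      (f0 σ).2 fun j => sub_ne_zero.2 (hσ j)⟩
  have oψ : ∀ P : Pl F, P.ord (∏ i, (τ - algebraMap L F (α i))) =
      ∑ i, P.ord (τ - algebraMap L F (α i)) := fun P => P.ord_prod _ fun i _ => n0 _
  refine ⟨Finset.univ.image f, nz, fun P v l => ?_, fun v => ?_⟩
  · obtain ⟨g, hg, g0, e⟩ := v.exists_mz nz
    obtain ⟨σ, -, rfl⟩ := Finset.mem_image.1 hg
    obtain ⟨i₀, -, mx⟩ := Finset.exists_max_image Finset.univ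
      (fun i => P.ord (τ - algebraMap L F (α i))) ⟨⟨0, by omega⟩, Finset.mem_univ _⟩
    have a := Cx.Gp.lg_ver h.ff h.ff' hy.ind (sh (α i₀)).1.ind l
    have k : kap (Cx.Gp.fm y ![τ - algebraMap L F (α i₀)]) P = kap (fr y τ) P :=
      congrFun (sh (α i₀)).2 P
    rw [Cx.Gp.lg, k, Fin.sum_univ_one, Matrix.cons_val_zero] at a
    have b : ∑ i, P.ord (τ - algebraMap L F (α i)) - q * P.ord (τ - algebraMap L F (α i₀)) ≤
        P.ord (algebraMap L F v.t) * v.ord (f σ) := by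
      rw [← l.ord, ← sum_perm σ, map_prod, P.ord_prod _ fun j _ =>
        (map_ne_zero _).2 ((f0 σ).1 g0 j)]
      refine Finset.sum_le_sum fun j _ => ?_
      have c : algebraMap L F (α (σ (j.castAdd q)) - α (σ (j.natAdd q))) =
          (τ - algebraMap L F (α (σ (j.natAdd q)))) - (τ - algebraMap L F (α (σ (j.castAdd q)))) := by
        rw [map_sub]; ring
      have m1 := mx (σ (j.castAdd q)) (Finset.mem_univ _)
      have m2 := mx (σ (j.natAdd q)) (Finset.mem_univ _)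
      rw [c]
      exact min_le P (n0 _) (n0 _) (c ▸ (map_ne_zero _).2 ((f0 σ).1 g0 j)) (by omega) (by omega)
    have b' := Int.cast_le (R := ℝ).2 b
    rw [ee, gl, ld, e, oψ]
    push_cast at b' ⊢
    have := div_le_div_of_nonneg_right b' qR.le
    rw [sub_div, mul_div_cancel_left₀ _ qR.ne', mul_div_assoc] at this
    rw [neg_div]
    linarith
  · obtain ⟨a, ρ, U, σ, h1, h2⟩ := bar L v q α q0 hα
    obtain ⟨P, g⟩ := Cx.gav L F d 1 y _ (sh a).1 hy v ![ρ]
    have o : ∀ φ : L, φ ≠ 0 → P.ord (algebraMap L F φ) = v.ord φ := fun φ φ0 => by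
      simpa [Cx.hm_deg0] using g.ord φ 0 φ0
    have l : Lies (algebraMap L F) P v := fun φ => by
      by_cases φ0 : φ = 0
      · simp [φ0, zero_mem]
      · rw [← Pl.ord_nonneg_iff _ φ0, ← Pl.ord_nonneg_iff _ ((map_ne_zero _).2 φ0), o φ φ0]
    have e1 : ee P v = 1 := by rw [ee, o _ v.t_ne, v.ord_t, Int.cast_one]
    have oτ : P.ord (τ - algebraMap L F a) = ρ := by
      have := g.ord 1 (Pi.single 0 1) one_ne_zero
      rw [Cx.hm_single] at this
      simpa using this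
    have k : kap (Cx.zt y ![τ - algebraMap L F a]) P = kap (fr y τ) P := congrFun (sh a).2 P
    have a1 := g.lt
    rw [Cx.lt, k, Fin.sum_univ_one, Matrix.cons_val_zero, oτ] at a1
    have s0 := (f0 σ).2 fun j => sub_ne_zero.2 (h2 j).1
    have b1 := v.le_mz (Finset.mem_image_of_mem f (Finset.mem_univ σ)) s0
    have b2 : v.ord (f σ) ≤ ∑ i, U i - q * ρ := by
      rw [← sum_perm σ, v.ord_prod _ fun j _ => (f0 σ).1 s0 j]
      exact Finset.sum_le_sum fun j _ => (h2 j).2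
    have b3 : ∑ i, U i ≤ ∑ i, P.ord (τ - algebraMap L F (α i)) := by
      refine Finset.sum_le_sum fun i _ => ?_
      by_cases z : α i = a
      · rw [z, oτ]
        exact (h1 i).1
      have c : τ - algebraMap L F (α i) =
          (τ - algebraMap L F a) - algebraMap L F (α i - a) := by rw [map_sub]; ring
      rw [c]
      refine min_le P (n0 _) ((map_ne_zero _).2 (sub_ne_zero.2 z)) (c ▸ n0 _)
        (oτ ▸ (h1 i).1) ?_
      rw [o _ (sub_ne_zero.2 z)]
      exact (h1 i).2.resolve_left z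
    refine ⟨P, l, by rw [e1, Nat.cast_one], ?_⟩
    have b : q * ρ - ∑ i, P.ord (τ - algebraMap L F (α i)) ≤ v.mz (Finset.univ.image f) := by
      omega
    have b' := Int.cast_le (R := ℝ).2 b
    rw [e1, one_mul, gl, ld, oψ]
    push_cast at b' ⊢
    have := div_le_div_of_nonneg_right b' qR.le
    rw [sub_div, mul_div_cancel_left₀ _ qR.ne'] at this
    linarith

end Vale.Agent.P283R.Cf
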