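import Vale.Agent.P283R.Cf.Wr
import Vale.Agent.P283R.Cf.Acc
import Vale.Agent.P283R.Cf.Adp
import Vale.Agent.P283R.Cf.Barr
import Vale.Agent.P283R.Cf.Cbr
import Vale.Agent.P283R.Cf.Cht
import Vale.Agent.P283R.Cf.Dsc
import Vale.Agent.P283R.Cf.Dwnr
import Vale.Agent.P283R.Cf.Gal
import Vale.Agent.P283R.Cf.Mat
import Vale.Agent.P283R.Cf.Nef
import Vale.Agent.P283R.Cf.Polr
import Vale.Agent.P283R.Cf.Ratr
import Vale.Agent.P283R.Cf.Rsc
import Vale.Agent.P283R.Cf.Shf
import Vale.Agent.P283R.Cf.Spl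
import Vale.Agent.P283R.Cf.Stpr
import Vale.Agent.P283R.Cf.Tow
import Vale.Agent.P283R.Cf.Trer

/-!
# P283R, block CF: the assembly
-/

open CategoryTheory AlgebraicGeometry

namespace Vale.Agent.P283R

namespace Cf

theorem cbr : CBR := cbrr shf acr (polr shf (ratr shf)) spl gal rts (trer shf mat (barr mat)) dsc

theorem cbc : CBC := cbcr acr acc gal cnc (dsnr dsc rsc) cbr

theorem tow : TOW := towr iso (stpr cbc)

theorem dwn : DWN := dwnr tow cht prm

theorem adp' : Sl.ADP := fun g ov p hp _ _ a b h => adp g ov p hp a b h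

end Cf

namespace Sl

open Var

variable {C : ∀ (d : ℕ) (X Z : Var), (X.X ⟶ Z.X) → X.Form d → X.QDiv → Pt Z.X → Prop}

/-- the classes of Fano type over a tower of conics -/
theorem OnN.over (h : OnN C) : OnN fun _ _ Z f ω B z =>
    OverConics (fun e Y h η => FanoType h η ∧ ∀ Δ, C e Y Z h η Δ z) f ω B :=
  ov_of Cf.dwn Cf.adp' Cf.nef h

/-- the same for classes which do not depend on the boundary -/
theorem OnN.over' {C : ∀ (d : ℕ) (X Z : Var), (X.X ⟶ Z.X) → X.Form d → Pt Z.X → Prop}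
    (h : OnN fun d X Z f ω _ z => C d X Z f ω z) : OnN fun _ _ Z f ω B z =>
    OverConics (fun e Y h η => FanoType h η ∧ C e Y Z h η z) f ω B :=
  h.over.mono fun _ _ _ _ _ _ _ ⟨e, Y, g, h, η, b1, b2, b3, b4, b5, b6, b7, b8, u⟩ =>
    ⟨e, Y, g, h, η, b1, b2, b3, b4, b5, b6, b7, b8, u.1, fun _ => u.2⟩

/-- towers of conics over toric varieties -/
theorem onN_ctor : OnN fun _ _ _ f ω B z =>
    OverConics (fun e _ h η => FanoType h η ∧ ∃ V, z.In V ∧ Toric (pre h V) e) f ω B :=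
  OnN.over' (C := fun e _ _ h _ z => ∃ V, z.In V ∧ Toric (pre h V) e) onN_tor

/-- towers of conics over quotients of complete intersections -/
theorem on_conic : On fun _ _ Z f ω B z =>
    ConicTower f ∧ TrivialOver f ω B ∧ dimension Z.str ≠ 0 ∧ LciqReg Z z :=
  conic_of Cf.dwn Cf.adp' Pu.on

/-- towers of conics over quotient singularities -/
theorem on_conic0 : On fun _ _ Z f ω B z =>
    ConicTower f ∧ TrivialOver f ω B ∧ dimension Z.str ≠ 0 ∧ QuotSing Z z :=
  conic_of Cf.dwn Cf.adp' (on_quot Et.qe0)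

end Sl

end Vale.Agent.P283R
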