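import Vale.Agent.P283R.Cf.Cht
import Vale.Agent.P283R.Sl.Cf
import Vale.Agent.P283R.Sl.Br

/-!
# P283R, block CF: conic fibrations and their composites are towers of conics
-/

set_option linter.all false

open Set CategoryTheory AlgebraicGeometry Polynomial
open Vale.Agent.P289 Vale.Agent.P289.H219 Vale.Agent.P270L Vale.Agent.P283M.Am Vale.Agent.P299.G

noncomputable section

namespace Vale.Agent.P283R.Cf

open Vale.Agent.P287D Vale.Agent.P283M Vale.Agent.P283M.Br Vale.Agent.P283M.Stm.Var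
open Vale.Agent.P283M.Stm (Contraction)
open Vale.Agent.P297Z Vale.Agent.P283R.Br
open Vale.Agent.P283R.Et (Pe)

namespace Aut

section alg

variable {K : Type} [Field K] {F F' : Subfield K}

/-- a valuation ring which contains `F(r)`, `r` transcendental, is everything -/
theorem all (tr : Algebra.trdeg F K ≤ 1) (W : ValuationSubring K) (hF : ∀ a ∈ F, a ∈ W) {r : K}
    (hr : r ∈ W) (h : ∀ q : F[X], q ≠ 0 → aeval r q ≠ 0 ∧ (aeval r q)⁻¹ ∈ W) (z : K) : z ∈ W := by
  have t : Transcendental F r := fun ⟨q, q0, e⟩ => (h q q0).1 e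
  have tb : IsTranscendenceBasis F ![r] :=
    (algebraicIndependent_unique_type_iff.2 t).isTranscendenceBasis_of_trdeg_le_of_finite
      (by simpa using tr)
  have ev : ∀ q : F[X], aeval r q ∈ W := fun q => by
    rw [aeval_eq_sum_range]
    exact sum_mem fun i _ => mul_mem (hF _ (q.coeff i).2) (pow_mem hr i)
  have le : ∀ y ∈ IntermediateField.adjoin F (range ![r]), y ∈ W := fun y hy => by
    rw [show range ![r] = {r} by simp] at hy
    obtain ⟨a, b, rfl⟩ := (IntermediateField.mem_adjoin_simple_iff _ _).1 hy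
    by_cases b0 : b = 0
    · rw [b0, map_zero, div_zero]
      exact zero_mem _
    · rw [div_eq_mul_inv]
      exact mul_mem (ev a) (h b b0).2
  let φ : IntermediateField.adjoin F (range ![r]) →+* W :=
    (algebraMap _ K).codRestrict _ fun y => le y y.2
  obtain ⟨y, rfl⟩ := IsIntegrallyClosed.isIntegral_iff.1
    (((tb.isAlgebraic_field.isAlgebraic z).isIntegral).map_of_comp_eq φ (RingHom.id K) rfl)
  exact y.2

/-- a proper valuation ring which contains the local ring dominates it -/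
theorem dom (tr : Algebra.trdeg F K ≤ 1) (R : Subring K) (O W : ValuationSubring K)
    (hF : ∀ a ∈ F, a ∈ R) (hW : ∀ a ∈ R, a ∈ W) (w : ∃ z, z ∉ W)
    (hO : ∀ a ∈ R, a ∈ O ∧ (a ≠ 0 → a⁻¹ ∈ O → a⁻¹ ∈ R)) {r : K} (hr : r ∈ R) (r0 : r ≠ 0)
    (ri : r⁻¹ ∈ W) : r⁻¹ ∈ R := by
  by_contra c
  obtain ⟨z, hz⟩ := w
  have ev : ∀ q : F[X], aeval r q ∈ R := fun q => by
    rw [aeval_eq_sum_range]
    exact sum_mem fun i _ => mul_mem (hF _ (q.coeff i).2) (pow_mem hr i)
  have v1 : O.valuation r < 1 := by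
    have := mt (O.valuation_le_one_iff r⁻¹).1 fun k => c ((hO r hr).2 r0 k)
    rw [map_inv₀, not_le] at this
    exact (one_lt_inv₀ (O.valuation.pos_iff.2 r0)).1 this
  refine hz (all tr W (fun a ha => hW a (hF a ha)) (hW r hr) (fun q q0 => ?_) z)
  obtain ⟨u, e, nd⟩ := exists_eq_pow_rootMultiplicity_mul_and_not_dvd q q0 0
  rw [map_zero, sub_zero] at e nd
  have c0 : (u.coeff 0 : K) ≠ 0 := fun k => nd (X_dvd_iff.2 (Subtype.ext k))
  have c1 : O.valuation (u.coeff 0 : K) = 1 := by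
    have a := (O.valuation_le_one_iff _).2 (hO _ (hF _ (u.coeff 0).2)).1
    have b := (O.valuation_le_one_iff _).2 (hO _ (hF _ (F.inv_mem (u.coeff 0).2))).1
    rw [map_inv₀] at b
    exact a.antisymm ((inv_le_one₀ (O.valuation.pos_iff.2 c0)).1 b)
  have u1 : O.valuation (aeval r u) = 1 := by
    have s := (O.valuation_le_one_iff _).2 (hO _ (ev u.divX)).1
    rw [← X_mul_divX_add u, map_add, map_mul, aeval_X, aeval_C, ← c1]
    refine O.valuation.map_add_eq_of_lt_right ?_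
    change _ < O.valuation (u.coeff 0 : K)
    rw [c1, map_mul]
    exact mul_lt_one_of_lt_of_le v1 s
  have u0 : aeval r u ≠ 0 := fun k => by simp [k] at u1
  have ui : (aeval r u)⁻¹ ∈ W := hW _ ((hO _ (ev u)).2 u0
    ((O.valuation_le_one_iff _).1 (by rw [map_inv₀, u1, inv_one])))
  rw [e, map_mul, map_pow, aeval_X, mul_inv, ← inv_pow]
  exact ⟨mul_ne_zero (pow_ne_zero _ r0) u0, mul_mem (pow_mem ri _) ui⟩

theorem tr_con (h : Sl.Conic F ⊤) : Algebra.trdeg F K ≤ 1 := by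
  obtain ⟨s, t, a, b, ha, hb, -, -, eq, -, cl⟩ := h
  have tm : t ∈ IntermediateField.adjoin F {t} := IntermediateField.subset_adjoin _ _ rfl
  have : Algebra.IsAlgebraic (Algebra.adjoin F {t}) K :=
    IntermediateField.isAlgebraic_adjoin_iff_top.1 ⟨fun x => by
      have : Subfield.closure ((F : Set K) ∪ {s, t}) ≤
          (algebraicClosure (IntermediateField.adjoin F {t}) K).toSubfield :=
        Subfield.closure_le.2 (by
          rintro y (hy | rfl | rfl)
          · exact IntermediateField.algebraMap_mem _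
              (algebraMap F (IntermediateField.adjoin F {t}) ⟨y, hy⟩)
          · refine mem_algebraicClosure_iff.2 (IsAlgebraic.of_pow two_pos ?_)
            rw [sub_eq_iff_eq_add'.1 eq]
            exact isAlgebraic_algebraMap (⟨_, add_mem (mul_mem
              (_root_.algebraMap_mem _ (⟨a, ha⟩ : F)) (pow_mem tm 2))
              (_root_.algebraMap_mem _ (⟨b, hb⟩ : F))⟩ : IntermediateField.adjoin F {t})
          · exact IntermediateField.algebraMap_mem _ (⟨_, tm⟩ : IntermediateField.adjoin F {_}))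
      exact mem_algebraicClosure_iff.1 (this (cl ▸ Subfield.mem_top x))⟩
  simpa using Algebra.IsAlgebraic.trdeg_le_cardinalMk F ({t} : Set K)

theorem map_con {L : Type} [Field L] (p : K →+* L) (h : Sl.Conic F F') :
    Sl.Conic (F.map p) (F'.map p) := by
  obtain ⟨s, t, a, b, ha, hb, a0, b0, eq, tr, rfl⟩ := h
  refine ⟨p s, p t, p a, p b, ⟨a, ha, rfl⟩, ⟨b, hb, rfl⟩, (map_ne_zero p).2 a0,
    (map_ne_zero p).2 b0, by rw [← eq, map_sub, map_mul, map_pow, map_pow], fun k => tr ?_, by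
      rw [RingHom.map_field_closure, image_union, image_pair, Subfield.coe_map]⟩
  let φ : F →+* F.map p := (p.comp F.subtype).codRestrict _ fun y => ⟨y, y.2, rfl⟩
  exact k.of_ringHom_of_comp_eq φ p (fun ⟨_, y, hy, rfl⟩ => ⟨⟨y, hy⟩, rfl⟩) p.injective rfl

end alg

variable {X Y : Stm.Var} {g : X.X ⟶ Y.X} {p : Y.K →+* X.K}

/-- the closed points of the generic fibre of a proper family of curves are prime divisors -/
theorem div [IsProper g] (hp : Pe g p) (tr : Algebra.trdeg p.fieldRange X.K ≤ 1)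
    (O : ValuationSubring X.K) (o1 : ∀ a ∈ p.fieldRange, a ∈ O) (o2 : ∃ a, a ∉ O) :
    ∃ E : X.PrimeDiv, ∀ a, a ∈ O ↔ RegAt a E.1 := by
  obtain ⟨_, ⟨V, hV, rfl⟩, yV, -⟩ := Y.X.isBasis_affineOpens.exists_subset_of_mem_open
    (a := g (genericPoint X.X)) (mem_univ _) isOpen_univ
  have : Nonempty ↑(g ⁻¹ᵁ V) := ⟨⟨_, yV⟩⟩
  have : Nonempty V := ⟨⟨_, yV⟩⟩
  obtain ⟨x, -, hx⟩ := exists_dom (f := g) hV O fun a => Cht.pl_pe hp V a ▸ o1 _ ⟨_, rfl⟩
  have hx : Dom O x := dom_B hx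
  have hF : ∀ a ∈ p.fieldRange, a ∈ S.loc x := by
    rintro _ ⟨c, rfl⟩
    obtain ⟨a, b, hb, rfl⟩ := IsFractionRing.div_surjective (A := St Y.X (Pt.map g x)) c
    have b0 : p (toRat b) ≠ 0 := (map_ne_zero p).2
      (IsFractionRing.to_map_ne_zero_of_mem_nonZeroDivisors hb)
    rw [map_div₀, div_eq_mul_inv]
    exact mul_mem (hp.reg ⟨a, rfl⟩) ((hx _ (hp.reg ⟨b, rfl⟩)).2 b0
      (o1 _ (inv_mem ⟨_, rfl⟩)))
  obtain ⟨z, hz⟩ := o2
  obtain ⟨E, s⟩ : ∃ E : X.PrimeDiv, E.1 ⤳ x := by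
    by_contra k
    exact hz (hx z (loc_of_od (nrm X) fun _ y b c => (k ⟨⟨y, b⟩, c⟩).elim)).1
  obtain ⟨P, i, -⟩ := pl_of plc E
  have up : ∀ a ∈ S.loc x, a ∈ P.ring := fun a ha => (i a).2 (reg_gen s ha)
  have ne : ∃ z, z ∉ P.ring := by
    by_contra c
    simp only [not_exists, not_not] at c
    exact Pl.ring_ne_top P.toPlace (eq_top_iff.2 fun x _ => c x)
  have d : Dom P.ring x := fun a ha =>
    ⟨up a ha, fun a0 k => dom tr (S.loc x) O P.ring hF up ne hx ha a0 k⟩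
  obtain rfl : x = E.1 := Crv.dom_unique (dom_S d) (dom_S i.dom)
  refine ⟨E, fun a => ⟨fun ha => by_contra fun c => ?_, fun ha => (hx a ha).1⟩⟩
  have a0 : a ≠ 0 := fun e => c ((i a).1 (e ▸ zero_mem _))
  have k := (hx a⁻¹ ((i _).1 ((P.ring.mem_or_inv_mem a).resolve_left fun k => c ((i a).1 k)))).2
    (inv_ne_zero a0) (by rwa [inv_inv])
  exact c (inv_inv a ▸ k)

end Aut

variable {X Y Z : Sl.Var} {g : X.X ⟶ Y.X} {p : Y.K →+* X.K}

/-- **the condition on the closed points is automatic for the last step** -/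
theorem aut_step [IsProper g] (hp : Pe (W := X.o) (Z := Y.o) g p) (h : Sl.Conic p.fieldRange ⊤) :
    Sl.ConicStep X p.fieldRange ⊤ :=
  ⟨h, fun O o1 ⟨a, _, ha⟩ =>
    let ⟨E, hE⟩ := Aut.div (X := X.o) (Y := Y.o) hp (Aut.tr_con h) O o1 ⟨a, ha⟩
    ⟨E, fun a _ => hE a⟩⟩

/-- a proper morphism whose generic fibre is a conic is a tower -/
theorem aut_one [IsProper g] (hp : Pe (W := X.o) (Z := Y.o) g p) (h : Sl.Conic p.fieldRange ⊤) :
    Sl.ConicTower g := ⟨p, hp, .single (aut_step hp h)⟩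

/-- the steps pull back along a contraction -/
theorem aut_map (hg : Sl.Contraction g) (hp : Pe (W := X.o) (Z := Y.o) g p) {F F' : Subfield Y.K}
    (h : Sl.ConicStep Y F F') : Sl.ConicStep X (F.map p) (F'.map p) := by
  refine ⟨Aut.map_con p h.1, fun O o1 ⟨_, ⟨a, ha, rfl⟩, o2⟩ => ?_⟩
  obtain ⟨D, hD⟩ := h.2 (O.comap p) (fun a ha => o1 _ ⟨a, ha, rfl⟩) ⟨a, ha, o2⟩
  obtain ⟨w, i, -⟩ := pl_of (X := Y.o) plc D
  obtain ⟨P, ⟨E, hE⟩, l⟩ := (prm X.o Y.o g p hg hp).1 w ⟨D, i.dom⟩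
  obtain ⟨Q, j, -⟩ := pl_of (X := X.o) plc E
  obtain rfl := pl_eq j hE
  refine ⟨E, ?_⟩
  rintro _ ⟨b, hb, rfl⟩
  exact (hD b hb).trans ((i b).symm.trans ((l b).trans (j _)))

/-- **composites of towers** -/
theorem aut_comp {h : Y.X ⟶ Z.X} (hg : Sl.Contraction g) (tg : Sl.ConicTower g)
    (th : Sl.ConicTower h) : Sl.ConicTower (g ≫ h) := by
  obtain ⟨p, hp, c⟩ := tg
  obtain ⟨q, hq, c'⟩ := th
  refine ⟨p.comp q, fun x a => ?_, .trans ?_ c⟩
  · refine (congrArg p (hq (g x) a)).trans ((hp x _).trans (congrArg Sl.toRat ?_))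
    exact (DFunLike.congr_fun (congrArg CommRingCat.Hom.hom (Scheme.Hom.stalkMap_comp g h x)) a).symm
  · have : Relation.ReflTransGen (Sl.ConicStep X) (q.fieldRange.map p) (Subfield.map p ⊤) :=
      c'.lift (Subfield.map p) fun _ _ s => aut_map hg hp s
    rwa [RingHom.map_fieldRange, ← RingHom.fieldRange_eq_map] at this

end Vale.Agent.P283R.Cf
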