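import Vale.Agent.P283R.Sl.Rl52
import Vale.Agent.P283R.Sl.Ch

/-!
# P283R: chains of fibrations in curves over a class
-/

open CategoryTheory AlgebraicGeometry

namespace Vale.Agent.P283R.Sl

open Var

theorem Contraction.comp {X Y W : Var} {g : X.X ⟶ Y.X} {h : Y.X ⟶ W.X} (a : Contraction g)
    (b : Contraction h) : Contraction (g ≫ h) := by
  obtain ⟨a1, a2, a3, a4⟩ := a
  obtain ⟨b1, b2, b3, b4⟩ := b
  refine ⟨by rw [Category.assoc, b1, a1], inferInstance, inferInstance, fun U => ?_⟩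
  rw [Scheme.Hom.comp_app]
  exact @IsIso.comp_isIso _ _ _ _ _ _ _ (b4 U) (a4 _)

theorem CurveChain.tower {X Y : Var} {g : X.X ⟶ Y.X} (h : CurveChain g) :
    Contraction g ∧ ConicTower g := by
  induction h with
  | @one X Y d g ω a b c e i =>
    obtain ⟨m, -, hm, -⟩ := exists_form Y
    refine ⟨c, tower_le (h := 𝟙 _) c a hm ?_ b ((Category.comp_id g).symm ▸ e)⟩
    rw [hm] at i
    exact_mod_cast i
  | comp _ _ a b => exact ⟨a.1.comp b.1, Cf.aut_comp a.1 a.2 b.2⟩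

/-- chains over a class -/
theorem OnN.chain'
    {C : ∀ (d : ℕ) (X Z : Var), (X.X ⟶ Z.X) → X.Form d → X.QDiv → Pt Z.X → Prop} (h : OnN C) :
    OnN fun _ X Z f ω B z => ∃ (e : ℕ) (T : Var) (a : X.X ⟶ T.X) (h : T.X ⟶ Z.X) (θ : T.Form e),
      dimension T.str = e ∧ 1 ≤ e ∧ θ.Nonzero ∧ a ≫ h = f ∧ CurveChain a ∧
      Contraction h ∧ TrivialOver a ω B ∧ FanoType h θ ∧ ∀ Δ, C e T Z h θ Δ z :=
  h.over.mono fun _ _ _ _ _ _ _ ⟨e, Y, g, k, η, b2, b1, b3, b4, b5, b6, b7, b8⟩ =>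
    ⟨e, Y, g, k, η, b1, b2, b3, b4, b5.tower.1, b6, b5.tower.2, b7, b8⟩

/-- the same for classes which do not depend on the boundary -/
theorem OnN.chain {C : ∀ (d : ℕ) (X Z : Var), (X.X ⟶ Z.X) → X.Form d → Pt Z.X → Prop}
    (h : OnN fun d X Z f ω _ z => C d X Z f ω z) :
    OnN fun _ X Z f ω B z => ∃ (e : ℕ) (T : Var) (a : X.X ⟶ T.X) (h : T.X ⟶ Z.X) (θ : T.Form e),
      dimension T.str = e ∧ 1 ≤ e ∧ θ.Nonzero ∧ a ≫ h = f ∧ CurveChain a ∧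
      Contraction h ∧ TrivialOver a ω B ∧ FanoType h θ ∧ C e T Z h θ z :=
  h.chain'.mono fun _ _ _ _ _ _ _ ⟨e, Y, g, h, η, b1, b2, b3, b4, b5, b6, b7, b8, u⟩ =>
    ⟨e, Y, g, h, η, b1, b2, b3, b4, b5, b6, b7, b8, fun _ => u⟩

/-- chains over a germ -/
theorem on_chain {S : ℕ → ∀ Z : Var, Pt Z.X → Prop}
    (h : On fun d _ Z f ω B z => Crepant f ω B z ∧ S d Z z) : On fun _ _ Z f ω B z =>
    CurveChain f ∧ TrivialOver f ω B ∧ ∃ e : ℕ, dimension Z.str = e ∧ 1 ≤ e ∧ S e Z z :=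
  (conic_dim h).mono fun _ _ _ _ _ _ _ u => ⟨u.1.tower.2, u.2⟩

/-- the same with the hypotheses of the conjecture -/
theorem onN_chain {S : ℕ → ∀ Z : Var, Pt Z.X → Prop}
    (h : On fun d _ Z f ω B z => Crepant f ω B z ∧ S d Z z) : OnN fun _ _ Z f ω B z =>
    ∃ e : ℕ, dimension Z.str = e ∧ 1 ≤ e ∧ CurveChain f ∧ TrivialOver f ω B ∧ S e Z z :=
  (on_chain h).mono fun _ _ _ _ _ _ _ ⟨_, _, e, a, b, c, i, j⟩ => ⟨c, i, e, a, b, j⟩

end Vale.Agent.P283R.Sl
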