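import Vale.Agent.P287D.Gf.One
import Mathlib.LinearAlgebra.QuadraticForm.Basic
import Mathlib.LinearAlgebra.Matrix.BilinearForm

/-!
# P283R, block CF: the descent of a plane conic
-/

open Set Submodule

noncomputable section

namespace Vale.Agent.P283R.Cf.Gen

open Vale.Agent.P287D

section diag

variable {L K : Type} [Field L] [Field K] [Algebra L K]

/-- a quadratic relation is diagonalisable -/
theorem diag [CharZero L] (f : Fin 3 → K) (A : Matrix (Fin 3) (Fin 3) L) (hA : A.IsSymm)
    (A0 : A ≠ 0) (h : ∑ i, ∑ j, A i j • (f i * f j) = 0) : ∃ (g : Fin 3 → K) (c : Fin 3 → L),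
      c ≠ 0 ∧ ∑ l, c l • g l ^ 2 = 0 ∧ ∀ i, f i ∈ span L (range g) := by
  let B := Matrix.toBilin' A
  have hB : LinearMap.IsSymm B := ⟨fun x y => by
    simp only [B, Matrix.toBilin'_apply, RingHom.id_apply]
    rw [Finset.sum_comm]
    exact Finset.sum_congr rfl fun i _ => Finset.sum_congr rfl fun j _ => by
      rw [hA.apply i j]; ring⟩
  have := invertibleOfNonzero (two_ne_zero (α := L))
  obtain ⟨v, hv⟩ : ∃ v : Module.Basis (Fin 3) L (Fin 3 → L), B.IsOrthoᵢ v := by
    have := LinearMap.BilinForm.exists_orthogonal_basis hB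
    rwa [Module.finrank_fin_fun] at this
  let r : Fin 3 → Fin 3 → L := fun i l => v.repr (Pi.single i 1) l
  have e : ∀ i j, A i j = ∑ l, r i l * r j l * B (v l) (v l) := fun i j => by
    rw [← Matrix.toBilin'_single A i j, ← v.sum_repr (Pi.single i 1), map_sum, LinearMap.sum_apply]
    refine Finset.sum_congr rfl fun l _ => ?_
    rw [← v.sum_repr (Pi.single j 1), map_sum, Finset.sum_eq_single l (fun b _ hb => by
      rw [map_smul, map_smul, LinearMap.smul_apply, hv hb.symm, smul_zero, smul_zero])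
      (fun k => (k (Finset.mem_univ _)).elim), map_smul, map_smul, LinearMap.smul_apply,
      smul_eq_mul, smul_eq_mul]
    ring
  refine ⟨fun l => ∑ i, r i l • f i, fun l => B (v l) (v l), fun z => A0 ?_, ?_, fun i => ?_⟩
  · ext i j
    rw [e]
    exact Finset.sum_eq_zero fun l _ => by rw [show B (v l) (v l) = 0 from congrFun z l, mul_zero]
  · rw [← h]
    simp only [e, Finset.sum_smul, pow_two, Finset.sum_mul_sum, Finset.smul_sum]
    rw [Finset.sum_comm]
    refine Finset.sum_congr rfl fun i _ => ?_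
    rw [Finset.sum_comm]
    refine Finset.sum_congr rfl fun j _ => Finset.sum_congr rfl fun l _ => ?_
    rw [smul_mul_smul_comm, smul_smul, mul_comm]
  · have : f i = ∑ l, v l i • ∑ j, r j l • f j := by
      simp only [Finset.smul_sum, smul_smul]
      rw [Finset.sum_comm, Finset.sum_eq_single i (fun j _ hj => ?_)
        (fun k => (k (Finset.mem_univ _)).elim)]
      · have := congrFun (v.sum_repr (Pi.single i 1)) i
        simp only [Finset.sum_apply, Pi.smul_apply, smul_eq_mul, Pi.single_eq_same] at this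
        rw [← Finset.sum_smul, Finset.sum_congr rfl fun l _ => mul_comm (v l i) (r i l), this,
          one_smul]
      · have := congrFun (v.sum_repr (Pi.single j 1)) i
        simp only [Finset.sum_apply, Pi.smul_apply, smul_eq_mul, Pi.single_eq_of_ne hj.symm] at this
        rw [← Finset.sum_smul, Finset.sum_congr rfl fun l _ => mul_comm (v l i) (r j l), this,
          zero_smul]
    rw [this]
    exact sum_mem fun l _ => smul_mem _ _ (subset_span ⟨l, rfl⟩)

theorem rel [CharZero L] (f : Fin 3 → K) (h : ¬ LinearIndependent L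
    ![f 0 * f 0, f 1 * f 1, f 2 * f 2, f 0 * f 1, f 0 * f 2, f 1 * f 2]) :
    ∃ (g : Fin 3 → K) (c : Fin 3 → L), c ≠ 0 ∧ ∑ l, c l • g l ^ 2 = 0 ∧
      ∀ i, f i ∈ span L (range g) := by
  obtain ⟨c, h1, i, h2⟩ := Fintype.not_linearIndependent_iff.1 h
  refine diag f !![2 * c 0, c 3, c 4; c 3, 2 * c 1, c 5; c 4, c 5, 2 * c 2] ?_ (fun z => h2 ?_) ?_
  · ext i j
    fin_cases i <;> fin_cases j <;> rfl
  · have a := fun i j => congrFun (congrFun z i) j
    have a0 : 2 * c 0 = 0 := a 0 0
    have a1 : 2 * c 1 = 0 := a 1 1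
    have a2 : 2 * c 2 = 0 := a 2 2
    fin_cases i
    exacts [(mul_eq_zero.1 a0).resolve_left two_ne_zero, (mul_eq_zero.1 a1).resolve_left two_ne_zero,
      (mul_eq_zero.1 a2).resolve_left two_ne_zero, a 0 1, a 0 2, a 1 2]
  · simp [Fin.sum_univ_succ, Algebra.smul_def, map_ofNat] at h1 ⊢
    linear_combination 2 * h1

theorem two (hL : ∀ z : K, IsAlgebraic L z → z ∈ range (algebraMap L K)) {g : Fin 3 → K}
    (hg : LinearIndependent L g) {i j : Fin 3} (ij : i ≠ j) :
    Transcendental L (g i / g j) ∧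
      ∀ x y : L, x • g i ^ 2 + y • g j ^ 2 = 0 → x = 0 ∧ y = 0 := by
  have g0 := hg.ne_zero j
  have tr : Transcendental L (g i / g j) := fun a => by
    obtain ⟨l, hl⟩ := hL _ a
    refine hg.notMem_span_image (s := {j}) (x := i) ij ?_
    rw [← div_mul_cancel₀ (g i) g0, ← hl, ← Algebra.smul_def]
    exact smul_mem _ _ (subset_span ⟨j, rfl, rfl⟩)
  refine ⟨tr, fun x y e => ?_⟩
  have x0 : x = 0 := by_contra fun x0 => tr (IsAlgebraic.of_pow two_pos (by
    have x1 : algebraMap L K x ≠ 0 := (map_ne_zero _).2 x0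
    have : (g i / g j) ^ 2 = algebraMap L K (-y / x) := by
      rw [Algebra.smul_def, Algebra.smul_def] at e
      rw [map_div₀, map_neg, div_pow, div_eq_div_iff (pow_ne_zero _ g0) x1]
      linear_combination e
    exact this ▸ isAlgebraic_algebraMap _))
  rw [x0, zero_smul, zero_add, smul_eq_zero] at e
  exact ⟨x0, e.resolve_right (pow_ne_zero _ g0)⟩

end diag

variable {K K' : Type} [Field K] [Algebra ℂ K] [Field K'] [Algebra ℂ K']
  {L : IntermediateField ℂ K} {φ : K →+* K'}

theorem up (h : GF L φ) {S : Set K} {x : K} (hx : x ∈ span L S) : φ x ∈ span ℂ (φ '' S) := by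
  induction hx using span_induction with
  | mem a ha => exact subset_span ⟨a, ha, rfl⟩
  | zero => rw [map_zero]; exact zero_mem _
  | add a b _ _ p q => rw [map_add]; exact add_mem p q
  | smul l a _ p =>
    obtain ⟨c, hc⟩ := h.cst l l.2
    rw [show φ (l • a) = c • φ a by rw [Algebra.smul_def c, hc, ← map_mul]; rfl]
    exact smul_mem _ _ p

theorem down (h : GF L φ) (W : Submodule L K) {z : K} (hz : φ z ∈ span ℂ (φ '' W)) : z ∈ W := by
  obtain ⟨n, c, g, e⟩ := mem_span_set'.1 hz
  choose w hw hφ using fun i => (g i).2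
  have := Module.Finite.span_of_finite L (finite_range w)
  obtain ⟨b, b1, b2, b3⟩ := exists_fun_fin_finrank_span_eq L (range w)
  by_contra k
  have le : span L (range w) ≤ W := span_le.2 (range_subset_iff.2 hw)
  have := h.dis _ _ (linearIndependent_finCons.2 ⟨b3, fun a => k (le (b2 ▸ a))⟩)
  rw [show (fun i => φ ((Fin.cons z b : Fin (_ + 1) → K) i)) = Fin.cons (φ z) (φ ∘ b) from
    Fin.comp_cons φ z b] at this
  refine (linearIndependent_finCons.1 this).2 ?_
  rw [← e, range_comp]
  exact sum_mem fun i _ => smul_mem _ _ (hφ i ▸ up h (b2.ge (subset_span ⟨i, rfl⟩)))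

theorem top (h : GF L φ) (E : IntermediateField L K) {τ : K'}
    (hτ : IntermediateField.adjoin ℂ {τ} = ⊤)
    (k : ∀ T : Subfield K', (∀ c, algebraMap ℂ K' c ∈ T) → (∀ a ∈ E, φ a ∈ T) → τ ∈ T) :
    E = ⊤ := by
  let _ : Algebra E K' := (φ.comp (algebraMap E K)).toAlgebra
  let A := IntermediateField.adjoin E (range (algebraMap ℂ K'))
  have a1 : ∀ c, algebraMap ℂ K' c ∈ A.toSubfield := fun c =>
    IntermediateField.subset_adjoin _ _ ⟨c, rfl⟩
  have a2 : ∀ x, x ∈ A := fun x =>
    (IntermediateField.adjoin_simple_le_iff (K := A.toSubfield.toIntermediateField a1)).2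
      (k _ a1 fun a ha => A.algebraMap_mem ⟨a, ha⟩) (hτ ▸ IntermediateField.mem_top)
  have a3 : A.toSubalgebra = Algebra.adjoin E (range (algebraMap ℂ K')) :=
    IntermediateField.adjoin_toSubalgebra_of_isAlgebraic fun _ ⟨c, e⟩ => by
      obtain ⟨p, p0, hp⟩ := h.alg c
      refine ⟨p.map (algebraMap L E), (Polynomial.map_ne_zero_iff (algebraMap L E).injective).2 p0,
        ?_⟩
      rw [Polynomial.aeval_def, Polynomial.eval₂_map, ← e]
      exact hp
  refine eq_top_iff.2 fun z _ => down h E.toSubalgebra.toSubmodule ?_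
  have : φ z ∈ Algebra.adjoin E (range (algebraMap ℂ K')) := a3 ▸ a2 _
  generalize φ z = y at this
  induction this using Algebra.adjoin_induction with
  | mem x hx =>
    obtain ⟨c, rfl⟩ := hx
    rw [Algebra.algebraMap_eq_smul_one]
    exact smul_mem _ _ (subset_span ⟨1, one_mem E, map_one φ⟩)
  | algebraMap r => exact subset_span ⟨r, r.2, rfl⟩
  | add a b _ _ p q => exact add_mem p q
  | mul a b _ _ p q =>
    have := Submodule.mul_mem_mul p q
    rw [span_mul_span] at this
    refine span_mono ?_ this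
    rintro _ ⟨_, ⟨a, ha, rfl⟩, _, ⟨b, hb, rfl⟩, rfl⟩
    exact ⟨a * b, mul_mem (S := IntermediateField L K) ha hb, map_mul φ a b⟩

theorem card_le (W : Submodule ℂ K') [Module.Finite ℂ W] {n : ℕ} (v : Fin n → K')
    (h : LinearIndependent ℂ v) (k : ∀ i, v i ∈ W) : n ≤ Module.finrank ℂ W := by
  have := (LinearIndependent.of_comp (v := fun i => (⟨v i, k i⟩ : W)) W.subtype
    (by exact h)).fintype_card_le_finrank
  rwa [Fintype.card_fin] at this

/-- the conic -/
theorem conic (h : GF L φ) (hL : Cld L) (f : Fin 3 → K) (hf : LinearIndependent ℂ (φ ∘ f))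
    (W : Submodule ℂ K') [Module.Finite ℂ W] (h5 : Module.finrank ℂ W = 5)
    (hW : ∀ i j, φ (f i * f j) ∈ W) {u τ : K'} (u0 : u ≠ 0) (h1 : u ∈ span ℂ (range (φ ∘ f)))
    (h2 : u * τ ∈ span ℂ (range (φ ∘ f))) (hτ : IntermediateField.adjoin ℂ {τ} = ⊤) :
    ∃ (s t : K) (a b : L), a ≠ 0 ∧ b ≠ 0 ∧ s ^ 2 - a * t ^ 2 = b ∧ Transcendental L t ∧
      IntermediateField.adjoin L {s, t} = ⊤ := by
  have : CharZero L := charZero_of_injective_algebraMap (algebraMap ℂ L).injective
  have hL' : ∀ z : K, IsAlgebraic L z → z ∈ range (algebraMap L K) := fun z a =>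
    ⟨⟨z, hL z a⟩, rfl⟩
  obtain ⟨g, c, c0, e, hg⟩ := rel (L := L) f fun a => by
    have := card_le W _ (h.dis _ _ a) fun i => by
      fin_cases i
      exacts [hW 0 0, hW 1 1, hW 2 2, hW 0 1, hW 0 2, hW 1 2]
    omega
  have le : span ℂ (range (φ ∘ f)) ≤ span ℂ (range (φ ∘ g)) :=
    span_le.2 (range_subset_iff.2 fun i => range_comp φ g ▸ up h (hg i))
  have := Module.Finite.span_of_finite ℂ (finite_range (φ ∘ g))
  have ig' : LinearIndependent ℂ (φ ∘ g) := linearIndependent_iff_card_le_finrank_span.2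
    ((linearIndependent_iff_card_le_finrank_span.1 hf).trans (Submodule.finrank_mono le))
  have ig : LinearIndependent L g := Fintype.linearIndependent_iff.2 fun l hl i => by
    choose c hc using fun i => h.cst (l i) (l i).2
    have := Fintype.linearIndependent_iff.1 ig' c (by
      rw [← map_zero φ, ← hl, map_sum]
      exact Finset.sum_congr rfl fun i _ => by rw [Algebra.smul_def, hc, Function.comp, ← map_mul]; rfl) i
    exact Subtype.ext (φ.injective (by rw [← hc, this, map_zero]; exact (map_zero φ).symm))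
  rw [Fin.sum_univ_three] at e
  have z : c 0 = 0 → c 1 = 0 → c 2 = 0 → False := fun a b d => c0 (funext fun i => by
    fin_cases i
    exacts [a, b, d])
  have c1 : c 0 ≠ 0 := fun k => by
    rw [k, zero_smul, zero_add] at e
    exact ((two hL' ig (by decide)).2 _ _ e).elim (z k)
  have c2 : c 1 ≠ 0 := fun k => by
    rw [k, zero_smul, add_zero] at e
    exact c1 ((two hL' ig (by decide)).2 _ _ e).1
  have c3 : c 2 ≠ 0 := fun k => by
    rw [k, zero_smul, add_zero] at e
    exact c1 ((two hL' ig (by decide)).2 _ _ e).1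
  have g0 := ig.ne_zero 2
  refine ⟨g 0 / g 2, g 1 / g 2, -c 1 / c 0, -c 2 / c 0, div_ne_zero (neg_ne_zero.2 c2) c1,
    div_ne_zero (neg_ne_zero.2 c3) c1, ?_, (two hL' ig (by decide)).1,
    top h _ hτ fun T t1 t2 => ?_⟩
  · have c4 : (c 0 : K) ≠ 0 := fun k => c1 (Subtype.ext k)
    change (c 0 : K) * _ + (c 1 : K) * _ + (c 2 : K) * _ = 0 at e
    push_cast
    field_simp
    linear_combination e
  · have k : ∀ x ∈ span ℂ (range (φ ∘ g)), x / φ (g 2) ∈ T := fun x hx => by
      induction hx using span_induction with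
      | mem a ha =>
        obtain ⟨i, rfl⟩ := ha
        rw [Function.comp, ← map_div₀]
        refine t2 _ ?_
        fin_cases i
        · exact IntermediateField.subset_adjoin _ _ (Or.inl rfl)
        · exact IntermediateField.subset_adjoin _ _ (Or.inr rfl)
        · exact (div_self g0).symm ▸ one_mem _
      | zero => rw [zero_div]; exact zero_mem _
      | add a b _ _ p q => rw [add_div]; exact add_mem p q
      | smul c a _ p => rw [Algebra.smul_def, mul_div_assoc]; exact mul_mem (t1 c) p
    have := div_mem (k _ (le h2)) (k _ (le h1))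
    rwa [div_div_div_cancel_right₀ ((map_ne_zero φ).2 g0), mul_div_cancel_left₀ _ u0] at this

end Vale.Agent.P283R.Cf.Gen
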