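import Vale.Agent.P283R.Cf.St
import Vale.Agent.P283R.Cf.Gen0
import Vale.Agent.P283R.Tp.Ram
import Vale.Agent.P287D.Gf.Vp
import Vale.Agent.P287D.Gf.Des
import Vale.Agent.P287D.Gf.Res
import Vale.Agent.P287D.Cv.Rr

/-!
# P283R, block CF: a curve with an anti-ample canonical class is a conic
-/

open Set Submodule

noncomputable section

namespace Vale.Agent.P283R.Cf

open Vale.Agent.P287D Vale.Agent.P287D.Cv

namespace Gen

variable {K K' : Type} [Field K] [Algebra ℂ K] [Field K'] [Algebra ℂ K']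
  {L : IntermediateField ℂ K} {φ : K →+* K'} {d : ℕ}

/-- the geometric generic fibre has genus zero -/
theorem g0 (h : GFd d 1 L φ) {x : Fin (d + 1) → K} (hx : Frm x) {m : ℕ} {g : K}
    (le : ∀ Q, P287D.Hor L Q → ld x m g Q ≤ 1) {Q₀ : Pl K} (h₀ : P287D.Hor L Q₀)
    (lt : ld x m g Q₀ < 1) : pg K' 1 = 0 := by
  have hK' := (g1b d 1 K K' L φ h).1
  obtain ⟨a1, a2, a3, -⟩ := g2 d 1 K K' L φ h
  obtain ⟨f, -, e⟩ := g4 d 1 K K' L φ h
  obtain ⟨j, -, ej⟩ := Cb.kap_cn h.fk hx.ind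
  obtain ⟨P₀, l₀⟩ := a3 Q₀ h₀
  have c1 := fun a : K' => dv_mem_Car a
  have c2 := carZ_car (δ_carZ hK' P₀)
  refine g0_of_le hK' (γ := (m : ℝ)⁻¹ • dv (φ g) - dv (φ j) + dv f - (1 - ld x m g Q₀) • P₀.δ)
    (sub_mem (add_mem (sub_mem (smul_mem _ _ (c1 _)) (c1 _)) (c1 _)) (smul_mem _ _ c2))
    (fun P => ?_) ?_
  · obtain ⟨Q, l⟩ := a1 P
    obtain ⟨b1, b2, b3, -⟩ := a2 P Q l
    have k := congrFun ej Q
    have k1 : (1 - ld x m g Q₀) * P₀.δ P ≤ 1 - ld x m g Q := by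
      by_cases c : P = P₀
      · subst c
        rw [Pl.δ_self, mul_one, l.uniq l₀]
      · rw [Pl.δ_ne c, mul_zero]
        exact sub_nonneg.2 (le Q b1)
    rw [e]
    simp only [Pi.add_apply, Pi.sub_apply, Pi.smul_apply, dv_apply, smul_eq_mul, b2, b3] at k ⊢
    rw [show ld x m g Q = 1 + kap x Q - (m : ℝ)⁻¹ * Q.ord g by rw [ld, div_eq_inv_mul]] at k1
    linarith
  · rw [I1_sub hK' (add_mem (sub_mem (smul_mem _ _ (c1 _)) (c1 _)) (c1 _)) (smul_mem _ _ c2),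
      I1_add hK' (sub_mem (smul_mem _ _ (c1 _)) (c1 _)) (c1 _),
      I1_sub hK' (smul_mem _ _ (c1 _)) (c1 _), I1_smul, I1_smul, I1_dv hK', I1_dv hK', I1_dv hK',
      I1_δ]
    linarith

theorem con (h : GFd d 1 L φ) (g : pg K' 1 = 0) :
    ∃ (s t : K) (a b : L), a ≠ 0 ∧ b ≠ 0 ∧ s ^ 2 - a * t ^ 2 = b ∧ Transcendental L t ∧
      IntermediateField.adjoin L {s, t} = ⊤ := by
  classical
  obtain ⟨hK', hL, -⟩ := g1b d 1 K K' L φ h
  obtain ⟨a1, a2, -⟩ := g2 d 1 K K' L φ h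
  obtain ⟨f₀, -, e⟩ := g4 d 1 K K' L φ h
  have eD : pb φ (-cn K (d + 1)) = dv f₀ - cn K' 1 := funext fun P => by
    obtain ⟨Q, l⟩ := a1 P
    rw [e, Pi.sub_apply, Pi.add_apply, (a2 P Q l).2.2.1, (a2 P Q l).2.2.1, Pi.neg_apply]
    ring
  have s3 := (g3 d 1 K K' L φ h).2.2.1 (-cn K (d + 1))
  have s4 : ∀ f : K, (∀ Q, P287D.Hor L Q → 0 ≤ (dv f + -cn K (d + 1)) Q) →
      φ f ∈ H0 (pb φ (-cn K (d + 1))) := fun f k => mem_H0.2 (.inr fun P => by
    obtain ⟨Q, l⟩ := a1 P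
    obtain ⟨b1, b2, b3, -⟩ := a2 P Q l
    rw [Pi.add_apply, dv_apply, b2, b3]
    exact k Q b1)
  have cz : pb φ (-cn K (d + 1)) ∈ CarZ K' := eD ▸ sub_mem (dv_mem_CarZ _) (cn_carZ hK')
  have dg : I1 (pb φ (-cn K (d + 1))) = 2 := by
    rw [eD, I1_sub hK' (dv_mem_Car _) (cn_car hK'), I1_dv hK', I1_cn hK', g]
    norm_num
  generalize pb φ (-cn K (d + 1)) = D at s3 s4 cz dg
  generalize hV : {f : K | f ≠ 0 ∧ ∀ Q, P287D.Hor L Q → 0 ≤ (dv f + -cn K (d + 1)) Q} = V at s3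
  have eV : span ℂ (φ '' V) = H0 D := le_antisymm (span_le.2 (by
    rintro _ ⟨f, hf, rfl⟩
    exact s4 f (hV ▸ hf).2)) fun a ha => s3 a (mem_H0.1 ha)
  have c := carZ_car cz
  have h3 : h0 D = 3 := by
    have := h0_g0 hK' g cz (by rw [dg]; norm_num)
    rw [dg] at this
    exact_mod_cast this.trans (by norm_num : (2 : ℝ) + 1 = (3 : ℕ))
  have h5 : h0 (D + D) = 5 := by
    have := h0_g0 hK' g (add_mem cz cz) (by rw [I1_add hK' c c, dg]; norm_num)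
    rw [I1_add hK' c c, dg] at this
    exact_mod_cast this.trans (by norm_num : (2 : ℝ) + 2 + 1 = (5 : ℕ))
  have : Module.Finite ℂ (span ℂ (φ '' V)) := eV ▸ H0_fin hK' c
  have := H0_fin hK' (add_mem c c)
  obtain ⟨b, b1, b2, b3⟩ : ∃ b : Fin 3 → K', (∀ i, b i ∈ φ '' V) ∧
      span ℂ (range b) = span ℂ (φ '' V) ∧ LinearIndependent ℂ b := by
    have := exists_fun_fin_finrank_span_eq ℂ (φ '' V)
    rwa [show Module.finrank ℂ (span ℂ (φ '' V)) = 3 from eV ▸ h3] at this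
  choose f _ hf using b1
  obtain rfl : φ ∘ f = b := funext hf
  rw [eV] at b2
  obtain ⟨O⟩ := ne_pl hK'
  obtain ⟨τ, t1, t2, t3⟩ := exists_coord hK' g O
  have o := δ_carZ hK' O
  have o' := carZ_car o
  obtain ⟨u, u0, hu⟩ := dv_of_g0 hK' g (sub_mem (add_mem o o) cz) (by
    rw [I1_sub hK' (add_mem o' o') c, I1_add hK' o' o', I1_δ, dg]
    norm_num)
  have t0 : τ ≠ 0 := fun z => t1 0 (z.trans (map_zero _).symm)
  have sec : ∀ i, Sec D (φ (f i)) := fun i => mem_H0.1 (b2.le (subset_span ⟨i, rfl⟩))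
  refine conic h.toGF hL f b3 (H0 (D + D)) h5 (fun i j => ?_) u0 (b2.ge (mem_H0.2 (.inr ?_)))
    (b2.ge (mem_H0.2 (.inr fun P => ?_))) t2
  · rw [map_mul]
    exact mem_H0.2 ((sec i).mul (sec j))
  · rw [← hu, sub_add_cancel]
    exact add_nonneg O.δ_nonneg O.δ_nonneg
  · have k := Int.cast_le (R := ℝ).2 (P.le_mz (s := {1, τ}) (by simp) t0)
    have k1 : 0 ≤ O.δ P := O.δ_nonneg P
    rw [← mx_apply, t3, Int.cast_neg] at k
    rw [dv_mul u0 t0, ← hu]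
    simp only [Pi.add_apply, Pi.sub_apply, Pi.zero_apply, dv_apply]
    linarith

end Gen

theorem exists_im (k K : Type) [Field k] [Algebra ℂ k] [Field K] [Algebra ℂ K] [Algebra k K]
    [IsScalarTower ℂ k K] : ∃ (L : IntermediateField ℂ K) (e : k →ₐ[ℂ] L),
      Function.Surjective e ∧ ∀ a, (e a : K) = algebraMap k K a :=
  ⟨(IsScalarTower.toAlgHom ℂ k K).fieldRange, (IsScalarTower.toAlgHom ℂ k K).codRestrict
    (IsScalarTower.toAlgHom ℂ k K).fieldRange.toSubalgebra fun a => ⟨a, rfl⟩,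
    fun ⟨_, a, h⟩ => ⟨a, Subtype.ext h⟩, fun _ => rfl⟩

/-- **GEN**: the generic fibre is a conic -/
theorem gen : ForE fun k K _ _ _ _ _ => ∀ (d m : ℕ) (x : Fin (d + 1) → K) (h : K), FF k d →
    FF K (d + 1) → Acl k K → Frm x → (∀ P : Pl K, Trv (algebraMap k K) P → ld x m h P ≤ 1) →
    (∃ P : Pl K, Trv (algebraMap k K) P ∧ ld x m h P < 1) →
    ∃ (s t : K) (a b : k), Con d s t a b := by
  intro k K _ _ _ _ _ _ d m x h fk fK acl hx le ⟨P, tr, lt⟩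
  obtain ⟨L, e, su, ee⟩ := exists_im k K
  have sq : (algebraMap L K).comp (e : k →+* L) = RingHom.comp (RingHom.id K) (algebraMap k K) :=
    RingHom.ext ee
  have rg : range (algebraMap k K) = range (algebraMap L K) :=
    ext fun _ => ⟨fun ⟨a, h⟩ => ⟨e a, (ee a).trans h⟩, fun ⟨a, h⟩ =>
      let ⟨b, hb⟩ := su a; ⟨b, (ee b).symm.trans (hb ▸ h)⟩⟩
  have hL : Cld L := fun z a => by
    obtain ⟨b, rfl⟩ := rg ▸ acl z (IsAlgebraic.of_ringHom_of_comp_eq e (RingHom.id K) a su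
      Function.injective_id sq)
    exact b.2
  have fL : FF L d := Semi.ff (φ := (e : k →+* L))
    ⟨su, fun c => ⟨c, (e.commutes c).symm⟩, fun c => ⟨c, e.commutes c⟩⟩ fk
  obtain ⟨K', _, _, φ, gf⟩ := g1 K L hL ⟨d, fL⟩
  have G : GFd d 1 L φ := ⟨gf, fK, fL⟩
  obtain ⟨s, t, a, b, a0, b0, eq, tt, ge⟩ := Gen.con G (Gen.g0 G hx
    (fun Q q => le Q fun a => ee a ▸ q _ (e a).2) (fun a ha => by
      obtain ⟨b, hb⟩ := rg.ge ⟨⟨a, ha⟩, rfl⟩
      exact (show algebraMap k K b = a from hb) ▸ tr b) lt)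
  obtain ⟨a, rfl⟩ := su a
  obtain ⟨b, rfl⟩ := su b
  rw [ee, ee] at eq
  refine ⟨s, t, a, b, fk, fK, (map_ne_zero e).1 a0, (map_ne_zero e).1 b0, eq,
    fun z => tt (z.ringHom_of_comp_eq e (RingHom.id K) e.toRingHom.injective sq),
    IntermediateField.toSubfield_injective ?_⟩
  have := congrArg IntermediateField.toSubfield ge
  rw [IntermediateField.adjoin_toSubfield] at this ⊢
  rw [rg, this, IntermediateField.top_toSubfield, IntermediateField.top_toSubfield]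

end Vale.Agent.P283R.Cf
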