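import Vale.Agent.P283R.Cf.Aut
import Vale.Agent.P283R.Cf.Dwnr
import Vale.Agent.P283R.Cf.Gen

/-!
# P283R, block CF: contractions of Fano type of relative dimension one are conic fibrations
-/

set_option linter.all false

open Set CategoryTheory AlgebraicGeometry
open Vale.Agent.P289 Vale.Agent.P289.H219 Vale.Agent.P270L Vale.Agent.P283M.Am Vale.Agent.P299.G

noncomputable section

namespace Vale.Agent.P283R.Cf

open Vale.Agent.P287D Vale.Agent.P283M Vale.Agent.P283M.Br Vale.Agent.P283M.Stm.Var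
open Vale.Agent.P283M.Stm (Contraction FanoType)
open Vale.Agent.P297Z Vale.Agent.P283R.Br
open Vale.Agent.P283R.Et (Pe)

namespace Fto

variable {X Y Z : Stm.Var} {g : X.X ⟶ Y.X} {p : Y.K →+* X.K}

/-- the pull back of the rational functions along a surjective morphism -/
theorem exists_pe (g : X.X ⟶ Y.X) [Surjective g] : ∃ p, Pe g p := by
  let η := genericPoint X.X
  have e : g η = genericPoint Y.X := by
    refine IsGenericPoint.eq ?_ (genericPoint_spec Y.X)
    have := (genericPoint_spec X.X).image g.continuous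
    rwa [image_univ, g.surjective.range_eq, closure_univ] at this
  have fl : IsField (Y.X.presheaf.stalk (g η)) := e ▸ Field.toIsField Y.X.functionField
  have inj : Function.Injective (g.stalkMap η).hom := by
    let _ := fl.toField
    exact RingHom.injective _
  have inj' : Function.Injective ((toK η).comp (g.stalkMap η).hom) := (toK_injective η).comp inj
  refine ⟨IsFractionRing.lift inj', fun y a => ?_⟩
  have s : η ⤳ y := genericPoint_specializes y
  have h1 := toK_toStalk (s.map g.continuous) a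
  have h2 := toK_toStalk s ((g.stalkMap y).hom a)
  refine (congrArg _ h1.symm).trans ((IsFractionRing.lift_algebraMap inj' _).trans
    (Eq.trans (congrArg (toK η) ?_) h2))
  exact Scheme.Hom.stalkSpecializes_stalkMap_apply g η y s a

/-- the function field of the base of a contraction is algebraically closed upstairs -/
theorem acl (hg : Contraction g) (hp : Pe g p) : letI := p.toAlgebra; Acl Y.K X.K := by
  let _ := p.toAlgebra
  intro z hz
  obtain ⟨_, ⟨V, hV, rfl⟩, yV, -⟩ := Y.X.isBasis_affineOpens.exists_subset_of_mem_open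
    (a := g (genericPoint X.X)) (mem_univ _) isOpen_univ
  have : Nonempty ↑(g ⁻¹ᵁ V) := ⟨⟨_, yV⟩⟩
  have : Nonempty V := ⟨⟨_, yV⟩⟩
  let _ : Algebra Γ(Y.X, V) X.K := (pl g V).toAlgebra
  have : IsScalarTower Γ(Y.X, V) Y.K X.K := .of_algebraMap_eq fun a => Cht.pl_pe hp V a
  have := functionField_isFractionRing_of_isAffineOpen Y.X V hV
  obtain ⟨b, b0, hb⟩ := ((IsFractionRing.isAlgebraic_iff Γ(Y.X, V) Y.K X.K).2
    hz).exists_integral_multiple
  obtain ⟨c, hc⟩ := Cht.down hg hp yV (u := b • z) fun x hx => by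
    have := X.normal x
    exact IsIntegrallyClosed.isIntegral_iff.1 (hb.map_of_comp_eq ((g.stalkMap x).hom.comp
      (Y.X.presheaf.germ V (g x) hx).hom) (RingHom.id X.K) (RingHom.ext fun a => pl_germ hx a))
  have b1 : algebraMap Γ(Y.X, V) Y.K b ≠ 0 :=
    (map_ne_zero_iff _ (IsFractionRing.injective _ _)).2 b0
  refine ⟨c / algebraMap _ _ b, ?_⟩
  rw [map_div₀, div_eq_iff ((map_ne_zero _).2 b1), mul_comm, ← IsScalarTower.algebraMap_apply,
    ← Algebra.smul_def]
  exact hc

/-- the centre of a horizontal valuation lies over the generic point -/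
theorem ovr [IsProper g] (hp : Pe g p) {O : ValuationSubring X.K} (o : ∀ a, p a ∈ O) {x : Pt X.X}
    (hx : Dom O x) {U : Y.X.Opens} (hU : g (genericPoint X.X) ∈ U) : g x ∈ U := by
  obtain ⟨_, ⟨V, hV, rfl⟩, yV, le⟩ := Y.X.isBasis_affineOpens.exists_subset_of_mem_open hU U.isOpen
  have : Nonempty ↑(g ⁻¹ᵁ V) := ⟨⟨_, yV⟩⟩
  have : Nonempty V := ⟨⟨_, yV⟩⟩
  obtain ⟨y, y1, y2⟩ := exists_dom (f := g) hV O fun a => Cht.pl_pe hp V a ▸ o _
  exact Crv.dom_unique y2 (dom_S hx) ▸ le y1

theorem con {e : ℕ} {h : Y.X ⟶ Z.X} {ω : DForm ℂ X.K (e + 1)} (hg : Contraction g) (hp : Pe g p)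
    (hd : dimension X.str = (e + 1 : ℕ)) (he : dimension Y.str = e) (hω : ω.Nonzero)
    (ft : FanoType (g ≫ h) ω) : Sl.Conic p.fieldRange ⊤ := by
  have ac := acl hg hp
  let _ := p.toAlgebra
  have : IsScalarTower ℂ Y.K X.K := .of_algebraMap_eq fun c => (hp.cst hg.1 c).symm
  have := hg.2.1
  have hX : FF X.K (e + 1) := ffd X _ hd
  have hY : FF Y.K e := ffd Y _ he
  let φ : Y.K →+* p.fieldRange := p.rangeRestrictField
  have su : Function.Surjective φ := p.rangeRestrictField_bijective.2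
  have tr : Algebra.trdeg p.fieldRange X.K ≤ 1 := by
    let _ := φ.toAlgebra
    have : IsScalarTower Y.K p.fieldRange X.K := .of_algebraMap_eq fun _ => rfl
    have a := trdeg_add_eq ℂ Y.K (A := X.K)
    rw [hX.trdeg, hY.trdeg, Nat.cast_succ, add_comm, add_comm _ 1, Cardinal.add_nat_inj] at a
    exact le_add_self.trans ((trdeg_add_eq Y.K p.fieldRange (A := X.K)).trans a).le
  obtain ⟨j, j0, fr⟩ := frm X _ hX ω hω
  obtain ⟨x, D, fx, ex⟩ := Cb.exists_cn hX
  obtain ⟨C, hC, m, m0, -, am⟩ := ft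
  obtain ⟨_, ⟨U, hU, rfl⟩, zU, -⟩ := Z.X.isBasis_affineOpens.exists_subset_of_mem_open
    (a := (g ≫ h) (genericPoint X.X)) (mem_univ _) isOpen_univ
  obtain ⟨k, s, W, k0, s1, hW, ηW, s2⟩ := am U hU _ zU
  have s0 : s ≠ 0 := fun z => ((s2 _).1 ηW).2.1 (inv_eq_zero.2 z)
  have n0 : (0 : ℝ) < (k * m : ℕ) := Nat.cast_pos.2 (Nat.mul_pos k0 m0)
  have key : ∀ (P : Pl X.K) (E : X.PrimeDiv), Trv p P → Dom P.ring E.1 → E.1 ∈ (g ≫ h) ⁻¹ᵁ U ∧
      (1 - ld x (k * m) (s / j ^ (k * m)) P) * (k * m : ℕ) =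
        ((ord s E + k * m * (-logCan ω C) E : ℚ) : ℝ) + (k * m : ℕ) * C E := fun P E t d => by
    obtain ⟨o, f⟩ := Dw.at_pl fr d
    refine ⟨ovr hp t d (U := h ⁻¹ᵁ U) zU, ?_⟩
    rw [ld, Pl.ord_div _ s0 (pow_ne_zero _ j0), Pl.ord_pow, ← ex, Pi.neg_apply, logCan, o]
    push_cast
    rw [f]
    have : (k : ℝ) * m ≠ 0 := by exact_mod_cast n0.ne'
    field_simp
    ring
  have c0 : ∀ E, (0 : ℝ) ≤ (k * m : ℕ) * C E := fun E =>
    mul_nonneg n0.le (by exact_mod_cast hC.1 E trivial)
  have hor : ∀ P : Pl X.K, Trv p P → ∃ E : X.PrimeDiv, Dom P.ring E.1 := fun P t => by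
    obtain ⟨E, hE⟩ := Aut.div hp tr P.ring (fun _ ⟨a, ha⟩ => ha ▸ t a) (by
      by_contra c
      simp only [not_exists, not_not] at c
      exact Pl.ring_ne_top P.toPlace (eq_top_iff.2 fun x _ => c x))
    exact ⟨E, Is.dom hE⟩
  obtain ⟨s', t, a, b, cn⟩ := gen Y.K X.K e (k * m) x (s / j ^ (k * m)) hY hX ac ⟨D, fx⟩
    (fun P t => by
      obtain ⟨E, d⟩ := hor P t
      obtain ⟨a, b⟩ := key P E t d
      have c : (0 : ℝ) ≤ ((ord s E + k * m * (-logCan ω C) E : ℚ) : ℝ) := by
        exact_mod_cast s1 E a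
      exact sub_nonneg.1 (nonneg_of_mul_nonneg_left (b ▸ add_nonneg c (c0 E)) n0)) (by
      by_contra c
      simp only [not_exists, not_and, not_lt] at c
      have : Nonempty W := ⟨⟨_, ηW⟩⟩
      have := functionField_isFractionRing_of_isAffineOpen X.X W hW
      have : IsIntegrallyClosedIn p.fieldRange.toSubring X.K :=
        Subring.isIntegrallyClosedIn_iff.2 fun z hz => ac z
          (IsAlgebraic.of_ringHom_of_comp_eq φ (RingHom.id X.K) hz.isAlgebraic su
            Function.injective_id rfl)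
      have r : ∀ a : Γ(X.X, W), H594.secK W a ∈ p.fieldRange := fun a => by_contra fun n => by
        obtain ⟨O, o1, o2⟩ := p.fieldRange.toSubring.exists_le_valuationSubring_of_isIntegrallyClosedIn n
        obtain ⟨E, hE⟩ := Aut.div hp tr O o1 ⟨_, o2⟩
        obtain ⟨P, i, -⟩ := pl_of plc E
        have t : Trv p P := fun a => (i _).2 ((hE _).1 (o1 ⟨a, rfl⟩))
        obtain ⟨a1, b⟩ := key P E t i.dom
        have b1 : (0 : ℝ) ≤ ((ord s E + k * m * (-logCan ω C) E : ℚ) : ℝ) := by
          exact_mod_cast s1 E a1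
        have b2 := mul_nonpos_of_nonpos_of_nonneg (sub_nonpos.2 (c P t)) n0.le
        have b3 : (ord s E + k * m * (-logCan ω C) E : ℚ) = 0 := by
          have := c0 E
          exact_mod_cast (by linarith : ((ord s E + k * m * (-logCan ω C) E : ℚ) : ℝ) = 0)
        refine o2 ((hE _).2 (mem_reg.1 (secK_reg W a) _ ((s2 _).2 ⟨a1, inv_ne_zero s0, ?_⟩)))
        intro y hy
        obtain rfl : y = E := Subtype.ext (eq_of_spec E.2 y.2 hy)
        have : (ord s⁻¹ y : ℚ) = -ord s y := od_inv s0 _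
        rw [this]
        push_cast
        linarith
      have su' : Function.Surjective (algebraMap Y.K X.K) := fun z => by
        obtain ⟨a, b, -, rfl⟩ := IsFractionRing.div_surjective (A := Γ(X.X, W)) z
        exact div_mem (r a) (r b)
      have : Module.Finite Y.K X.K := Module.Finite.of_surjective (Algebra.linearMap _ _) su'
      have := hX.trdeg.symm.trans (Hd.ff_up hY : FF X.K e).trdeg
      exact (Nat.succ_ne_self e) (Nat.cast_injective this))
  refine ⟨s', t, p a, p b, ⟨a, rfl⟩, ⟨b, rfl⟩, (map_ne_zero p).2 cn.a0, (map_ne_zero p).2 cn.b0,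
    cn.eq, fun k => cn.tr (k.of_ringHom_of_comp_eq φ (RingHom.id X.K) su Function.injective_id rfl),
    ?_⟩
  exact ((congrArg IntermediateField.toSubfield cn.gen).symm.trans
    (IntermediateField.adjoin_toSubfield _ _))

end Fto

/-- **a contraction of Fano type of relative dimension one is a conic fibration** -/
theorem fto {X Y Z : Sl.Var} {g : X.X ⟶ Y.X} {h : Y.X ⟶ Z.X} {d e : ℕ} {ω : X.Form d}
    (hg : Sl.Contraction g) (hd : Sl.dimension X.str = d) (he : Sl.dimension Y.str = e)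
    (de : d = e + 1) (hω : ω.Nonzero) (ft : Sl.FanoType (g ≫ h) ω) : Sl.ConicTower g := by
  subst de
  have := hg.2.1
  have := hg.2.2.1
  obtain ⟨p, hp⟩ := Fto.exists_pe (X := X.o) (Y := Y.o) g
  exact aut_one hp (Fto.con (X := X.o) (Y := Y.o) (Z := Z.o) hg hp hd he hω
    ((Sl.fanoType_iff _ ω).1 ft))

end Vale.Agent.P283R.Cf
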