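import Vale.Agent.P283R.Sl.It
import Vale.Agent.P283R.Sl.Mb
import Vale.Agent.P283R.Cf.All

/-!
# P283R: bounded klt complements for the iterated classes
-/

open CategoryTheory AlgebraicGeometry

namespace Vale.Agent.P283R.Sl

open Var

variable {C : Class}

/-- towers of conics over a class of klt pairs -/
theorem on_tower (h : On C) : On fun _ _ Z f ω B z => NefOver f (-logCan ω B) ∧
    OverConics (fun e Y h η => ∀ Δ, Pair (0 < ·) (all Y.X) η Δ → NefOver h (-logCan η Δ) →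
      C e Y Z h η Δ z) f ω B :=
  (on_ov Cf.dwn Cf.adp' h).mono
    fun _ X Z f _ _ _ ⟨v, e, Y, g, h, η, b1, b2, b3, b4, b5, b6, b7, b8, u⟩ =>
    ⟨e, Y, g, h, η, b1, b2, b3, b4, b5, b6, b7, b8, fun g p Δ _ _ _ c4 c5 c6 c7 c8 =>
      u Δ c7 ((nefOver_iff h _).2 (Cf.nef X.o Y.o g p c5 c6 Z.o h _ _
        (Eb.logCan_fin (X := Y.o) b1 b2 b3 Δ) (fun y => c7.2.1 y trivial) c8
        (c4 ▸ (nefOver_iff f _).1 v)))⟩

theorem On.step (h : On C) (l : ℕ) : On (Step l C) :=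
  h.or ((on_et h).or ((on_cov h l).or (on_tower h)))

theorem On.iter {S : Class → Class} (hS : ∀ C, On C → On (S C)) (h : On C) (s : ℕ) :
    On (S^[s] C) := by
  induction s generalizing C with
  | zero => exact h
  | succ s ih => exact ih (hS C h)

theorem on_base (l : ℕ) : On (Base l) := on_gen' l

theorem on_iter (l : ℕ) : On ((Step l)^[l] (Base l)) :=
  On.iter (fun _ h => h.step l) (on_base l) l

/-- the statement with the iterated class -/
theorem master_iter {S : ℕ → Class} (h : ∀ l, On (S l)) (d : ℕ) (hd : 1 ≤ d) (ε : ℝ) (hε : 0 < ε)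
    (R : Finset ℚ) (hR : ∀ r ∈ R, 0 ≤ r ∧ r ≤ 1) :
    ∃ n : ℕ → ℕ, (∀ l, 1 ≤ n l) ∧ ∀ (X Z : Var) (f : X.X ⟶ Z.X) (ω : X.Form d) (B : X.QDiv)
      (z : Pt Z.X), dimension X.str = d → ω.Nonzero → Pair (ε ≤ ·) (all X.X) ω B →
      (∀ y, B.coeff y ≠ 0 → B.coeff y ∈ R) → Contraction f → z.Closed →
      (FanoType f ω → NefOver f (-logCan ω B) → ∃ l, Generated l f ω B z) ∧
        ∀ l, S l d X Z f ω B z → HasKltComplement f ω B (n l) z := by
  choose n n1 H using fun l => h l d hd ε hε R hR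
  exact ⟨n, n1, fun X Z f ω B z a b c e s t => ⟨fun u _ => gen_all un hd X Z f ω B z a b s u t,
    fun l w => H l X Z f ω B z a b c e s t w⟩⟩

end Vale.Agent.P283R.Sl
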