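import Vale.Agent.P283R.Cf.All
import Vale.Agent.P283R.Cf.Fto

/-!
# P283R, block CF: families of curves of Fano type
-/

open CategoryTheory AlgebraicGeometry

namespace Vale.Agent.P283R.Sl

open Var

variable {C : ∀ (d : ℕ) (X Z : Var), (X.X ⟶ Z.X) → X.Form d → X.QDiv → Pt Z.X → Prop}

/-- families of curves over a class -/
theorem OnN.curve (h : OnN C) : OnN fun d X Z f ω B z =>
    ∃ (e : ℕ) (Y : Var) (g : X.X ⟶ Y.X) (h : Y.X ⟶ Z.X) (η : Y.Form e), 1 ≤ e ∧ d = e + 1 ∧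
      dimension Y.str = e ∧ η.Nonzero ∧ g ≫ h = f ∧ Contraction g ∧ Contraction h ∧
      TrivialOver g ω B ∧ FanoType h η ∧ ∀ Δ, C e Y Z h η Δ z := by
  intro d hd ε hε R hR
  obtain ⟨n, hn, H⟩ := h.over d hd ε hε R hR
  refine ⟨n, hn, fun X Z f ω B z a b c i s t u => H X Z f ω B z a b c i s t ⟨u.1, u.2.1, ?_⟩⟩
  obtain ⟨ft, -, e, Y, g, k, η, b1, b0, b2, b3, b4, b5, b6, b7, b8⟩ := u
  exact ⟨e, Y, g, k, η, b1, b2, b3, b4, b5, b6, Cf.fto b5 a b2 b0 b (b4.symm ▸ ft), b7, b8⟩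

/-- families of curves of Fano type over a germ -/
theorem curve_of {S : ∀ Z : Var, Pt Z.X → Prop} (h : On fun _ _ Z f ω B z =>
    ConicTower f ∧ TrivialOver f ω B ∧ dimension Z.str ≠ 0 ∧ S Z z) : On fun d _ Z f ω B z =>
    FanoType f ω ∧ dimension Z.str + 1 = d ∧ TrivialOver f ω B ∧ dimension Z.str ≠ 0 ∧ S Z z := by
  intro d hd ε hε R hR
  obtain ⟨n, hn, H⟩ := h d hd ε hε R hR
  refine ⟨n, hn, fun X Z f ω B z a b c i s t u => H X Z f ω B z a b c i s t ⟨?_, u.2.2⟩⟩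
  obtain ⟨e, -, he, -⟩ := exists_form Z
  refine Cf.fto (h := 𝟙 _) s a he ?_ b ((Category.comp_id f).symm ▸ u.1)
  exact_mod_cast u.2.1.symm.trans (congrArg (· + 1) he)

/-- families of curves of Fano type over quotients of complete intersections -/
theorem on_curve : On fun d _ Z f ω B z => FanoType f ω ∧ dimension Z.str + 1 = d ∧
    TrivialOver f ω B ∧ dimension Z.str ≠ 0 ∧ LciqReg Z z := curve_of on_conic

end Vale.Agent.P283R.Sl
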