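import Vale.Agent.P283R.Cf.St

/-!
# P283R, block CF: the roots, the rational function field over the splitting field
-/

open Set Polynomial

noncomputable section

namespace Vale.Agent.P283R.Cf

open Vale.Agent.P287D

theorem Spl.enum {L : Type} (s : Multiset L) {n : ℕ} (h : s.card = n) :
    ∃ α : Fin n → L, s = Finset.univ.val.map α := by
  induction s using Quotient.inductionOn with
  | h l =>
    obtain rfl : l.length = n := h
    exact ⟨l.get, by rw [Fin.univ_val_map, List.ofFn_get]; rfl⟩

theorem spl : SPL := fun k L _ _ _ _ q p hm hd hμ hs => by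
  classical
  have hm' := hm.map (algebraMap k L)
  obtain ⟨α, hα⟩ := Spl.enum (p.map (algebraMap k L)).roots (n := q + q)
    (by rw [← hs.natDegree_eq_card_roots, hm.natDegree_map, hd])
  refine ⟨α, fun c => ?_, ?_⟩
  · have e : {i | α i = c}.ncard = (p.map (algebraMap k L)).roots.count c := by
      rw [hα, Multiset.count_map, ← Finset.filter_val, Finset.card_val, ← Set.ncard_coe_finset]
      exact congrArg _ (by ext i; simp [eq_comm])
    rw [e]
    by_cases hc : c ∈ (p.map (algebraMap k L)).roots
    · have hi : IsIntegral k c := ⟨p, hm, by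
        simpa [IsRoot, eval_map] using (mem_roots hm'.ne_zero).1 hc⟩
      have ir := minpoly.irreducible hi
      obtain ⟨n, r, hr, e⟩ := WfDvdMonoid.max_power_factor hm.ne_zero ir
      have hn : n ≤ q := by
        by_contra h
        exact hμ _ ir ((pow_dvd_pow _ (by omega)).trans (e ▸ dvd_mul_right _ r))
      have h0 := hm'.ne_zero
      have h1 : (r.map (algebraMap k L)).roots.count c = 0 :=
        Multiset.count_eq_zero.2 fun h => hr (minpoly.dvd k c (by
          simpa [IsRoot, eval_map, aeval_def] using (mem_roots'.1 h).2))
      have h2 := Multiset.nodup_iff_count_le_one.1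
        (nodup_roots (ir.separable.map (f := algebraMap k L))) c
      rw [e, Polynomial.map_mul] at h0 ⊢
      rw [roots_mul h0, Polynomial.map_pow, roots_pow, Multiset.count_add, Multiset.count_nsmul, h1]
      nlinarith
    · simp [Multiset.count_eq_zero.2 hc]
  · conv_lhs => rw [hs.eq_prod_roots_of_monic hm', hα, Multiset.map_map]
    rfl

theorem rts : RTS := fun k K L F _ _ _ _ _ _ _ _ _ _ _ _ _ _ _ _ d D G h τ S ht hS => by
  let _ : Algebra k F := ((algebraMap K F).comp (algebraMap k K)).toAlgebra
  have : IsScalarTower k K F := .of_algebraMap_eq fun _ => rfl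
  have : IsScalarTower k L F := .of_algebraMap_eq fun a => (h.com a).symm
  have := h.fd
  refine ⟨h.fL, h.fF, ?_, ?_⟩
  · have a := (ht.ind.map' (f := IsScalarTower.toAlgHom k K F) (algebraMap K F).injective)
    have e : (IsScalarTower.toAlgHom k K F) ∘ ![τ] = ![algebraMap K F τ] := by
      ext i; fin_cases i; rfl
    rw [e] at a
    exact a.extendScalars L
  · set E := IntermediateField.adjoin L (range ![algebraMap K F τ])
    have a : ∀ z : K, algebraMap K F z ∈ E := fun z => by
      have := ht.gen.ge.trans ((IntermediateField.adjoin_le_iff (T :=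
        (E.toSubfield.comap (algebraMap K F)).toIntermediateField fun a =>
          show algebraMap K F (algebraMap k K a) ∈ E from h.com a ▸ E.algebraMap_mem _)).2 (by
            rintro _ ⟨i, rfl⟩
            exact IntermediateField.subset_adjoin L _ ⟨i, by fin_cases i; rfl⟩))
      exact this IntermediateField.mem_top
    refine top_unique fun z _ => ?_
    have := hS.ge.trans ((IntermediateField.adjoin_le_iff (T :=
      E.toSubfield.toIntermediateField a)).2 (by
        rintro _ ⟨l, -, rfl⟩
        exact E.algebraMap_mem l))
    exact this IntermediateField.mem_top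

end Vale.Agent.P283R.Cf
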