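import Vale.Agent.P283R.Cx.St
import Vale.Agent.P283R.Et.Br

/-!
# P283R, block CF: the canonical bundle formula for towers of conics (the rows)
-/

open Set Polynomial CategoryTheory AlgebraicGeometry

noncomputable section

namespace Vale.Agent.P283R.Cf

open Vale.Agent.P287D

section defs

variable {k K L F : Type} [Field k] [Algebra ℂ k] [Field K] [Algebra ℂ K] [Field L] [Algebra ℂ L]
  [Field F] [Algebra ℂ F] [Algebra k K] {d n : ℕ}

/-- the ramification index -/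
def ee (P : Pl K) (v : Pl k) : ℝ := P.ord (algebraMap k K v.t)

variable (k) in
/-- the horizontal coefficients lie in `[0, 1)` and in `ℤ / q` -/
def Hor (q : ℕ) (x : Fin n → K) (m : ℕ) (h : K) : Prop := ∀ P : Pl K, Trv (algebraMap k K) P →
  0 < ld x m h P ∧ ld x m h P ≤ 1 ∧ ∃ z : ℤ, q * ld x m h P = z

/-- the log discrepancy of the system `u ^ (1 / M)` -/
def gl (y : Fin d → k) (M : ℕ) (u : Finset k) (v : Pl k) : ℝ := 1 + kap y v + v.mz u / M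

/-- the system `u` computes the discriminant of `ψ` -/
structure Out (M E : ℕ) (y : Fin d → k) (x : Fin n → K) (ψ : K) (u : Finset k) : Prop where
  nz : Nz u
  lo : ∀ P v, Lies (algebraMap k K) P v → ee P v * gl y M u v ≤ ld x M ψ P
  hi : ∀ v, ∃ P, Lies (algebraMap k K) P v ∧ ee P v ≤ E ∧ ld x M ψ P ≤ ee P v * gl y M u v

variable (k K) in
/-- the canonical bundle formula for `K / k` -/
def CB (d q M E : ℕ) : Prop := ∀ (y : Fin d → k) (x : Fin (d + 1) → K), Frm y → Frm x →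
  ∀ (m : ℕ) (h : K), 0 < m → h ≠ 0 → Hor k q x m h → ∃ (ψ : K) (c : k) (u : Finset k),
    ψ ≠ 0 ∧ c ≠ 0 ∧ h ^ M = algebraMap k K c * ψ ^ m ∧ Out M E y x ψ u

variable (k) in
/-- `K = k(τ)` -/
def Rt (d : ℕ) (τ : K) : Prop := Cx.Ext k d ![τ]

/-- the frame `(y, τ)` -/
def fr (y : Fin d → k) (τ : K) : Fin (d + 1) → K := Cx.zt y ![τ]

/-- `K` is the function field of the conic `s ^ 2 - a t ^ 2 = b` over `k` -/
structure Con (d : ℕ) (s t : K) (a b : k) : Prop where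
  ff : FF k d
  ff' : FF K (d + 1)
  a0 : a ≠ 0
  b0 : b ≠ 0
  eq : s ^ 2 - algebraMap k K a * t ^ 2 = algebraMap k K b
  tr : Transcendental k t
  gen : IntermediateField.adjoin k {s, t} = ⊤

variable (k K) in
/-- `k` is algebraically closed in `K` -/
def Acl : Prop := ∀ z : K, IsAlgebraic k z → z ∈ range (algebraMap k K)

variable (k K L) in
/-- `F / K` is Galois with the group `G`, `L` is stable, `L ∩ K = k` -/
structure Sq [Algebra k L] [Algebra K F] [Algebra L F] (d D : ℕ) (G : Subgroup (F ≃ₐ[ℂ] F)) :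
    Prop where
  fk : FF k d
  fK : FF K (d + 1)
  fL : FF L d
  fF : FF F (d + 1)
  com : ∀ a : k, algebraMap L F (algebraMap k L a) = algebraMap K F (algebraMap k K a)
  fin : Finite G
  card : Nat.card G ≤ D
  fd : FiniteDimensional k L
  rk : Module.finrank k L ≤ D
  fix : ∀ z, Fix G z ↔ z ∈ range (algebraMap K F)
  stab : ∀ σ ∈ G, ∀ l : L, σ (algebraMap L F l) ∈ range (algebraMap L F)
  cap : ∀ (l : L) (z : K), algebraMap L F l = algebraMap K F z → l ∈ range (algebraMap k L)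

variable (K L F) in
/-- no ramification at the horizontal places -/
def Unr [Algebra K F] [Algebra L F] : Prop := ∀ (R : Pl F) (P : Pl K), Trv (algebraMap L F) R →
  Lies (algebraMap K F) R P → R.ord (algebraMap K F P.t) = 1

/-- the log discrepancy on the chart with the correction `c ^ (1 / μ)` -/
def aj (x : Fin n → K) (m : ℕ) (h c : K) (μ : ℕ) (P : Pl K) : ℝ := ld x m h P - P.ord c / μ

omit [Algebra k K] in
/-- `ε`-lc over the charts `v j`, the coefficients at the places in `T` are in `[0, 1]` and in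
`ℤ / q` -/
def Sta {k₀ ι : Type} [Field k₀] (φ : k₀ →+* K) (q : ℕ) (ε : ℝ) (T : Set (Pl K))
    (v : ι → Finset k₀) (c : ι → k₀) (μ : ι → ℕ) (x : Fin n → K) (m : ℕ) (h : K) : Prop :=
  ∀ j (P : Pl K), (∀ a ∈ v j, φ a ∈ P.ring) → ε ≤ aj x m h (φ (c j)) (μ j) P ∧
    (P ∈ T → aj x m h (φ (c j)) (μ j) P ≤ 1 ∧ ∃ z : ℤ, q * aj x m h (φ (c j)) (μ j) P = z)

variable (k) in
/-- the places under `T` -/
def dn (T : Set (Pl K)) : Set (Pl k) := {w | ∃ P ∈ T, Lies (algebraMap k K) P w}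

variable (k) in
/-- the state descends from `K` to `k` -/
def Go (d n q : ℕ) (ε : ℝ) (q' M : ℕ) (ε' : ℝ) (T : Set (Pl K)) : Prop :=
  ∀ (k₀ ι : Type) [Field k₀] [Finite ι] [Nonempty ι] (φ : k₀ →+* k) (v : ι → Finset k₀)
    (c : ι → k₀) (μ : ι → ℕ) (y : Fin d → k) (x : Fin n → K) (m : ℕ) (h : K), Frm y → Frm x →
    0 < m → h ≠ 0 → Sta ((algebraMap k K).comp φ) q ε T v c μ x m h →
    ∃ (m₀ : ℕ) (h₀ : k) (θ : K), 0 < m₀ ∧ h₀ ≠ 0 ∧ θ ≠ 0 ∧ Sta φ q' ε' (dn k T) v c μ y m₀ h₀ ∧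
      (∀ P : Pl K, (P.ord h : ℝ) / m = P.ord (algebraMap k K h₀) / m₀ + P.ord θ / M) ∧
      ∀ P w, Lies (algebraMap k K) P w → ee P w * ld y m₀ h₀ w ≤ ld x m h P

end defs

/-- a tower of `r` conics; the closed points of the conics lie under `T` -/
def Tow (d : ℕ) : ∀ (_ : ℕ) (k K : Type) [Field k] [Algebra ℂ k] [Field K] [Algebra ℂ K]
    [Algebra k K], Set (Pl K) → Prop
  | 0, k, K, _, _, _, _, _, _ => FF k d ∧ Function.Surjective (algebraMap k K)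
  | r + 1, k, K, _, _, _, _, _, T => ∃ (K' : Type) (_ : Field K') (_ : Algebra ℂ K')
      (_ : Algebra k K') (_ : Algebra K' K) (_ : IsScalarTower ℂ k K') (_ : IsScalarTower ℂ K' K)
      (_ : IsScalarTower k K' K), (∃ (s t : K) (a b : K'), Con (d + r) s t a b) ∧
        (∀ P : Pl K, Trv (algebraMap K' K) P → P ∈ T) ∧ Tow d r k K' (dn K' T)

/-- a statement on all extensions -/
def ForE (p : ∀ (k K : Type) [Field k] [Algebra ℂ k] [Field K] [Algebra ℂ K] [Algebra k K],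
    Prop) : Prop :=
  ∀ (k K : Type) [Field k] [Algebra ℂ k] [Field K] [Algebra ℂ K] [Algebra k K]
    [IsScalarTower ℂ k K], p k K

/-- a statement on all Galois squares -/
def ForS (p : ∀ (k K L F : Type) [Field k] [Algebra ℂ k] [Field K] [Algebra ℂ K] [Field L]
    [Algebra ℂ L] [Field F] [Algebra ℂ F] [Algebra k K] [Algebra k L] [Algebra K F] [Algebra L F],
    ℕ → ℕ → Prop) : Prop :=
  ∀ (k K L F : Type) [Field k] [Algebra ℂ k] [Field K] [Algebra ℂ K] [Field L] [Algebra ℂ L]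
    [Field F] [Algebra ℂ F] [Algebra k K] [Algebra k L] [Algebra K F] [Algebra L F]
    [IsScalarTower ℂ k K] [IsScalarTower ℂ k L] [IsScalarTower ℂ K F] [IsScalarTower ℂ L F]
    (d D : ℕ) (G : Subgroup (F ≃ₐ[ℂ] F)), Sq k K L d D G → p k K L F d D

/-- **SHF**: changes of the coordinate -/
def SHF : Prop := ForE fun k K _ _ _ _ _ => ∀ (d : ℕ) (τ : K) (y : Fin d → k), Rt k d τ → Frm y →
  Frm (fr y τ) ∧
  (∀ a : k, Rt k d (τ - algebraMap k K a) ∧ kap (fr y (τ - algebraMap k K a)) = kap (fr y τ)) ∧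
  Rt k d τ⁻¹ ∧ ∀ P : Pl K, kap (fr y τ⁻¹) P = kap (fr y τ) P - 2 * P.ord τ

/-- **ACR**: constants of `k(τ)` -/
def ACR : Prop := ForE fun k K _ _ _ _ _ => ∀ (d : ℕ) (τ : K), Rt k d τ → Acl k K

/-- **ACC**: constants of a conic -/
def ACC : Prop := ForE fun k K _ _ _ _ _ => ∀ (d : ℕ) (s t : K) (a b : k), Con d s t a b → Acl k K

/-- **RAT**: the closed points of the projective line -/
def RAT : Prop := ForE fun k K _ _ _ _ _ => ∀ (d : ℕ) (τ : K) (y : Fin d → k), Rt k d τ → Frm y →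
  (∀ μ : k[X], Irreducible μ → ∃ P : Pl K, Trv (algebraMap k K) P ∧ kap (fr y τ) P = 0 ∧
    P.ord (aeval τ μ) = 1 ∧ ∀ p : k[X], ¬ μ ∣ p → P.ord (aeval τ p) = 0) ∧
  ∃ P : Pl K, Trv (algebraMap k K) P ∧ kap (fr y τ) P = -2 ∧
    ∀ p : k[X], p ≠ 0 → P.ord (aeval τ p) = -(p.natDegree : ℤ)

/-- **POL**: the horizontal boundary is a polynomial of degree `2 q` -/
def POL : Prop := ForE fun k K _ _ _ _ _ => ∀ (d q m : ℕ) (τ h : K) (y : Fin d → k)
  (x : Fin (d + 1) → K), Rt k d τ → Frm y → Frm x → 0 < q → 0 < m → h ≠ 0 → Hor k q x m h →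
    ∃ (τ' J : K) (p : k[X]) (c : k), Rt k d τ' ∧ J ≠ 0 ∧
      (∀ P : Pl K, kap x P = kap (fr y τ') P + P.ord J) ∧ p.Monic ∧ p.natDegree = q + q ∧
      (∀ μ : k[X], Irreducible μ → ¬ μ ^ (q + 1) ∣ p) ∧ c ≠ 0 ∧
      h ^ q = algebraMap k K c * (aeval τ' p * J ^ q) ^ m

/-- **MAT**: a matching across the classes -/
def MAT : Prop := ∀ (q : ℕ) (κ : Type) (f : Fin (q + q) → κ), (∀ c, {i | f i = c}.ncard ≤ q) →
  ∃ σ : Equiv.Perm (Fin (q + q)), ∀ j : Fin q, f (σ (j.castAdd q)) ≠ f (σ (j.natAdd q))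

/-- **BAR**: the smallest disc which contains more than half of the points -/
def BAR : Prop := ∀ (L : Type) [Field L] [Algebra ℂ L] (w : Pl L) (q : ℕ) (α : Fin (q + q) → L),
  0 < q → (∀ c, {i | α i = c}.ncard ≤ q) → ∃ (a : L) (ρ : ℤ) (U : Fin (q + q) → ℤ)
    (σ : Equiv.Perm (Fin (q + q))), (∀ i, U i ≤ ρ ∧ (α i = a ∨ U i ≤ w.ord (α i - a))) ∧
      ∀ j : Fin q, α (σ (j.castAdd q)) ≠ α (σ (j.natAdd q)) ∧
        w.ord (α (σ (j.castAdd q)) - α (σ (j.natAdd q))) ≤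
          U (σ (j.castAdd q)) + U (σ (j.natAdd q)) - ρ

/-- **TRE**: the formula for a split polynomial -/
def TRE : Prop := ForE fun L F _ _ _ _ _ => ∀ (d q : ℕ) (τ : F) (y : Fin d → L)
  (α : Fin (q + q) → L), Rt L d τ → Frm y → 0 < q → (∀ c, {i | α i = c}.ncard ≤ q) →
    ∃ u, Out q 1 y (fr y τ) (∏ i, (τ - algebraMap L F (α i))) u

/-- **SPL**: the roots -/
def SPL : Prop := ∀ (k L : Type) [Field k] [CharZero k] [Field L] [Algebra k L] (q : ℕ) (p : k[X]),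
  p.Monic → p.natDegree = q + q → (∀ μ : k[X], Irreducible μ → ¬ μ ^ (q + 1) ∣ p) →
  (p.map (algebraMap k L)).Splits → ∃ α : Fin (q + q) → L, (∀ c, {i | α i = c}.ncard ≤ q) ∧
    p.map (algebraMap k L) = ∏ i, (X - C (α i))

/-- **GAL**: the splitting field -/
def GAL : Prop := ForE fun k K _ _ _ _ _ => ∀ (d : ℕ) (ν : k[X]), FF k d → FF K (d + 1) → Acl k K →
  ν ≠ 0 → ∃ (L F : Type) (_ : Field L) (_ : Algebra ℂ L) (_ : Field F) (_ : Algebra ℂ F)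
    (_ : Algebra k L) (_ : Algebra K F) (_ : Algebra L F) (_ : IsScalarTower ℂ k L)
    (_ : IsScalarTower ℂ K F) (_ : IsScalarTower ℂ L F) (G : Subgroup (F ≃ₐ[ℂ] F)),
    Sq k K L d ν.natDegree.factorial G ∧ (ν.map (algebraMap k L)).Splits ∧
      IntermediateField.adjoin K (algebraMap L F '' {l | aeval l ν = 0}) = ⊤

/-- **DSC**: Galois descent of the system -/
def DSC : Prop := ForS fun k K L F _ _ _ _ _ _ _ _ _ _ _ _ d D => ∀ (M E : ℕ) (y : Fin d → k)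
  (x : Fin (d + 1) → K) (ψ : K) (u : Finset L), 0 < M → Frm y → Frm x → ψ ≠ 0 →
    Out M E (fun i => algebraMap k L (y i)) (fun i => algebraMap K F (x i)) (algebraMap K F ψ) u →
    ∃ u', Out (M * D.factorial) (E * D) y x (ψ ^ D.factorial) u'

/-- **RSC**: the norm of the function -/
def RSC : Prop := ForS fun k K L F _ _ _ _ _ _ _ _ _ _ _ _ d D => ∀ (M E m : ℕ) (y : Fin d → L)
  (x : Fin (d + 1) → F) (h : K) (ψ : F) (c : L) (u : Finset L), Acl L F → 0 < M → 0 < m → ψ ≠ 0 →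
    c ≠ 0 → algebraMap K F h ^ M = algebraMap L F c * ψ ^ m → Out M E y x ψ u →
    ∃ (ψ' : K) (c' : k) (u' : Finset L), ψ' ≠ 0 ∧ c' ≠ 0 ∧
      h ^ (M * D.factorial) = algebraMap k K c' * ψ' ^ m ∧
      Out (M * D.factorial) E y x (algebraMap K F ψ') u'

/-- **DSN**: Galois descent of the formula -/
def DSN : Prop := ForS fun k K L F _ _ _ _ _ _ _ _ _ _ _ _ d D => ∀ q M E : ℕ, 0 < M → Acl L F →
  Unr K L F → CB L F d q M E → CB k K d q (M * D.factorial * D.factorial) (E * D)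

/-- **RTS**: the rational function field over the splitting field -/
def RTS : Prop := ForS fun k K L F _ _ _ _ _ _ _ _ _ _ _ _ d _ => ∀ (τ : K) (S : Set L),
  Rt k d τ → IntermediateField.adjoin K (algebraMap L F '' S) = ⊤ → Rt L d (algebraMap K F τ)

/-- **CNC**: the conic splits -/
def CNC : Prop := ForS fun k K L F _ _ _ _ _ _ _ _ _ _ _ _ d _ => ∀ (s t : K) (a b : k),
  Con d s t a b → ((X ^ 2 - C a).map (algebraMap k L)).Splits →
    IntermediateField.adjoin K (algebraMap L F '' {l | aeval l (X ^ 2 - C a) = 0}) = ⊤ →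
    (∃ τ : F, Rt L d τ) ∧ Unr K L F

/-- **CBR**: the formula for `k(τ)` -/
def CBR : Prop := ∀ q : ℕ, 0 < q → ∃ M E : ℕ, 2 ≤ M ∧ ForE fun k K _ _ _ _ _ =>
  ∀ (d : ℕ) (τ : K), Rt k d τ → CB k K d q M E

/-- **CBC**: the formula for conics -/
def CBC : Prop := ∀ q : ℕ, 0 < q → ∃ M E : ℕ, 2 ≤ M ∧ ForE fun k K _ _ _ _ _ =>
  ∀ (d : ℕ) (s t : K) (a b : k), Con d s t a b → CB k K d q M E

/-- **STP**: one step -/
def STP : Prop := ∀ (q : ℕ) (ε : ℝ), 0 < q → 0 < ε → ∃ (q' M : ℕ) (ε' : ℝ), 0 < q' ∧ 0 < M ∧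
  0 < ε' ∧ ForE fun k K _ _ _ _ _ => ∀ (d : ℕ) (s t : K) (a b : k) (T : Set (Pl K)), 1 ≤ d →
    Con d s t a b → (∀ P : Pl K, Trv (algebraMap k K) P → P ∈ T) → Go k d (d + 1) q ε q' M ε' T

/-- **ISO**: no step -/
def ISO : Prop := ForE fun k K _ _ _ _ _ => ∀ (d q : ℕ) (ε : ℝ) (T : Set (Pl K)), FF k d →
  Function.Surjective (algebraMap k K) → Go k d d q ε q 1 ε T

/-- **TOW**: the tower -/
def TOW : Prop := ∀ (r q : ℕ) (ε : ℝ), 0 < q → 0 < ε → ∃ (q' M : ℕ) (ε' : ℝ), 0 < q' ∧ 0 < M ∧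
  0 < ε' ∧ ForE fun k K _ _ _ _ _ => ∀ (d : ℕ) (T : Set (Pl K)), 1 ≤ d → Tow d r k K T →
    FF k d ∧ FF K (d + r) ∧ Go k d (d + r) q ε q' M ε' T

section schemes

open Vale.Agent.P289 (Pt St toRat val DForm dimension)
open Vale.Agent.P283M Vale.Agent.P283M.Stm Vale.Agent.P283M.Stm.Var
open Vale.Agent.P283M.Br (Dom)
open Vale.Agent.P283R.Et (Pe)

variable {X Y : Var}

/-- the prime divisors of `X` -/
def Pri (X : Var) : Set (Pl X.K) := {P | ∃ E : X.PrimeDiv, Dom P.ring E.1}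

/-- `D` is `ℚ`-linearly trivial over `Y` -/
def Triv (g : X.X ⟶ Y.X) (D : X.PrimeDiv → ℚ) : Prop :=
  ∀ y : Pt Y.X, ∃ m a, 0 < m ∧ ∀ x : Pt X.X, x.map g = y → LocalEq D m a x

/-- `D` is `ℚ`-linearly equivalent to the pull back of `D'` -/
def Pull (g : X.X ⟶ Y.X) (p : Y.K →+* X.K) (D : X.PrimeDiv → ℚ) (D' : Y.PrimeDiv → ℚ) : Prop :=
  ∃ (M : ℕ) (θ : X.K), 0 < M ∧ θ ≠ 0 ∧ ∀ (x : Pt X.X) (m : ℕ) (c : Y.K),
    LocalEq D' m c (x.map g) → LocalEq D (M * m) (θ ^ m * p c ^ M) x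

/-- a statement on all contractions -/
def ForC (T : ∀ (X Y : Var), (X.X ⟶ Y.X) → (Y.K →+* X.K) → Prop) : Prop :=
  ∀ (X Y : Var) (g : X.X ⟶ Y.X) (p : Y.K →+* X.K), Contraction g → Pe g p → T X Y g p

/-- **CHT**: finitely many charts -/
def CHT : Prop := ForC fun X Y g p => ∀ (d : ℕ) (ω : DForm ℂ X.K d) (B : X.QDiv), 1 ≤ d →
  dimension X.str = d → ω.Nonzero → Triv g (logCan ω B) → ∃ (N : ℕ) (W : Fin (N + 1) → Y.X.Opens)
    (v : Fin (N + 1) → Finset Y.K) (m : Fin (N + 1) → ℕ) (a : Fin (N + 1) → X.K)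
    (c : Fin (N + 1) → Y.K), (∀ y : Pt Y.X, ∃ j, y ∈ W j) ∧ ∀ j, 0 < m j ∧ a j ≠ 0 ∧ c j ≠ 0 ∧
      (∀ b ∈ v j, ∀ y ∈ W j, RegAt b y) ∧
      (∀ P : Pl X.K, (∀ b ∈ v j, p b ∈ P.ring) → ∃ x ∈ g ⁻¹ᵁ W j, Dom P.ring x) ∧
      (∀ x ∈ g ⁻¹ᵁ W j, LocalEq (logCan ω B) (m j) (a j) x) ∧
      a j ^ m 0 = p (c j) * a 0 ^ m j

/-- **PRM**: the prime divisors of the base are dominated; centres -/
def PRM : Prop := ForC fun X Y g p => (∀ w ∈ Pri Y, ∃ P ∈ Pri X, Lies p P w) ∧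
  ∀ (P : Pl X.K) (x : Pt X.X), Dom P.ring x →
    ∀ w : Pl Y.K, Lies p P w → Dom w.ring (x.map g)

/-- **DWN**: the pair on the base -/
def DWN : Prop := ∀ (r q : ℕ) (ε : ℝ), 0 < q → 0 < ε → ∃ (R : Finset ℚ) (M : ℕ) (ε' : ℝ),
  (∀ a ∈ R, 0 ≤ a ∧ a ≤ 1) ∧ 0 < M ∧ 0 < ε' ∧ ForC fun X Y g p => ∀ (d : ℕ)
    (ω : DForm ℂ X.K (d + r)) (η : DForm ℂ Y.K d) (B : X.QDiv), 1 ≤ d →
    dimension X.str = (d + r : ℕ) → ω.Nonzero → η.Nonzero → Pair (ε ≤ ·) ⊤ ω B →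
    (∀ E, ∃ z : ℤ, q * B E = z) → Triv g (logCan ω B) →
    (letI := p.toAlgebra; Tow d r Y.K X.K (Pri X)) → ∃ Δ : Y.QDiv, Pair (ε' ≤ ·) ⊤ η Δ ∧
      (∀ E, Δ E ≠ 0 → Δ E ∈ R) ∧ Pull g p (logCan ω B) (logCan η Δ) ∧
      ∀ (Z : Var) (h : Y.X ⟶ Z.X) (z : Pt Z.X) (n : ℕ), 0 < n → M ∣ n →
        HasKltComplement h η Δ n z → HasKltComplement (g ≫ h) ω B n z

/-- **NEF**: nefness descends -/
def NEF : Prop := ForC fun X Y g p => ∀ (Z : Var) (h : Y.X ⟶ Z.X) (D : X.PrimeDiv → ℚ)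
  (D' : Y.PrimeDiv → ℚ), {y | D' y ≠ 0}.Finite → (∀ y, ∃ m c, 0 < m ∧ LocalEq D' m c y) →
    Pull g p D D' → NefOver (g ≫ h) (-D) → NefOver h (-D')

end schemes

/-- **BARR** -/
def BARR : Prop := MAT → BAR

/-- **RATR** -/
def RATR : Prop := SHF → RAT

/-- **POLR** -/
def POLR : Prop := SHF → RAT → POL

/-- **TRER** -/
def TRER : Prop := SHF → MAT → BAR → TRE

/-- **DSNR** -/
def DSNR : Prop := DSC → RSC → DSN

/-- **CBRR** -/
def CBRR : Prop := SHF → ACR → POL → SPL → GAL → RTS → TRE → DSC → CBR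

/-- **CBCR** -/
def CBCR : Prop := ACR → ACC → GAL → CNC → DSN → CBR → CBC

/-- **STPR** -/
def STPR : Prop := CBC → STP

/-- **TOWR** -/
def TOWR : Prop := ISO → STP → TOW

/-- **DWNR** -/
def DWNR : Prop := TOW → CHT → PRM → DWN

end Vale.Agent.P283R.Cf
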