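import Vale.Agent.P283R.Cf.St
import Vale.Agent.P283R.Sl.Cf2
import Vale.Agent.P283R.Sl.Un3
import Vale.Agent.P283R.Cx.Ga
import Vale.Agent.P283R.Br.Idn

/-!
# P283R, block CF: the classes over towers of conics
-/

open CategoryTheory AlgebraicGeometry

noncomputable section

namespace Vale.Agent.P283R.Sl

open Var Vale.Agent.P287D

/-- **ADP**: the tower of subfields is a tower of fields -/
def ADP : Prop := ∀ {X Y : Var} (g : X.X ⟶ Y.X), g ≫ Y.str = X.str → ∀ p : Y.K →+* X.K,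
  Et.Pe (W := X.o) (Z := Y.o) g p → ∀ {d e : ℕ}, dimension X.str = d → dimension Y.str = e →
  Relation.ReflTransGen (ConicStep X) p.fieldRange ⊤ →
  ∃ r, d = e + r ∧ (letI := p.toAlgebra; Cf.Tow e r Y.K X.K (Cf.Pri X.o))

variable {C : ∀ (d : ℕ) (X Z : Var), (X.X ⟶ Z.X) → X.Form d → X.QDiv → Pt Z.X → Prop}

/-- the wrapper -/
theorem on_ov (hD : Cf.DWN) (hA : ADP) (h : On C) : On fun _ X Z f ω B z =>
    OverConics (fun e Y h η => ∀ (g : X.X ⟶ Y.X) (p : Y.K →+* X.K) (Δ : Y.QDiv), 1 ≤ e →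
      dimension Y.str = e → η.Nonzero → g ≫ h = f → Contraction g →
      Et.Pe (W := X.o) (Z := Y.o) g p → Pair (0 < ·) (all Y.X) η Δ →
      Cf.Pull (X := X.o) (Y := Y.o) g p (logCan ω B) (logCan η Δ) → C e Y Z h η Δ z) f ω B := by
  intro d hd ε hε R hR
  have hq : 0 < ∏ a ∈ R, a.den := Finset.prod_pos fun a _ => a.den_pos
  choose R' M ε' a1 a2 a3 H using fun r => hD r _ ε hq hε
  choose n hn K using fun e r => h (e + 1) (Nat.le_add_left _ _) (ε' r) (a3 r) (R' r) (a1 r)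
  have N0 : 0 < ∏ x ∈ Finset.range d ×ˢ Finset.range d, M x.2 * n x.1 x.2 :=
    Finset.prod_pos fun x _ => Nat.mul_pos (a2 _) (hn _ _)
  refine ⟨_, N0, fun X Z f ω B z a b c i s t u => ?_⟩
  obtain ⟨e, Y, g, h', η, b1, b2, b3, rfl, b5, b6, ⟨p, hp, tw⟩, tr, u⟩ := u
  obtain ⟨r, rfl, T⟩ := hA g b5.1 p hp a b2 tw
  obtain ⟨e, rfl⟩ : ∃ k, e = k + 1 := ⟨e - 1, (Nat.sub_add_cancel b1).symm⟩
  obtain ⟨Δ, c1, c2, c3, c4⟩ := H r X.o Y.o g p b5 hp (e + 1) ω η B b1 a b b3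
    ((pair_iff _ _ ω B).1 c) (fun E => by
      by_cases z : B E = 0
      · exact ⟨0, (congrArg (_ * ·) z).trans (by simp)⟩
      · obtain ⟨k, hk⟩ := Br.den R (i E z) (hR _ (i E z)).1
        exact ⟨k, hk⟩) tr T
  have c1' := (pair_iff _ _ η Δ).2 c1
  have dv : M r * n e r ∣
      ∏ x ∈ Finset.range (e + 1 + r) ×ˢ Finset.range (e + 1 + r), M x.2 * n x.1 x.2 :=
    Finset.dvd_prod_of_mem (fun x : ℕ × ℕ => M x.2 * n x.1 x.2) (a := (e, r))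
      (by simp only [Finset.mem_product, Finset.mem_range]; omega)
  refine (has_iff _ ω B _ z).2 (c4 Z.o h' z _ N0 ((dvd_mul_right _ _).trans dv)
    ((has_iff h' η Δ _ z).1 ((K e r Y Z h' η Δ z b2 b3 c1' c2 b6 t
      (u g p Δ b1 b2 b3 rfl b5 hp ?_ c3)).of_dvd ((dvd_mul_left _ _).trans dv))))
  exact ⟨c1'.1, c1'.2.1, fun W E k m φ m0 l => (a3 r).trans_le (c1'.2.2 W E k m φ m0 l)⟩

/-- the classes of Fano type over a tower of conics -/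
theorem ov_of (hD : Cf.DWN) (hA : ADP) (hN : Cf.NEF) (h : OnN C) : OnN fun _ _ Z f ω B z =>
    OverConics (fun e Y h η => FanoType h η ∧ ∀ Δ, C e Y Z h η Δ z) f ω B :=
  (on_ov hD hA h).mono fun _ X Z f _ _ _ ⟨_, v, e, Y, g, h, η, b1, b2, b3, b4, b5, b6, b7, b8, u⟩ =>
    ⟨e, Y, g, h, η, b1, b2, b3, b4, b5, b6, b7, b8, fun g p Δ _ _ _ c4 c5 c6 c7 c8 =>
      ⟨u.1, (nefOver_iff h _).2 (hN X.o Y.o g p c5 c6 Z.o h _ _ (Eb.logCan_fin (X := Y.o) b1 b2 b3 Δ)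
        (fun y => c7.2.1 y trivial) c8 (c4 ▸ (nefOver_iff f _).1 v)), u.2 Δ⟩⟩

theorem exists_form (Z : Var) : ∃ (e : ℕ) (η : Z.Form e), dimension Z.str = e ∧ η.Nonzero := by
  obtain ⟨e, hK⟩ := P283M.Md.exists_ff Z.o
  obtain ⟨y, hy, -⟩ := id hK
  obtain ⟨D, hD⟩ := Cb.fr_of hK hy
  let L : Derivation ℂ Z.K Z.K →ₗ[Z.K] Fin e → Z.K :=
    { toFun := fun v l => v (y l), map_add' := fun _ _ => rfl, map_smul' := fun _ _ => rfl }
  refine ⟨e, (Pi.basisFun Z.K (Fin e)).det.compLinearMap L, hK.trdeg, fun z => ?_⟩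
  have k : (Pi.basisFun Z.K (Fin e)).det (fun i => L (D i)) = 0 := congrArg (fun w => w D) z
  rw [Pi.basisFun_det_apply] at k
  exact one_ne_zero ((Cb.jac_self hD).symm.trans k)

/-- towers of conics over a germ -/
theorem conic_of {S : ∀ Z : Var, Pt Z.X → Prop} (hD : Cf.DWN) (hA : ADP)
    (h : On fun _ _ Z f ω B z => Crepant f ω B z ∧ S Z z) : On fun _ _ Z f ω B z =>
    ConicTower f ∧ TrivialOver f ω B ∧ dimension Z.str ≠ 0 ∧ S Z z := by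
  intro d hd ε hε R hR
  obtain ⟨n, hn, H⟩ := on_ov hD hA h d hd ε hε R hR
  refine ⟨n, hn, fun X Z f ω B z a b c i s t u => H X Z f ω B z a b c i s t ?_⟩
  obtain ⟨e, η, h1, h2⟩ := exists_form Z
  exact ⟨e, Z, f, 𝟙 _, η, Nat.pos_of_ne_zero fun k => u.2.2.1 (by rw [h1, k, Nat.cast_zero]), h1,
    h2, Category.comp_id _, s, Br.ctr_id (X := Z.o), u.1, u.2.1, fun _ _ Δ _ _ _ _ _ _ l _ =>
      ⟨⟨⟨_, Br.pb_id (X := Z.o)⟩, Br.loc_id (X := Z.o) ((pair_iff _ _ η Δ).1 l) z⟩, u.2.2.2⟩⟩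

theorem OnN.den {C : ℕ → ∀ (d : ℕ) (X Z : Var), (X.X ⟶ Z.X) → X.Form d → X.QDiv → Pt Z.X → Prop}
    (h : ∀ q, 1 ≤ q → OnN (C q)) : OnN fun d X Z f ω B z =>
      ∀ q : ℕ, (∀ E, ∃ m : ℤ, q * B.coeff E = m) → C q d X Z f ω B z :=
  (On.den h).mono fun _ _ _ _ _ _ _ u q k => ⟨u.1, u.2.1, u.2.2 q k⟩

end Vale.Agent.P283R.Sl
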